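import Vale.Agent.P141.H958.StarB

/-!
# P141, line W: the pair estimate with two capped inputs and a free ratio

The path form of `H736.Chg`, applied to rescaled inputs.  For inputs with caps at their own level
the two energies enter with weights `r` and `r⁻¹`, `r > 0` free, and a change only costs the
energy which both functions have on the changed boxes.
-/

namespace Vale.Agent.P141.H170

open Finset Matrix Vale.Agent.P075 Vale.Agent.P141.PL Vale.Agent.P141.PL.H588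
open Vale.Agent.P141.PL.H804 Vale.Agent.P141.H736 Vale.Agent.P141.H958

noncomputable section

open scoped Classical

/-! ### matrices -/

section mat

variable {n : Type*} [Fintype n] [DecidableEq n]

/-- `φ(t X) ≥ t φ(X)` for `0 ≤ t ≤ 1` -/
theorem phi_smul_ge {X : Matrix n n ℝ} (hX : X.PosSemidef) {t : ℝ} (h0 : 0 ≤ t) (h1 : t ≤ 1) :
    (phi (t • X) - t • phi X).PosSemidef := by
  have hr : (res (t • X) - res X).PosSemidef := by
    have h := res_anti (hX.smul (α := ℝ) h0) (hX.smul (α := ℝ) (sub_nonneg.2 h1))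
    have e : t • X + (1 - t) • X = X := by module
    rwa [e] at h
  obtain ⟨S, hS, rfl⟩ := exists_sq hX
  have hSs := psd_isSymm hS
  have ht : √t * √t = t := Real.mul_self_sqrt h0
  have e2 : (√t • S)ᵀ * (√t • S) = t • (S * S) := by
    rw [transpose_smul, hSs, Matrix.smul_mul, Matrix.mul_smul, smul_smul, ht]
  have e3 : (√t • S) * (√t • S)ᵀ = t • (S * S) := by
    rw [transpose_smul, hSs, Matrix.smul_mul, Matrix.mul_smul, smul_smul, ht]
  have h2 := phi_row (√t • S)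
  rw [e2, e3] at h2
  have h3 := phi_row S
  rw [hSs] at h3
  have h4 := (psd_conj_symm hr hSs).smul (α := ℝ) h0
  convert h4 using 1
  rw [← h2, ← h3, transpose_smul, hSs, Matrix.smul_mul, Matrix.smul_mul, Matrix.mul_smul,
    smul_smul, ht, Matrix.mul_sub, Matrix.sub_mul, smul_sub]

theorem trace_mul_cap_right {X Y : Matrix n n ℝ} (hX : X.PosSemidef)
    (hY : (1 - Y).PosSemidef) : (X * Y).trace ≤ X.trace := by
  have h := trace_mul_le_right hX hY
  rwa [Matrix.mul_one] at h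

theorem trace_mul_cap_left {X Y : Matrix n n ℝ} (hY : Y.PosSemidef)
    (hX : (1 - X).PosSemidef) : (X * Y).trace ≤ Y.trace := by
  have h := trace_mul_le_left hY hX
  rwa [Matrix.one_mul] at h

/-- the box term after scaling, both linear -/
theorem trace_phi_smul_le {X Y : Matrix n n ℝ} (hX : X.PosSemidef) (hY : Y.PosSemidef)
    {p q : ℝ} (hp : 0 ≤ p) (hq : 0 ≤ q) :
    (phi (p • X) * phi (q • Y)).trace ≤ p * q * (X * Y).trace := by
  have hpX := hX.smul (α := ℝ) hp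
  have hqY := hY.smul (α := ℝ) hq
  have h1 := trace_mul_le_left (phi_psd hqY) (phi_le_self hpX)
  have h2 := trace_mul_le_right hpX (phi_le_self hqY)
  refine (h1.trans h2).trans (le_of_eq ?_)
  rw [Matrix.smul_mul, Matrix.mul_smul, smul_smul, trace_smul, smul_eq_mul]

/-- the box term after scaling, one linear -/
theorem trace_phi_smul_le' {X Y : Matrix n n ℝ} (hX : X.PosSemidef) (hY : Y.PosSemidef)
    {q : ℝ} (hq : 0 ≤ q) :
    (phi X * phi (q • Y)).trace ≤ q * (phi X * Y).trace := by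
  have h2 := trace_mul_le_right (phi_psd hX) (phi_le_self (hY.smul (α := ℝ) hq))
  refine h2.trans (le_of_eq ?_)
  rw [Matrix.mul_smul, trace_smul, smul_eq_mul]

end mat

/-! ### scaled inputs -/

theorem Xg_wt (k : ℕ) {p : ℝ} (hp : 0 ≤ p) (F : ℤ → ℤ → ℝ) (n m : ℤ) :
    Xg k k (fun x y => √p * F x y) n m = p • Xg k k F n m := by
  ext i j
  rw [Matrix.smul_apply, Xg_apply, Xg_apply, smul_eq_mul, mul_left_comm]
  congr 1
  rw [mul_sum]
  refine sum_congr rfl fun l _ => ?_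
  have := Real.mul_self_sqrt hp
  linear_combination (F (2 ^ k * n + val k l) (2 ^ k * m + val k i)
    * F (2 ^ k * n + val k l) (2 ^ k * m + val k j)) * this

/-- The sum over the changed boxes of an arbitrary box quantity. -/
def mixW (N : ℕ) (R S T : ℤ) (k : ℕ) (c : ℤ) (Q Q' : ℤ → ℤ → Prop) (w : ℤ → ℤ → ℝ) : ℝ :=
  (4 : ℝ) ^ k * ∑ m ∈ iv (N - k) S, ∑ n ∈ iv (N - k) R,
    if c - m - n ∈ iv (N - k) T ∧ (Q n m ∨ Q' (c - m - n) m) then w n m else 0

/-- `tr X_F X_H` on the box -/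
def bLL (k : ℕ) (c : ℤ) (F H : ℤ → ℤ → ℝ) (n m : ℤ) : ℝ :=
  (Xg k k F n m * Xg k k H (c - m - n) m).trace

/-- `tr φ(X_F) X_H` on the box -/
def bPL (k : ℕ) (c : ℤ) (F H : ℤ → ℤ → ℝ) (n m : ℤ) : ℝ :=
  (phi (Xg k k F n m) * Xg k k H (c - m - n) m).trace

theorem mixW_mono {N : ℕ} {R S T : ℤ} {k : ℕ} {c : ℤ} {Q Q' : ℤ → ℤ → Prop} {w w' : ℤ → ℤ → ℝ}
    (h : ∀ m ∈ iv (N - k) S, ∀ n ∈ iv (N - k) R, c - m - n ∈ iv (N - k) T → w n m ≤ w' n m) :
    mixW N R S T k c Q Q' w ≤ mixW N R S T k c Q Q' w' := by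
  unfold mixW
  refine mul_le_mul_of_nonneg_left (sum_le_sum fun m hm => sum_le_sum fun n hn => ?_)
    (by positivity)
  split_ifs with hc
  · exact h m hm n hn hc.1
  · exact le_rfl

/-- the changed boxes are paid by the changed squares -/
theorem mixW_le (N : ℕ) (R S T : ℤ) (k : ℕ) (c : ℤ) (Q Q' : ℤ → ℤ → Prop) (w : ℤ → ℤ → ℝ)
    (f g : ℤ → ℤ → ℝ) (hf0 : ∀ n m, 0 ≤ f n m) (hg0 : ∀ n m, 0 ≤ g n m)
    (hf : ∀ m ∈ iv (N - k) S, ∀ n ∈ iv (N - k) R, c - m - n ∈ iv (N - k) T → Q n m →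
      w n m ≤ f n m)
    (hg : ∀ m ∈ iv (N - k) S, ∀ n ∈ iv (N - k) R, c - m - n ∈ iv (N - k) T → Q' (c - m - n) m →
      w n m ≤ g (c - m - n) m) :
    mixW N R S T k c Q Q' w
      ≤ 4 ^ k * (∑ m ∈ iv (N - k) S, ∑ n ∈ iv (N - k) R, if Q n m then f n m else 0)
        + 4 ^ k * ∑ m ∈ iv (N - k) S, ∑ n ∈ iv (N - k) T, if Q' n m then g n m else 0 := by
  unfold mixW
  rw [← mul_add, ← sum_add_distrib]
  refine mul_le_mul_of_nonneg_left (sum_le_sum fun m hm => ?_) (by positivity)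
  have h := sum_refl_le (N - k) R T (c - m) (fun n => if Q' n m then g n m else 0)
    (fun n => by split_ifs; exacts [hg0 n m, le_rfl])
  refine le_trans ?_ (add_le_add_right h _)
  rw [← sum_add_distrib]
  refine sum_le_sum fun n hn => ?_
  by_cases hc : c - m - n ∈ iv (N - k) T
  · rw [if_pos hc]
    by_cases h1 : Q n m
    · rw [if_pos ⟨hc, Or.inl h1⟩, if_pos h1]
      have := hf m hm n hn hc h1
      split_ifs
      · have := hg0 (c - m - n) m
        linarith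
      · linarith
    · rw [if_neg h1]
      by_cases h2 : Q' (c - m - n) m
      · rw [if_pos ⟨hc, Or.inr h2⟩, if_pos h2]
        have := hg m hm n hn hc h2
        linarith
      · rw [if_neg (fun h => h.2.elim h1 h2), if_neg h2, add_zero]
  · rw [if_neg hc, if_neg (fun h => hc h.1)]
    split_ifs
    · have := hf0 n m
      linarith
    · simp

/-- the changed boxes are paid by the area of the changed squares -/
theorem mixW_le_area (N : ℕ) (R S T : ℤ) (k : ℕ) (c : ℤ) (Q Q' : ℤ → ℤ → Prop)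
    (w : ℤ → ℤ → ℝ) {b : ℝ} (hb0 : 0 ≤ b)
    (hb : ∀ m ∈ iv (N - k) S, ∀ n ∈ iv (N - k) R, c - m - n ∈ iv (N - k) T → w n m ≤ b) :
    mixW N R S T k c Q Q' w ≤ b * (arQ N R S k Q + arQ N T S k Q') := by
  refine (mixW_le N R S T k c Q Q' w (fun _ _ => b) (fun _ _ => b) (fun _ _ => hb0)
    (fun _ _ => hb0) (fun m hm n hn hc _ => hb m hm n hn hc)
    (fun m hm n hn hc _ => hb m hm n hn hc)).trans (le_of_eq ?_)
  have e : ∀ (R : ℤ) (Q : ℤ → ℤ → Prop), (4 : ℝ) ^ k * (∑ m ∈ iv (N - k) S,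
        ∑ n ∈ iv (N - k) R, if Q n m then b else 0) = b * arQ N R S k Q := by
    intro R Q
    rw [arQ, mul_left_comm]
    refine congrArg (fun t : ℝ => (4 : ℝ) ^ k * t) ?_
    rw [mul_sum]
    refine sum_congr rfl fun m _ => ?_
    rw [mul_sum]
    refine sum_congr rfl fun n _ => ?_
    split_ifs <;> ring
  rw [e, e]
  ring

/-! ### the pair estimate -/

/-- the inputs are capped at their own level at the times of change -/
def Cap1 (N : ℕ) (R S : ℤ) (F : ℕ → ℤ → ℤ → ℝ) : Prop :=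
  ∀ k < N, ∀ n ∈ iv (N - k) R, ∀ m ∈ iv (N - k) S, (1 - Xg k k (F (k + 1)) n m).PosSemidef

theorem capX_of {N : ℕ} {R S : ℤ} {F : ℕ → ℤ → ℤ → ℝ} {p : ℝ} (hp : 0 ≤ p)
    (h : p = 1 ∨ Cap1 N R S F) : ∀ k < N, CapX N R S k p (wp p F (k + 1)) := by
  intro k hk
  refine ⟨hp, ?_⟩
  rcases h with h | h
  · exact Or.inl h.ge
  · refine Or.inr fun n hn m hm => ?_
    have h1 := (h k hk n hn m hm).smul (α := ℝ) hp
    have e : wp p F (k + 1) = fun x y => √p * F (k + 1) x y := rfl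
    rw [e, Xg_wt k hp]
    rwa [smul_sub] at h1

theorem mnk_wt_ge (N : ℕ) (R S T : ℤ) (k : ℕ) (c : ℤ) (F H : ℤ → ℤ → ℝ) {p q : ℝ} (hp : 0 ≤ p)
    (hp1 : p ≤ 1) (hq : 0 ≤ q) (hq1 : q ≤ 1) :
    p * q * mnk N R S T k c F H
      ≤ mnk N R S T k c (fun x y => √p * F x y) (fun x y => √q * H x y) := by
  unfold mnk
  rw [mul_left_comm]
  refine mul_le_mul_of_nonneg_left ?_ (by positivity)
  rw [mul_sum]
  refine sum_le_sum fun m _ => ?_
  rw [mul_sum]
  refine sum_le_sum fun n _ => ?_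
  split_ifs
  · rw [Xg_wt k hp, Xg_wt k hq]
    set X := Xg k k F n m
    set Y := Xg k k H (c - m - n) m
    have hX : X.PosSemidef := Xg_psd _ _ _ _ _
    have hY : Y.PosSemidef := Xg_psd _ _ _ _ _
    have hr := hd_symm k
    have h1 : ((p • phi X) * (hd k * phi (q • Y) * hd k)).trace ≤
        (phi (p • X) * (hd k * phi (q • Y) * hd k)).trace :=
      trace_mul_le_left (psd_conj_symm (phi_psd (hY.smul hq)) hr) (phi_smul_ge hX hp hp1)
    have h2 : (phi X * (hd k * (q • phi Y) * hd k)).trace ≤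
        (phi X * (hd k * phi (q • Y) * hd k)).trace := by
      refine trace_mul_le_right (phi_psd hX) ?_
      have h := psd_conj_symm (phi_smul_ge hY hq hq1) hr
      rwa [Matrix.mul_sub, Matrix.sub_mul] at h
    rw [Matrix.smul_mul, trace_smul, smul_eq_mul] at h1
    rw [Matrix.mul_smul, Matrix.smul_mul, Matrix.mul_smul, trace_smul, smul_eq_mul] at h2
    calc _ = p * (q * (phi X * (hd k * phi Y * hd k)).trace) := by ring
      _ ≤ p * (phi X * (hd k * phi (q • Y) * hd k)).trace := mul_le_mul_of_nonneg_left h2 hp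
      _ ≤ _ := h1
  · rw [mul_zero]

theorem mix_wt_le (N : ℕ) (R S T : ℤ) (k : ℕ) (c : ℤ) (Q Q' : ℤ → ℤ → Prop)
    (F H : ℤ → ℤ → ℝ) {p q : ℝ} (hp : 0 ≤ p) (hq : 0 ≤ q) :
    mix N R S T k c Q Q' (fun x y => √p * F x y) (fun x y => √q * H x y)
      ≤ p * q * mixW N R S T k c Q Q' (bLL k c F H) := by
  unfold mix mixW
  rw [mul_left_comm]
  refine mul_le_mul_of_nonneg_left ?_ (by positivity)
  rw [mul_sum]
  refine sum_le_sum fun m _ => ?_
  rw [mul_sum]
  refine sum_le_sum fun n _ => ?_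
  split_ifs
  · rw [Xg_wt k hp, Xg_wt k hq]
    exact trace_phi_smul_le (Xg_psd ..) (Xg_psd ..) hp hq
  · rw [mul_zero]

theorem mix_wt_le' (N : ℕ) (R S T : ℤ) (k : ℕ) (c : ℤ) (Q Q' : ℤ → ℤ → Prop)
    (F H : ℤ → ℤ → ℝ) {q : ℝ} (hq : 0 ≤ q) :
    mix N R S T k c Q Q' F (fun x y => √q * H x y)
      ≤ q * mixW N R S T k c Q Q' (bPL k c F H) := by
  unfold mix mixW
  rw [mul_left_comm]
  refine mul_le_mul_of_nonneg_left ?_ (by positivity)
  rw [mul_sum]
  refine sum_le_sum fun m _ => ?_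
  rw [mul_sum]
  refine sum_le_sum fun n _ => ?_
  split_ifs
  · rw [Xg_wt k hq]
    exact trace_phi_smul_le' (Xg_psd ..) (Xg_psd ..) hq
  · rw [mul_zero]

section

variable {N : ℕ} {R S T : ℤ} {c : ℕ → ℤ} {Q Q' : ℕ → ℤ → ℤ → Prop} {F H : ℕ → ℤ → ℤ → ℝ}

theorem wp_zero (μ : ℝ) (h : F 0 = 0) : wp μ F 0 = 0 := by
  funext x y
  simp [wp, h]

theorem sqQ_wt {μ : ℝ} (hμ : 0 ≤ μ) (k : ℕ) (Q : ℤ → ℤ → Prop) (F : ℤ → ℤ → ℝ) :
    sqQ N R S k Q (fun x y => √μ * F x y) = μ * sqQ N R S k Q F := by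
  unfold sqQ
  rw [mul_sum]
  refine sum_congr rfl fun m _ => ?_
  rw [mul_sum]
  refine sum_congr rfl fun n _ => ?_
  split_ifs
  · exact sqb_smul hμ k n m F
  · rw [mul_zero]

/-- the estimate for the inputs of weights `p`, `q` -/
theorem prs_pq (hc : Pl c) (hF : Path N R S Q F) (hH : Path N T S Q' H)
    (hF0 : F 0 = 0) (hH0 : H 0 = 0) {p q : ℝ} (hp : 0 < p) (hp1 : p ≤ 1) (hq : 0 < q)
    (hq1 : q ≤ 1) (cF : p = 1 ∨ Cap1 N R S F) (cH : q = 1 ∨ Cap1 N T S H) :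
    p * q * prs N R S T c F H
      ≤ 2 * ∑ k ∈ range N, mix N R S T k (c k) (Q k) (Q' k) (wp p F (k + 1)) (wp q H (k + 1))
        + 540 * (p ^ 2 * pwr N R S Q F + q ^ 2 * pwr N T S Q' H) := by
  have h := sum_mnk_le R S T hc (path_wp p hF) (path_wp q hH) (wp_zero p hF0) (wp_zero q hH0)
    (capX_of hp.le cF) (capX_of hq.le cH)
  have h1 : p * q * prs N R S T c F H
      ≤ ∑ k ∈ Icc 1 N, mnk N R S T k (c k) (wp p F k) (wp q H k) := by
    unfold prs
    rw [mul_sum]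
    exact sum_le_sum fun k _ => mnk_wt_ge N R S T k (c k) (F k) (H k) hp.le hp1 hq.le hq1
  refine h1.trans (h.trans (le_of_eq ?_))
  have e1 : ∀ k, sqQ N R S k (Q k) (wp p F (k + 1)) = p * sqQ N R S k (Q k) (F (k + 1)) :=
    fun k => sqQ_wt hp.le k (Q k) (F (k + 1))
  have e2 : ∀ k, sqQ N T S k (Q' k) (wp q H (k + 1)) = q * sqQ N T S k (Q' k) (H (k + 1)) :=
    fun k => sqQ_wt hq.le k (Q' k) (H (k + 1))
  simp only [e1, e2]
  rw [sum_add_distrib, sum_add_distrib, ← mul_sum, ← mul_sum, ← mul_sum, ← mul_sum, ← mul_sum,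
    ← mul_sum, ← mul_sum]
  unfold pwr
  ring

/-- **Pair estimate, both inputs capped, free ratio `r > 0`.** -/
theorem prs_ratio (hc : Pl c) (hF : Path N R S Q F) (hH : Path N T S Q' H)
    (hF0 : F 0 = 0) (hH0 : H 0 = 0) (cF : Cap1 N R S F) (cH : Cap1 N T S H) {r : ℝ}
    (hr : 0 < r) :
    prs N R S T c F H
      ≤ 2 * ∑ k ∈ range N, mixW N R S T k (c k) (Q k) (Q' k) (bLL k (c k) (F (k + 1)) (H (k + 1)))
        + 540 * (r * pwr N R S Q F + r⁻¹ * pwr N T S Q' H) := by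
  -- the two weights
  obtain ⟨p, q, hp, hp1, hq, hq1, hpq⟩ : ∃ p q : ℝ, 0 < p ∧ p ≤ 1 ∧ 0 < q ∧ q ≤ 1 ∧ p = r * q := by
    rcases le_total r 1 with h | h
    · exact ⟨r, 1, hr, h, one_pos, le_rfl, by ring⟩
    · exact ⟨1, r⁻¹, one_pos, le_rfl, inv_pos.2 hr, inv_le_one_of_one_le₀ h,
        (mul_inv_cancel₀ hr.ne').symm⟩
  have h := prs_pq hc hF hH hF0 hH0 hp hp1 hq hq1 (Or.inr cF) (Or.inr cH)
  have h2 : ∑ k ∈ range N, mix N R S T k (c k) (Q k) (Q' k) (wp p F (k + 1)) (wp q H (k + 1))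
      ≤ p * q * ∑ k ∈ range N, mixW N R S T k (c k) (Q k) (Q' k)
        (bLL k (c k) (F (k + 1)) (H (k + 1))) := by
    rw [mul_sum]
    exact sum_le_sum fun k _ => mix_wt_le N R S T k (c k) (Q k) (Q' k) (F (k + 1)) (H (k + 1))
      hp.le hq.le
  have hpq0 : 0 < p * q := mul_pos hp hq
  refine le_of_mul_le_mul_left (h.trans ?_) hpq0
  have e : p * q * (540 * (r * pwr N R S Q F + r⁻¹ * pwr N T S Q' H))
      = 540 * (p ^ 2 * pwr N R S Q F + q ^ 2 * pwr N T S Q' H) := by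
    rw [hpq]
    field_simp
  rw [mul_add (p * q) (2 * _), e]
  linarith

/-- **Pair estimate, second input capped**, weight `θ ≤ 1`. -/
theorem prs_one (hc : Pl c) (hF : Path N R S Q F) (hH : Path N T S Q' H)
    (hF0 : F 0 = 0) (hH0 : H 0 = 0) (cH : Cap1 N T S H) {θ : ℝ} (hθ : 0 < θ) (hθ1 : θ ≤ 1) :
    prs N R S T c F H
      ≤ 2 * ∑ k ∈ range N, mixW N R S T k (c k) (Q k) (Q' k) (bPL k (c k) (F (k + 1)) (H (k + 1)))
        + 540 * (θ⁻¹ * pwr N R S Q F + θ * pwr N T S Q' H) := by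
  have h := prs_pq hc hF hH hF0 hH0 one_pos le_rfl hθ hθ1 (Or.inl rfl) (Or.inr cH)
  have e1 : wp 1 F = F := by
    funext k x y
    simp [wp]
  rw [e1] at h
  have h2 : ∑ k ∈ range N, mix N R S T k (c k) (Q k) (Q' k) (F (k + 1)) (wp θ H (k + 1))
      ≤ θ * ∑ k ∈ range N, mixW N R S T k (c k) (Q k) (Q' k)
        (bPL k (c k) (F (k + 1)) (H (k + 1))) := by
    rw [mul_sum]
    exact sum_le_sum fun k _ => mix_wt_le' N R S T k (c k) (Q k) (Q' k) (F (k + 1)) (H (k + 1))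
      hθ.le
  refine le_of_mul_le_mul_left ?_ hθ
  rw [one_mul] at h
  refine h.trans ?_
  have e : θ * (540 * (θ⁻¹ * pwr N R S Q F + θ * pwr N T S Q' H))
      = 540 * (1 ^ 2 * pwr N R S Q F + θ ^ 2 * pwr N T S Q' H) := by
    field_simp
  rw [mul_add θ (2 * _), e]
  linarith

end

/-- optimising the ratio -/
theorem le_geo {x y a b : ℝ} (ha : 0 ≤ a) (hb : 0 ≤ b)
    (h : ∀ r : ℝ, 0 < r → x ≤ y + (r * a + r⁻¹ * b)) : x ≤ y + 2 * √(a * b) := by
  have key : ∀ δ : ℝ, 0 < δ → x ≤ y + 2 * √((a + δ) * (b + δ)) := by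
    intro δ hδ
    have ha' : 0 < a + δ := by linarith
    have hb' : 0 < b + δ := by linarith
    have hsa : 0 < √(a + δ) := Real.sqrt_pos.2 ha'
    have hsb : 0 < √(b + δ) := Real.sqrt_pos.2 hb'
    have h1 := h (√(b + δ) / √(a + δ)) (div_pos hsb hsa)
    have e1 : √(b + δ) / √(a + δ) * (a + δ) = √(a + δ) * √(b + δ) := by
      have := Real.mul_self_sqrt ha'.le
      field_simp
      nlinarith
    have e2 : (√(b + δ) / √(a + δ))⁻¹ * (b + δ) = √(a + δ) * √(b + δ) := by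
      have := Real.mul_self_sqrt hb'.le
      field_simp
      nlinarith
    have l1 : √(b + δ) / √(a + δ) * a ≤ √(b + δ) / √(a + δ) * (a + δ) :=
      mul_le_mul_of_nonneg_left (by linarith) (by positivity)
    have l2 : (√(b + δ) / √(a + δ))⁻¹ * b ≤ (√(b + δ) / √(a + δ))⁻¹ * (b + δ) :=
      mul_le_mul_of_nonneg_left (by linarith) (by positivity)
    rw [Real.sqrt_mul ha'.le]
    linarith
  have hlim : Filter.Tendsto (fun δ : ℝ => y + 2 * √((a + δ) * (b + δ)))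
      (nhdsWithin 0 (Set.Ioi 0)) (nhds (y + 2 * √(a * b))) := by
    have hcont : Continuous fun δ : ℝ => y + 2 * √((a + δ) * (b + δ)) := by fun_prop
    have := (hcont.tendsto 0).mono_left (nhdsWithin_le_nhds (s := Set.Ioi (0 : ℝ)))
    simpa using this
  exact ge_of_tendsto hlim (Filter.eventually_of_mem self_mem_nhdsWithin fun δ hδ => key δ hδ)

section

variable {N : ℕ} {R S T : ℤ} {c : ℕ → ℤ} {Q Q' : ℕ → ℤ → ℤ → Prop} {F H : ℕ → ℤ → ℤ → ℝ}

/-- **Pair estimate, both inputs capped**, geometric mean of the energies. -/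
theorem prs_geo (hc : Pl c) (hF : Path N R S Q F) (hH : Path N T S Q' H)
    (hF0 : F 0 = 0) (hH0 : H 0 = 0) (cF : Cap1 N R S F) (cH : Cap1 N T S H) :
    prs N R S T c F H
      ≤ 2 * ∑ k ∈ range N, mixW N R S T k (c k) (Q k) (Q' k) (bLL k (c k) (F (k + 1)) (H (k + 1)))
        + 1080 * √(pwr N R S Q F * pwr N T S Q' H) := by
  have h := le_geo (x := prs N R S T c F H) (y := 2 * ∑ k ∈ range N,
    mixW N R S T k (c k) (Q k) (Q' k) (bLL k (c k) (F (k + 1)) (H (k + 1))))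
    (a := 540 * pwr N R S Q F) (b := 540 * pwr N T S Q' H)
    (mul_nonneg (by norm_num) (pwr_nonneg ..)) (mul_nonneg (by norm_num) (pwr_nonneg ..))
    (fun r hr => (prs_ratio hc hF hH hF0 hH0 cF cH hr).trans (le_of_eq (by ring)))
  have e : √(540 * pwr N R S Q F * (540 * pwr N T S Q' H))
      = 540 * √(pwr N R S Q F * pwr N T S Q' H) := by
    rw [show 540 * pwr N R S Q F * (540 * pwr N T S Q' H)
      = 540 ^ 2 * (pwr N R S Q F * pwr N T S Q' H) by ring,
      Real.sqrt_mul (by norm_num), Real.sqrt_sq (by norm_num)]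
  rw [e] at h
  linarith

/-- total area of the changed squares -/
def evt (N : ℕ) (R S : ℤ) (Q : ℕ → ℤ → ℤ → Prop) : ℝ := ∑ k ∈ range N, arQ N R S k (Q k)

/-- the traces of the Gram matrices at the times of change are at most `ν` -/
def Nb (N : ℕ) (R S : ℤ) (ν : ℝ) (F : ℕ → ℤ → ℤ → ℝ) : Prop :=
  ∀ k < N, ∀ n ∈ iv (N - k) R, ∀ m ∈ iv (N - k) S, (Xg k k (F (k + 1)) n m).trace ≤ ν

theorem sum_min_sqQ (N : ℕ) (R S : ℤ) (k : ℕ) (Q : ℤ → ℤ → Prop) (F : ℤ → ℤ → ℝ) (ν : ℝ) :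
    4 ^ k * (∑ m ∈ iv (N - k) S, ∑ n ∈ iv (N - k) R,
      if Q n m then min (Xg k k F n m).trace ν else 0)
      ≤ min (sqQ N R S k Q F) (ν * arQ N R S k Q) := by
  have e1 : sqQ N R S k Q F = 4 ^ k * ∑ m ∈ iv (N - k) S, ∑ n ∈ iv (N - k) R,
      if Q n m then (Xg k k F n m).trace else 0 := by
    rw [sqQ, mul_sum]
    refine sum_congr rfl fun m _ => ?_
    rw [mul_sum]
    refine sum_congr rfl fun n _ => ?_
    split_ifs
    · rw [sqb_eq]
    · simp
  have e2 : ν * arQ N R S k Q = 4 ^ k * ∑ m ∈ iv (N - k) S, ∑ n ∈ iv (N - k) R,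
      if Q n m then ν else 0 := by
    rw [arQ, mul_left_comm, mul_sum]
    congr 1
    refine sum_congr rfl fun m _ => ?_
    rw [mul_sum]
    refine sum_congr rfl fun n _ => ?_
    split_ifs <;> ring
  refine le_min ?_ ?_
  · rw [e1]
    refine mul_le_mul_of_nonneg_left (sum_le_sum fun m _ => sum_le_sum fun n _ => ?_)
      (by positivity)
    split_ifs
    · exact min_le_left _ _
    · exact le_rfl
  · rw [e2]
    refine mul_le_mul_of_nonneg_left (sum_le_sum fun m _ => sum_le_sum fun n _ => ?_)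
      (by positivity)
    split_ifs
    · exact min_le_right _ _
    · exact le_rfl

/-- the events cost the energy which both inputs have there -/
theorem mixW_min {k : ℕ} {c : ℤ} {Q Q' : ℤ → ℤ → Prop} {F H : ℤ → ℤ → ℝ} {w : ℤ → ℤ → ℝ}
    {ν ν' : ℝ} (hν : 0 ≤ ν) (hν' : 0 ≤ ν')
    (h1 : ∀ m ∈ iv (N - k) S, ∀ n ∈ iv (N - k) R, c - m - n ∈ iv (N - k) T →
      w n m ≤ (Xg k k F n m).trace)
    (h2 : ∀ m ∈ iv (N - k) S, ∀ n ∈ iv (N - k) R, c - m - n ∈ iv (N - k) T →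
      w n m ≤ (Xg k k H (c - m - n) m).trace)
    (hF : ∀ n ∈ iv (N - k) R, ∀ m ∈ iv (N - k) S, (Xg k k F n m).trace ≤ ν)
    (hH : ∀ n ∈ iv (N - k) T, ∀ m ∈ iv (N - k) S, (Xg k k H n m).trace ≤ ν') :
    mixW N R S T k c Q Q' w ≤ min (sqQ N R S k Q F) (ν' * arQ N R S k Q)
      + min (sqQ N T S k Q' H) (ν * arQ N T S k Q') := by
  refine (mixW_le N R S T k c Q Q' w (fun n m => min (Xg k k F n m).trace ν')
    (fun n m => min (Xg k k H n m).trace ν)
    (fun n m => le_min (Xg_psd k k F n m).trace_nonneg hν')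
    (fun n m => le_min (Xg_psd k k H n m).trace_nonneg hν)
    (fun m hm n hn hc _ => le_min (h1 m hm n hn hc) ((h2 m hm n hn hc).trans (hH _ hc m hm)))
    (fun m hm n hn hc _ => le_min (h2 m hm n hn hc) ((h1 m hm n hn hc).trans (hF n hn m hm)))).trans
    (add_le_add (sum_min_sqQ N R S k Q F ν') (sum_min_sqQ N T S k Q' H ν))

theorem sum_mixW_min {w : ℕ → ℤ → ℤ → ℝ} {ν ν' : ℝ} (hν : 0 ≤ ν) (hν' : 0 ≤ ν')
    (h1 : ∀ k < N, ∀ m ∈ iv (N - k) S, ∀ n ∈ iv (N - k) R, c k - m - n ∈ iv (N - k) T →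
      w k n m ≤ (Xg k k (F (k + 1)) n m).trace)
    (h2 : ∀ k < N, ∀ m ∈ iv (N - k) S, ∀ n ∈ iv (N - k) R, c k - m - n ∈ iv (N - k) T →
      w k n m ≤ (Xg k k (H (k + 1)) (c k - m - n) m).trace)
    (hF : Nb N R S ν F) (hH : Nb N T S ν' H) :
    ∑ k ∈ range N, mixW N R S T k (c k) (Q k) (Q' k) (w k)
      ≤ min (pwr N R S Q F) (ν' * evt N R S Q) + min (pwr N T S Q' H) (ν * evt N T S Q') := by
  have h : ∀ k ∈ range N, mixW N R S T k (c k) (Q k) (Q' k) (w k)
      ≤ min (sqQ N R S k (Q k) (F (k + 1))) (ν' * arQ N R S k (Q k))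
        + min (sqQ N T S k (Q' k) (H (k + 1))) (ν * arQ N T S k (Q' k)) := by
    intro k hk
    have hk' := mem_range.1 hk
    exact mixW_min hν hν' (h1 k hk') (h2 k hk') (hF k hk') (hH k hk')
  refine (sum_le_sum h).trans ?_
  rw [sum_add_distrib]
  refine add_le_add (le_min ?_ ?_) (le_min ?_ ?_)
  · exact sum_le_sum fun k _ => min_le_left _ _
  · rw [evt, mul_sum]
    exact sum_le_sum fun k _ => min_le_right _ _
  · exact sum_le_sum fun k _ => min_le_left _ _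
  · rw [evt, mul_sum]
    exact sum_le_sum fun k _ => min_le_right _ _

/-- **Pair estimate, both inputs capped**: geometric mean of the energies, plus the events of
each input, each charged with the smaller of its own energy and the bound of the other one. -/
theorem prs_geo_min (hc : Pl c) (hF : Path N R S Q F) (hH : Path N T S Q' H)
    (hF0 : F 0 = 0) (hH0 : H 0 = 0) (cF : Cap1 N R S F) (cH : Cap1 N T S H) {ν ν' : ℝ}
    (hν : 0 ≤ ν) (hν' : 0 ≤ ν') (nF : Nb N R S ν F) (nH : Nb N T S ν' H) :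
    prs N R S T c F H
      ≤ 2 * (min (pwr N R S Q F) (ν' * evt N R S Q) + min (pwr N T S Q' H) (ν * evt N T S Q'))
        + 1080 * √(pwr N R S Q F * pwr N T S Q' H) := by
  have h := prs_geo hc hF hH hF0 hH0 cF cH
  have h2 := sum_mixW_min (c := c) (Q := Q) (Q' := Q')
    (w := fun k => bLL k (c k) (F (k + 1)) (H (k + 1))) hν hν'
    (fun k hk m hm n hn hcc => trace_mul_cap_right (Xg_psd ..) (cH k hk _ hcc m hm))
    (fun k hk m hm n hn hcc => trace_mul_cap_left (Xg_psd ..) (cF k hk n hn m hm)) nF nH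
  linarith

/-- **Pair estimate, second input capped**, weight `θ ≤ 1`, events as in `prs_geo_min`. -/
theorem prs_one_min (hc : Pl c) (hF : Path N R S Q F) (hH : Path N T S Q' H)
    (hF0 : F 0 = 0) (hH0 : H 0 = 0) (cH : Cap1 N T S H) {θ : ℝ} (hθ : 0 < θ) (hθ1 : θ ≤ 1)
    {ν ν' : ℝ} (hν : 0 ≤ ν) (hν' : 0 ≤ ν') (nF : Nb N R S ν F) (nH : Nb N T S ν' H) :
    prs N R S T c F H
      ≤ 2 * (min (pwr N R S Q F) (ν' * evt N R S Q) + min (pwr N T S Q' H) (ν * evt N T S Q'))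
        + 540 * (θ⁻¹ * pwr N R S Q F + θ * pwr N T S Q' H) := by
  have h := prs_one hc hF hH hF0 hH0 cH hθ hθ1
  have h2 := sum_mixW_min (c := c) (Q := Q) (Q' := Q')
    (w := fun k => bPL k (c k) (F (k + 1)) (H (k + 1))) hν hν'
    (fun k hk m hm n hn hcc => (trace_mul_cap_right (phi_psd (Xg_psd ..))
      (cH k hk _ hcc m hm)).trans (trace_phi_le (Xg_psd ..)))
    (fun k hk m hm n hn hcc => trace_mul_cap_left (Xg_psd ..) (one_sub_phi_psd (Xg_psd ..)))
    nF nH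
  linarith

end

end

end Vale.Agent.P141.H170
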