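import Vale.Agent.P141.H505.SkelStack1
import Vale.Agent.P141.H389.PathA
import Vale.Agent.P141.H103.CapA

/-!
# P141, line (A): families cut to the roots

`cut N R S F` = the path family `F`, zero outside the roots and stopped at the time `N`.  Gram
matrices inside the windows are unchanged, outside they are zero; so the caps hold for all cells,
and the numbers `Num`, `NumA` and the left side of `PairACr` do not change.
-/

namespace Vale.Agent.P141.H170.Win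

open Finset Matrix Vale.Agent.P141.PL Vale.Agent.P141.PL.H103 Vale.Agent.P141.H103
open Vale.Agent.P141.H505.Sk1
open Vale.Agent.P141.H389 (rst eA)
open Vale.Agent.P141.H585.PairCh (phs)
open Vale.Agent.P075 (Ix val)
open Vale.Agent.P141.PL.H588 (hd)

noncomputable section

open scoped Classical

/-! ### The cut family -/

/-- the family inside the roots, stopped at the time `N` -/
def cut {α : Type*} [Zero α] (N : ℕ) (R S : ℤ) (F : ℕ → ℤ → ℤ → α) : ℕ → ℤ → ℤ → α :=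
  fun k x z => if x ∈ iv N R ∧ z ∈ iv N S then F (min k N) x z else 0

theorem mem_root {a N : ℕ} (h : a ≤ N) {R n x : ℤ} (hx : x ∈ iv a n) :
    x ∈ iv N R ↔ n ∈ iv (N - a) R := by
  rw [mem_iv] at hx
  rw [mem_iv, mem_iv, ← hx, ix_ix, Nat.add_sub_cancel' h]

section gen

variable {α : Type*} [Zero α] {N : ℕ} {R S : ℤ} {F : ℕ → ℤ → ℤ → α}

theorem cut_in {k : ℕ} {x z : ℤ} (hx : x ∈ iv N R) (hz : z ∈ iv N S) :
    cut N R S F k x z = F (min k N) x z := if_pos ⟨hx, hz⟩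

theorem cut_cell {j a b : ℕ} (ha : a ≤ N) (hb : b ≤ N) {n m x z : ℤ}
    (hn : n ∈ iv (N - a) R) (hm : m ∈ iv (N - b) S) (hx : x ∈ iv a n) (hz : z ∈ iv b m) :
    cut N R S F j x z = F (min j N) x z :=
  cut_in ((mem_root ha hx).2 hn) ((mem_root hb hz).2 hm)

theorem cut_out {j a b : ℕ} (ha : a ≤ N) (hb : b ≤ N) {n m x z : ℤ}
    (h : ¬ (n ∈ iv (N - a) R ∧ m ∈ iv (N - b) S)) (hx : x ∈ iv a n) (hz : z ∈ iv b m) :
    cut N R S F j x z = 0 := by
  refine if_neg fun hc => h ⟨(mem_root ha hx).1 hc.1, (mem_root hb hz).1 hc.2⟩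

end gen

/-- the changes of the cut family -/
theorem Ch_cut {α : Type} [Zero α] {N : ℕ} {R S : ℤ} {F : ℕ → ℤ → ℤ → α} {k : ℕ} (hk : k < N)
    {n m : ℤ} (h : Ch (cut N R S F) k n m) :
    (n ∈ iv (N - k) R ∧ m ∈ iv (N - k) S) ∧ Ch F k n m := by
  obtain ⟨x, hx, z, hz, hne⟩ := h
  by_cases hw : n ∈ iv (N - k) R ∧ m ∈ iv (N - k) S
  · refine ⟨hw, x, hx, z, hz, ?_⟩
    rw [cut_cell hk.le hk.le hw.1 hw.2 hx hz, cut_cell hk.le hk.le hw.1 hw.2 hx hz,
      min_eq_left (by omega : k + 1 ≤ N), min_eq_left hk.le] at hne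
    exact hne
  · rw [cut_out hk.le hk.le hw hx hz, cut_out hk.le hk.le hw hx hz] at hne
    exact absurd rfl hne

theorem Ch_cut_iff {α : Type} [Zero α] {N : ℕ} {R S : ℤ} {F : ℕ → ℤ → ℤ → α} {k : ℕ}
    (hk : k < N) {n m : ℤ} (hn : n ∈ iv (N - k) R) (hm : m ∈ iv (N - k) S) :
    Ch (cut N R S F) k n m ↔ Ch F k n m := by
  refine ⟨fun h => (Ch_cut hk h).2, fun h => ?_⟩
  obtain ⟨x, hx, z, hz, hne⟩ := h
  refine ⟨x, hx, z, hz, ?_⟩
  rw [cut_cell hk.le hk.le hn hm hx hz, cut_cell hk.le hk.le hn hm hx hz,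
    min_eq_left (by omega : k + 1 ≤ N), min_eq_left hk.le]
  exact hne

/-- off the changed squares the rows agree -/
theorem row_eq {α : Type} {F : ℕ → ℤ → ℤ → α} {k : ℕ} {x m : ℤ} (h : ¬ Ch F k (ix k x) m)
    {z : ℤ} (hz : z ∈ iv k m) : F (k + 1) x z = F k x z := by
  by_contra hne
  exact h ⟨x, self_mem_iv k x, z, hz, hne⟩

/-! ### Gram matrices -/

section gram

variable {κ : Type*} [Fintype κ]

theorem QW_congr {a k : ℕ} {b b' : ℤ → ℤ → κ → ℝ} {M : ℤ → Matrix κ κ ℝ} {n m : ℤ}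
    (h : ∀ x ∈ iv a n, ∀ y ∈ iv k m, b' x y = b x y) : QW a k b' M n m = QW a k b M n m := by
  ext j j'
  rw [QW, QW]
  congr 1
  refine Finset.sum_congr rfl fun x hx => ?_
  rw [h x hx _ (mem_iv_val k m j), h x hx _ (mem_iv_val k m j')]

theorem QW_zero {a k : ℕ} {b : ℤ → ℤ → κ → ℝ} {M : ℤ → Matrix κ κ ℝ} {n m : ℤ}
    (h : ∀ x ∈ iv a n, ∀ y ∈ iv k m, b x y = 0) : QW a k b M n m = 0 := by
  ext j j'
  rw [QW, Matrix.zero_apply]
  refine mul_eq_zero_of_right _ (Finset.sum_eq_zero fun x hx => ?_)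
  rw [h x hx _ (mem_iv_val k m j), zero_dotProduct]

variable {N : ℕ} {R S : ℤ} {b : ℕ → ℤ → ℤ → κ → ℝ} {M : ℤ → Matrix κ κ ℝ}

/-- inside the windows -/
theorem QW_cut {j k a : ℕ} (hk : k ≤ N) (ha : a ≤ N) {n m : ℤ} (hn : n ∈ iv (N - a) R)
    (hm : m ∈ iv (N - k) S) : QW a k (cut N R S b j) M n m = QW a k (b (min j N)) M n m :=
  QW_congr fun _ hx _ hy => cut_cell ha hk hn hm hx hy

/-- outside the windows -/
theorem QW_cut_out {j k a : ℕ} (hk : k ≤ N) (ha : a ≤ N) {n m : ℤ}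
    (h : ¬ (n ∈ iv (N - a) R ∧ m ∈ iv (N - k) S)) : QW a k (cut N R S b j) M n m = 0 :=
  QW_zero fun _ hx _ hy => cut_out ha hk h hx hy

end gram

theorem PA_QW (A : ℤ → ℤ → ℝ) (k a : ℕ) (n m : ℤ) :
    PA A k a n m = QW a k (un A) (fun _ => (1 : Matrix Unit Unit ℝ)⁻¹) n m := by
  rw [PA_eq]
  rfl

theorem PA_congr {k a : ℕ} {A A' : ℤ → ℤ → ℝ} {n m : ℤ}
    (h : ∀ x ∈ iv a n, ∀ y ∈ iv k m, A' x y = A x y) : PA A' k a n m = PA A k a n m := by
  rw [PA_QW, PA_QW]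
  refine QW_congr fun x hx y hy => ?_
  unfold un
  rw [h x hx y hy]

theorem PA_zero {k a : ℕ} {A : ℤ → ℤ → ℝ} {n m : ℤ}
    (h : ∀ x ∈ iv a n, ∀ y ∈ iv k m, A x y = 0) : PA A k a n m = 0 := by
  rw [PA_QW]
  refine QW_zero fun x hx y hy => ?_
  funext i
  unfold un
  rw [h x hx y hy]
  rfl

theorem PA_cut {N : ℕ} {R S : ℤ} {A : ℕ → ℤ → ℤ → ℝ} {j k a : ℕ} (hk : k ≤ N) (ha : a ≤ N)
    {n m : ℤ} (hn : n ∈ iv (N - a) R) (hm : m ∈ iv (N - k) S) :
    PA (cut N R S A j) k a n m = PA (A (min j N)) k a n m :=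
  PA_congr fun _ hx _ hy => cut_cell ha hk hn hm hx hy

theorem PA_cut_out {N : ℕ} {R S : ℤ} {A : ℕ → ℤ → ℤ → ℝ} {j k a : ℕ} (hk : k ≤ N) (ha : a ≤ N)
    {n m : ℤ} (h : ¬ (n ∈ iv (N - a) R ∧ m ∈ iv (N - k) S)) :
    PA (cut N R S A j) k a n m = 0 :=
  PA_zero fun _ hx _ hy => cut_out ha hk h hx hy

/-! ### Plane sums -/

theorem GW_congr {N : ℕ} {R S T : ℤ} {k : ℕ} {c : ℤ} {g g' : ℤ → ℤ → ℤ → ℝ}
    (h : ∀ m ∈ iv (N - k) S, ∀ n ∈ iv (N - k) R, ∀ n' ∈ iv (N - k) T, g n n' m = g' n n' m) :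
    GW N R S T k c g = GW N R S T k c g' := by
  unfold GW
  congr 1
  refine Finset.sum_congr rfl fun m hm => Finset.sum_congr rfl fun n hn => ?_
  split_ifs with h1
  · exact h m hm n hn _ h1
  · rfl

/-! ### The numbers -/

section num

variable {κ : Type} [Fintype κ] [DecidableEq κ] {k₀ N : ℕ} {r1 r2 r3 : ℤ} {pl : ℕ → ℤ}
  {A : ℕ → ℤ → ℤ → ℝ} {b c : ℕ → ℤ → ℤ → κ → ℝ} {Th M Nm : ℤ → ℕ → ℤ → Matrix κ κ ℝ}
  {E EA cC t2 : ℝ}

/-- **Numbers of the slot for the cut families.** -/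
theorem Num.cut (h : Num k₀ N r1 r2 r3 pl A b c Th M Nm E cC) :
    Num k₀ N r1 r2 r3 pl (Win.cut N r2 r3 A) (Win.cut N r1 r2 b) (Win.cut N r1 r3 c) Th M Nm E
      cC where
  en k h1 h2 j h3 h4 := by
    have e : ∑ x ∈ iv N r1, ∑ z ∈ iv N r3, eT (Win.cut N r1 r3 c j) Th k x z
        = ∑ x ∈ iv N r1, ∑ z ∈ iv N r3, eT (c (min j N)) Th k x z :=
      Finset.sum_congr rfl fun x hx => Finset.sum_congr rfl fun z hz => by
        unfold eT
        rw [cut_in hx hz]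
    rw [e]
    refine h.en k h1 h2 (min j N) (le_min h3 h2) ((min_le_left _ _).trans h4)
  var := by
    refine le_trans (le_of_eq ?_) h.var
    refine Finset.sum_congr rfl fun k hk => Finset.sum_congr rfl fun x hx =>
      Finset.sum_congr rfl fun z hz => ?_
    have hk' := (mem_Ico.1 hk).2
    unfold eM
    rw [cut_in hx hz, min_eq_left (by omega : k + 1 ≤ N)]
  dr := by
    refine le_trans (le_of_eq ?_) h.dr
    refine Finset.sum_congr rfl fun k hk => Finset.sum_congr rfl fun x hx =>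
      Finset.sum_congr rfl fun z hz => ?_
    have hk' := (mem_Ico.1 hk).2
    rw [cut_in hx hz, min_eq_left (by omega : k + 1 ≤ N)]
  born := by
    refine le_trans (le_of_eq ?_) h.born
    refine Finset.sum_congr rfl fun k hk => Finset.sum_congr rfl fun x hx =>
      Finset.sum_congr rfl fun z hz => ?_
    have hk' := (mem_Ico.1 hk).2
    have i1 : ix k x ∈ iv (N - k) r1 := (mem_root hk'.le (self_mem_iv k x)).1 hx
    have i2 : ix k z ∈ iv (N - k) r3 := (mem_root hk'.le (self_mem_iv k z)).1 hz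
    simp only [Ch_cut_iff hk' i1 i2]
    unfold eT
    rw [cut_in hx hz, min_eq_left (by omega : k + 1 ≤ N)]
  cross := by
    refine le_trans (le_of_eq ?_) h.cross
    refine Finset.sum_congr rfl fun k hk => GW_congr fun m hm n hn n' hn' => ?_
    have hk' := (mem_Ico.1 hk).2
    simp only [Ch_cut_iff hk' hn hm, Ch_cut_iff hk' hn' hn, Ch_cut_iff hk' hn' hm]
    unfold W3
    rw [QW_cut hk'.le hk'.le hn' hm, min_eq_left (by omega : k + 1 ≤ N)]
  cap k a n m h1 h2 h3 h4 j h5 h6 hn hm := by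
    unfold W3
    rw [QW_cut h3 h4 hn hm]
    refine h.cap k a n m h1 h2 h3 h4 (min j N) (le_min h5 ((min_le_left _ _).trans h3))
      ((min_le_left _ _).trans h6) hn hm

/-- **The cap of the stack, all cells.** -/
theorem cap_all (h : Num k₀ N r1 r2 r3 pl A b c Th M Nm E cC) {k a : ℕ} (h1 : k₀ ≤ k)
    (h2 : k₀ ≤ a) (h3 : k ≤ N) (h4 : a ≤ N) {j : ℕ} (h5 : min k a ≤ j) (h6 : j ≤ min k a + 1)
    (n m : ℤ) : (cC ^ 2 • (1 : Matrix (Ix k) (Ix k) ℝ)
      - W3 (Win.cut N r1 r3 c j) Th k a n m).PosSemidef := by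
  by_cases hw : n ∈ iv (N - a) r1 ∧ m ∈ iv (N - k) r3
  · exact (Num.cut h).cap k a n m h1 h2 h3 h4 j h5 h6 hw.1 hw.2
  · unfold W3
    rw [QW_cut_out h3 h4 hw, sub_zero]
    exact PosSemidef.one.smul (sq_nonneg cC)

/-- **Numbers of the scalar slot for the cut families.** -/
theorem NumA.cut (h : NumA k₀ N r1 r2 r3 pl A c t2 EA) :
    NumA k₀ N r1 r2 r3 pl (Win.cut N r2 r3 A) (Win.cut N r1 r3 c) t2 EA where
  cap k a n m h1 h2 h3 j h4 h5 hn hm := by
    rw [PA_cut (h2.trans h3) h3 hn hm]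
    exact h.cap k a n m h1 h2 h3 (min j N) (le_min h4 (h2.trans h3))
      ((min_le_left _ _).trans h5) hn hm
  en k hk := by
    refine le_trans (le_of_eq ?_) (h.en k hk)
    refine Finset.sum_congr rfl fun y hy => Finset.sum_congr rfl fun z hz => ?_
    rw [cut_in hy hz, min_eq_left hk]
  born := by
    refine le_trans (le_of_eq ?_) h.born
    refine Finset.sum_congr rfl fun k hk => Finset.sum_congr rfl fun y hy =>
      Finset.sum_congr rfl fun z hz => ?_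
    have hk' := (mem_Ico.1 hk).2
    have i1 : ix k y ∈ iv (N - k) r2 := (mem_root hk'.le (self_mem_iv k y)).1 hy
    have i2 : ix k z ∈ iv (N - k) r3 := (mem_root hk'.le (self_mem_iv k z)).1 hz
    simp only [Ch_cut_iff hk' i1 i2]
    rw [cut_in hy hz, min_eq_left (by omega : k + 1 ≤ N)]
  cr := by
    refine le_trans (le_of_eq ?_) h.cr
    refine Finset.sum_congr rfl fun k hk => GW_congr fun m hm n hn n' hn' => ?_
    have hk' := (mem_Ico.1 hk).2
    simp only [Ch_cut_iff hk' hn' hm]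
    rw [PA_cut hk'.le hk'.le hn hm, min_eq_left (by omega : k + 1 ≤ N)]

/-- **The cap of the scalar slot, all cells.** -/
theorem capA_all (ht : 0 ≤ t2) (h : NumA k₀ N r1 r2 r3 pl A c t2 EA) {k a : ℕ} (h1 : k₀ ≤ k)
    (h2 : k ≤ a) (h3 : a ≤ N) {j : ℕ} (h4 : k ≤ j) (h5 : j ≤ k + 1) (n m : ℤ) :
    (t2 • (1 : Matrix (Ix k) (Ix k) ℝ) - PA (Win.cut N r2 r3 A j) k a n m).PosSemidef := by
  by_cases hw : n ∈ iv (N - a) r2 ∧ m ∈ iv (N - k) r3
  · exact (NumA.cut h).cap k a n m h1 h2 h3 j h4 h5 hw.1 hw.2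
  · rw [PA_cut_out (h2.trans h3) h3 hw, sub_zero]
    exact PosSemidef.one.smul ht

/-- **The left side of `PairACr` for the cut families.** -/
theorem lhs_cut (x2 : ℝ) :
    ∑ k ∈ Ico k₀ N, GW N r2 r3 r1 (k + 1) (pl (k + 1)) (fun n2 n1 m =>
      (PA (Win.cut N r2 r3 A (k + 1)) (k + 1) (k + 1) n2 m * (hd (k + 1) *
        phs x2 (W3 (Win.cut N r1 r3 c (k + 1)) Th (k + 1) (k + 1) n1 m) * hd (k + 1))).trace)
      = ∑ k ∈ Ico k₀ N, GW N r2 r3 r1 (k + 1) (pl (k + 1)) (fun n2 n1 m =>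
      (PA (A (k + 1)) (k + 1) (k + 1) n2 m * (hd (k + 1) *
        phs x2 (W3 (c (k + 1)) Th (k + 1) (k + 1) n1 m) * hd (k + 1))).trace) := by
  refine Finset.sum_congr rfl fun k hk => GW_congr fun m hm n hn n' hn' => ?_
  have hk' : k + 1 ≤ N := by
    have := (mem_Ico.1 hk).2
    omega
  unfold W3
  rw [PA_cut hk' hk' hn hm, QW_cut hk' hk' hn' hm, min_eq_left hk']

/-! ### Born numbers in the letters of `PathA` -/

/-- mass of the changed rows of the scalar slot -/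
theorem born_eA (h : NumA k₀ N r1 r2 r3 pl A c t2 EA) :
    ∑ k ∈ Ico k₀ N, eA N r2 r3 (rst (fun y m => Ch A k (ix k y) m) k (A (k + 1))) ≤ EA := by
  refine le_trans (le_of_eq ?_) h.born
  refine Finset.sum_congr rfl fun k _ => ?_
  unfold eA
  refine Finset.sum_congr rfl fun y _ => Finset.sum_congr rfl fun z _ => ?_
  unfold rst
  split_ifs
  · rfl
  · simp

/-- stack energy of the changed rows -/
theorem born_eT (h : Num k₀ N r1 r2 r3 pl A b c Th M Nm E cC) :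
    ∑ k ∈ Ico k₀ N, ∑ x ∈ iv N r1, ∑ z ∈ iv N r3,
      eT (rst (fun x m => Ch c k (ix k x) m) k (c (k + 1))) Th k x z ≤ E := by
  refine le_trans (le_of_eq ?_) h.born
  refine Finset.sum_congr rfl fun k _ => Finset.sum_congr rfl fun x _ =>
    Finset.sum_congr rfl fun z _ => ?_
  unfold eT rst
  split_ifs
  · rfl
  · simp

end num

end

end Vale.Agent.P141.H170.Win
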