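import Vale.Agent.P141.H170.YsR
import Vale.Agent.P075.R.Pt

/-!
# Own energies of the averages `|J|⁻¹ ∑ U φ(X) Uᵀ`

`own_mid` : the middle variable is halved; `own_outer` : the outer variable is halved and the
multiplier changes.
-/

namespace Vale.Agent.P141.H170

open Finset Matrix Vale.Agent.P075

variable {n : Type*} [Fintype n] [DecidableEq n] {α : Type*}

/-- `U φ(X) Uᵀ` -/
noncomputable def cj (U X : Matrix n n ℝ) : Matrix n n ℝ := U * phi X * Uᵀ

theorem cj_psd {U X : Matrix n n ℝ} (hX : X.PosSemidef) : (cj U X).PosSemidef :=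
  psd_conj (phi_psd hX) U

theorem one_sub_cj {U X : Matrix n n ℝ} (hX : X.PosSemidef) (hU : (1 - U * Uᵀ).PosSemidef) :
    (1 - cj U X).PosSemidef := by
  have e : 1 - cj U X = (1 - U * Uᵀ) + U * (1 - phi X) * Uᵀ := by
    unfold cj; noncomm_ring
  rw [e]
  exact hU.add (psd_conj (one_sub_phi_psd hX) U)

omit [Fintype n] [DecidableEq n] in
theorem psd_finsum (J : Finset α) (f : α → Matrix n n ℝ)
    (hf : ∀ j ∈ J, (f j).PosSemidef) : (∑ j ∈ J, f j).PosSemidef := by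
  classical
  induction J using Finset.induction_on with
  | empty => simpa using PosSemidef.zero
  | insert a s ha ih =>
    rw [Finset.sum_insert ha]
    exact (hf a (Finset.mem_insert_self _ _)).add
      (ih fun j hj => hf j (Finset.mem_insert_of_mem hj))

/-- average of a family -/
noncomputable def mn (J : Finset α) (f : α → Matrix n n ℝ) : Matrix n n ℝ :=
  (J.card : ℝ)⁻¹ • ∑ j ∈ J, f j

omit [Fintype n] [DecidableEq n] in
theorem mn_psd {J : Finset α} {f : α → Matrix n n ℝ} (hf : ∀ j ∈ J, (f j).PosSemidef) :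
    (mn J f).PosSemidef := (psd_finsum J f hf).smul (by positivity)

theorem one_sub_mn {J : Finset α} {f : α → Matrix n n ℝ} (hf : ∀ j ∈ J, (1 - f j).PosSemidef) :
    (1 - mn J f).PosSemidef := by
  rcases J.eq_empty_or_nonempty with rfl | hJ
  · simp only [mn, Finset.sum_empty, smul_zero, sub_zero]
    exact PosSemidef.one
  · have h0 : (J.card : ℝ) ≠ 0 := by
      exact_mod_cast (Finset.card_pos.2 hJ).ne'
    have e : 1 - mn J f = mn J (fun j => 1 - f j) := by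
      unfold mn
      rw [Finset.sum_sub_distrib, smul_sub, Finset.sum_const, ← Nat.cast_smul_eq_nsmul ℝ,
        smul_smul, inv_mul_cancel₀ h0, one_smul]
    rw [e]
    exact mn_psd hf

omit [DecidableEq n] in
theorem tr_mul_mn (W : Matrix n n ℝ) (J : Finset α) (f : α → Matrix n n ℝ) :
    (W * mn J f).trace = (J.card : ℝ)⁻¹ * ∑ j ∈ J, (W * f j).trace := by
  unfold mn
  rw [Matrix.mul_smul, trace_smul, smul_eq_mul, Finset.mul_sum, Matrix.trace_sum]

/-! ### The middle variable -/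

theorem own_mid {J : Finset α} {X U : α → Matrix n n ℝ} {r : Matrix n n ℝ} (hr : rᵀ = r)
    (hr2 : r * r = 1) (hX : ∀ j ∈ J, (X j).PosSemidef) (hc : ∀ j ∈ J, U j * r = r * U j)
    (hU : ∀ j ∈ J, (1 - (U j)ᵀ * U j).PosSemidef) (hU' : ∀ j ∈ J, (1 - U j * (U j)ᵀ).PosSemidef) :
    (mn J (fun j => cj (U j) (X j)) * mn J (fun j => cj (U j) (X j))).trace
      ≤ (1 / 2) * (mn J (fun j => cj (U j) (X j + r * X j * r))
          * mn J (fun j => cj (U j) (X j + r * X j * r))).trace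
        + 14 * ((J.card : ℝ)⁻¹ * ∑ j ∈ J, (phi (X j) * (r * phi (X j) * r)).trace) := by
  rcases J.eq_empty_or_nonempty with rfl | hJ
  · simp [mn]
  have h0 : (J.card : ℝ) ≠ 0 := by
    exact_mod_cast (Finset.card_pos.2 hJ).ne'
  have key : ∀ i ∈ J, ∀ j ∈ J, (cj (U i) (X i) * cj (U j) (X j)).trace
      ≤ (1 / 2) * (cj (U i) (X i + r * X i * r) * cj (U j) (X j + r * X j * r)).trace
        + 7 * ((phi (X i) * (r * phi (X i) * r)).trace
          + (phi (X j) * (r * phi (X j) * r)).trace) := by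
    intro i hi j hj
    have hrU : ∀ l ∈ J, (U l)ᵀ * r = r * (U l)ᵀ := by
      intro l hl
      have := congrArg Matrix.transpose (hc l hl)
      rw [transpose_mul, transpose_mul, hr] at this
      exact this.symm
    have hL : (1 - ((U i)ᵀ * U j)ᵀ * ((U i)ᵀ * U j)).PosSemidef := by
      have e : 1 - ((U i)ᵀ * U j)ᵀ * ((U i)ᵀ * U j)
          = (1 - (U j)ᵀ * U j) + (U j)ᵀ * (1 - U i * (U i)ᵀ) * ((U j)ᵀ)ᵀ := by
        rw [transpose_mul, transpose_transpose, transpose_transpose]; noncomm_ring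
      rw [e]
      exact (hU j hj).add (psd_conj (hU' i hi) _)
    have hL' : (1 - ((U i)ᵀ * U j) * ((U i)ᵀ * U j)ᵀ).PosSemidef := by
      have e : 1 - ((U i)ᵀ * U j) * ((U i)ᵀ * U j)ᵀ
          = (1 - (U i)ᵀ * U i) + (U i)ᵀ * (1 - U j * (U j)ᵀ) * ((U i)ᵀ)ᵀ := by
        rw [transpose_mul, transpose_transpose]; noncomm_ring
      rw [e]
      exact (hU i hi).add (psd_conj (hU' j hj) _)
    have h := ysplitL' (hX i hi) (hX j hj) hr hr2
      (L := (U i)ᵀ * U j) (by rw [Matrix.mul_assoc, hc j hj, ← Matrix.mul_assoc, hrU i hi,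
        Matrix.mul_assoc]) hL hL'
    have t : ∀ a b : Matrix n n ℝ, ((U i * a * (U i)ᵀ) * (U j * b * (U j)ᵀ)).trace
        = (a * ((U i)ᵀ * U j * b * ((U i)ᵀ * U j)ᵀ)).trace := by
      intro a b
      rw [show (U i * a * (U i)ᵀ) * (U j * b * (U j)ᵀ)
        = U i * (a * (U i)ᵀ * (U j * b * (U j)ᵀ)) by noncomm_ring, trace_mul_comm,
        transpose_mul, transpose_transpose]
      congr 1
      noncomm_ring
    unfold cj
    rw [t, t]
    exact h
  have hS : ∀ f : α → Matrix n n ℝ, (mn J f * mn J f).trace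
      = (J.card : ℝ)⁻¹ * ∑ i ∈ J, (J.card : ℝ)⁻¹ * ∑ j ∈ J, (f i * f j).trace := by
    intro f
    rw [tr_mul_mn]
    congr 1
    refine Finset.sum_congr rfl fun i _ => ?_
    rw [trace_mul_comm, tr_mul_mn]
  rw [hS, hS]
  set c := (J.card : ℝ)⁻¹ with hcdef
  have hc0 : 0 ≤ c := by positivity
  have hcc : c * (J.card : ℝ) = 1 := inv_mul_cancel₀ h0
  set g : α → ℝ := fun j => (phi (X j) * (r * phi (X j) * r)).trace with hg
  have h1 : c * ∑ i ∈ J, c * ∑ j ∈ J, (cj (U i) (X i) * cj (U j) (X j)).trace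
      ≤ c * ∑ i ∈ J, c * ∑ j ∈ J, ((1 / 2) * (cj (U i) (X i + r * X i * r)
        * cj (U j) (X j + r * X j * r)).trace + 7 * (g i + g j)) :=
    mul_le_mul_of_nonneg_left (Finset.sum_le_sum fun i hi =>
      mul_le_mul_of_nonneg_left (Finset.sum_le_sum fun j hj => key i hi j hj) hc0) hc0
  refine h1.trans (le_of_eq ?_)
  have e1 : ∀ i ∈ J, c * ∑ j ∈ J, ((1 / 2) * (cj (U i) (X i + r * X i * r)
        * cj (U j) (X j + r * X j * r)).trace + 7 * (g i + g j))
      = (1 / 2) * (c * ∑ j ∈ J, (cj (U i) (X i + r * X i * r)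
        * cj (U j) (X j + r * X j * r)).trace) + 7 * g i + 7 * (c * ∑ j ∈ J, g j) := by
    intro i _
    have e2 : ∑ j ∈ J, ((1 / 2) * (cj (U i) (X i + r * X i * r)
        * cj (U j) (X j + r * X j * r)).trace + 7 * (g i + g j))
        = (1 / 2) * ∑ j ∈ J, (cj (U i) (X i + r * X i * r)
          * cj (U j) (X j + r * X j * r)).trace + 7 * ((J.card : ℝ) * g i + ∑ j ∈ J, g j) := by
      rw [Finset.sum_add_distrib, ← Finset.mul_sum, ← Finset.mul_sum, Finset.sum_add_distrib,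
        Finset.sum_const, nsmul_eq_mul]
    rw [e2]
    linear_combination (7 * g i) * hcc
  have e3 : ∑ x ∈ J, 7 * g x = 7 * ∑ x ∈ J, g x := (Finset.mul_sum ..).symm
  rw [Finset.sum_congr rfl e1, Finset.sum_add_distrib, Finset.sum_add_distrib, e3,
    ← Finset.mul_sum, Finset.sum_const, nsmul_eq_mul]
  linear_combination (7 * c * ∑ j ∈ J, g j) * hcc

/-! ### The outer variable -/

theorem two_sub_sq {W : Matrix n n ℝ} (hW : W.PosSemidef)
    (hW2 : ((2 : ℝ) • (1 : Matrix n n ℝ) - W).PosSemidef) :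
    ((2 : ℝ) • W - W * W).PosSemidef := by
  have hWs := psd_isSymm hW
  have h2s := psd_isSymm hW2
  have e : (2 : ℝ) • W - W * W = (1 / 2 : ℝ) • (W * ((2 : ℝ) • (1 : Matrix n n ℝ) - W) * W
      + ((2 : ℝ) • (1 : Matrix n n ℝ) - W) * W * ((2 : ℝ) • (1 : Matrix n n ℝ) - W)) := by
    simp only [Matrix.mul_sub, Matrix.sub_mul, Matrix.mul_smul, Matrix.smul_mul, smul_sub,
      smul_add, smul_smul, Matrix.mul_one, Matrix.one_mul]
    module
  rw [e]
  exact ((psd_conj_symm hW2 hWs).add (psd_conj_symm hW h2s)).smul (by norm_num)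

/-- one member of the family -/
theorem outer_node {W X0 X1 U0 U1 U : Matrix n n ℝ} (hW : W.PosSemidef)
    (hW2 : ((2 : ℝ) • (1 : Matrix n n ℝ) - W).PosSemidef)
    (h0 : X0.PosSemidef) (h1 : X1.PosSemidef)
    (hU0 : (1 - U0 * U0ᵀ).PosSemidef) (hU1 : (1 - U1 * U1ᵀ).PosSemidef)
    (hU : (1 - Uᵀ * U).PosSemidef) :
    (W * (cj U ((1 / 2 : ℝ) • (X0 + X1)) - (1 / 2 : ℝ) • (cj U0 X0 + cj U1 X1))).trace
      ≤ 3 * (delt X0 X1).trace
        + 2 * (((1 / 2 : ℝ) • (U0 - U1)) * ((1 / 2 : ℝ) • (U0 - U1))ᵀ * W).trace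
        + 2 * |(W * ((U - (1 / 2 : ℝ) • (U0 + U1)) * ((1 / 2 : ℝ) • (phi X0 + phi X1)) * Uᵀ)).trace| := by
  have hWs := psd_isSymm hW
  have hd := delt_psd h0 h1
  have hhs := R.hdiff_symm h0 h1
  have hhd := R.hdiff_sq_le h0 h1
  set Um : Matrix n n ℝ := (1 / 2 : ℝ) • (U0 + U1) with hUm
  set V : Matrix n n ℝ := (1 / 2 : ℝ) • (U0 - U1) with hV
  set D : Matrix n n ℝ := U - Um with hD
  set f : Matrix n n ℝ := (1 / 2 : ℝ) • (phi X0 + phi X1) with hf
  have hfp : f.PosSemidef := ((phi_psd h0).add (phi_psd h1)).smul (by norm_num)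
  have hfs := psd_isSymm hfp
  have eU0 : U0 = Um + V := by rw [hUm, hV]; module
  have eU1 : U1 = Um - V := by rw [hUm, hV]; module
  have e0 : phi X0 = f + hdiff X0 X1 := by rw [hf, hdiff]; module
  have e1 : phi X1 = f - hdiff X0 X1 := by rw [hf, hdiff]; module
  have ed : phi ((1 / 2 : ℝ) • (X0 + X1)) = f + delt X0 X1 := by rw [delt]; abel
  have hUmUm : (1 - Um * Umᵀ).PosSemidef := by
    have e : 1 - Um * Umᵀ = (1 / 2 : ℝ) • ((1 - U0 * U0ᵀ) + (1 - U1 * U1ᵀ))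
        + V * 1 * Vᵀ := by
      rw [eU0, eU1]
      simp only [transpose_add, transpose_sub, Matrix.add_mul, Matrix.mul_add, Matrix.sub_mul,
        Matrix.mul_sub, Matrix.mul_one]
      module
    rw [e]
    exact ((hU0.add hU1).smul (by norm_num)).add (psd_conj PosSemidef.one V)
  generalize hdiff X0 X1 = h at *
  generalize delt X0 X1 = d at *
  have eUD : U = Um + D := by rw [hD]; abel
  have key : cj U ((1 / 2 : ℝ) • (X0 + X1)) - (1 / 2 : ℝ) • (cj U0 X0 + cj U1 X1)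
      = U * d * Uᵀ + D * f * Uᵀ + (D * f * Uᵀ)ᵀ - D * f * Dᵀ - V * f * Vᵀ
        - (V * h * Umᵀ + (V * h * Umᵀ)ᵀ) := by
    unfold cj
    rw [ed, e0, e1, eU0, eU1, eUD]
    simp only [transpose_add, transpose_sub, transpose_mul, transpose_transpose, hfs, hhs,
      Matrix.add_mul, Matrix.mul_add, Matrix.sub_mul, Matrix.mul_sub, smul_add, smul_sub,
      Matrix.mul_assoc]
    module
  clear_value Um V D f
  have t1 : (W * (U * d * Uᵀ)).trace ≤ 2 * d.trace := by
    have a1 := trace_mul_le_left (psd_conj hd U) hW2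
    have a2 : (((2 : ℝ) • (1 : Matrix n n ℝ)) * (U * d * Uᵀ)).trace
        = 2 * (Uᵀ * U * d).trace := by
      rw [Matrix.smul_mul, Matrix.one_mul, trace_smul, smul_eq_mul, Matrix.mul_assoc,
        trace_mul_comm, Matrix.mul_assoc, trace_mul_comm]
    have a3 := trace_mul_le_left hd hU
    rw [Matrix.one_mul] at a3
    linarith
  have t2 : (W * (D * f * Uᵀ)ᵀ).trace = (W * (D * f * Uᵀ)).trace := by
    rw [← trace_transpose, transpose_mul, transpose_transpose, hWs, trace_mul_comm]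
  have t3 : 0 ≤ (W * (D * f * Dᵀ)).trace := trace_mul_nonneg hW (psd_conj hfp D)
  have t4 : 0 ≤ (W * (V * f * Vᵀ)).trace := trace_mul_nonneg hW (psd_conj hfp V)
  have t5 : (W * (V * h * Umᵀ)ᵀ).trace = (W * (V * h * Umᵀ)).trace := by
    rw [← trace_transpose, transpose_mul, transpose_transpose, hWs, trace_mul_comm]
  have t6 : -(2 * (W * (V * h * Umᵀ)).trace) ≤ (h * h).trace + 2 * (V * Vᵀ * W).trace := by
    set Z : Matrix n n ℝ := Umᵀ * W * V with hZ
    have b1 : 0 ≤ ((h + Z) * (h + Z)ᵀ).trace := by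
      have := (psd_conj PosSemidef.one (h + Z)).trace_nonneg
      rwa [Matrix.mul_one] at this
    have b2 : (W * (V * h * Umᵀ)).trace = (h * Z).trace := by
      rw [hZ, show W * (V * h * Umᵀ) = (W * V) * (h * Umᵀ) by noncomm_ring, trace_mul_comm]
      congr 1
      noncomm_ring
    have b3 : (Z * hᵀ).trace = (h * Z).trace := by rw [hhs, trace_mul_comm]
    have b4 : (h * Zᵀ).trace = (h * Z).trace := by
      rw [← trace_transpose, transpose_mul, transpose_transpose, hhs, trace_mul_comm]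
    have b5 : (Z * Zᵀ).trace ≤ 2 * (V * Vᵀ * W).trace := by
      have c1 : (Z * Zᵀ).trace = ((Vᵀ * W) * (Um * Umᵀ) * (Vᵀ * W)ᵀ).trace := by
        rw [trace_mul_comm, hZ]
        congr 1
        simp only [transpose_mul, transpose_transpose, hWs]
        noncomm_ring
      have c2 := (psd_conj hUmUm (Vᵀ * W)).trace_nonneg
      have c3 : (Vᵀ * W) * (1 - Um * Umᵀ) * (Vᵀ * W)ᵀ
          = Vᵀ * (W * W) * V - (Vᵀ * W) * (Um * Umᵀ) * (Vᵀ * W)ᵀ := by
        rw [transpose_mul, transpose_transpose, hWs]; noncomm_ring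
      have c4 := (psd_conj (two_sub_sq hW hW2) Vᵀ).trace_nonneg
      have c5 : Vᵀ * ((2 : ℝ) • W - W * W) * (Vᵀ)ᵀ = (2 : ℝ) • (Vᵀ * W * V) - Vᵀ * (W * W) * V := by
        rw [transpose_transpose, Matrix.mul_sub, Matrix.sub_mul, Matrix.mul_smul,
          Matrix.smul_mul]
      have c6 : (V * Vᵀ * W).trace = (Vᵀ * W * V).trace := by
        rw [Matrix.mul_assoc, trace_mul_comm]
      rw [c3, trace_sub] at c2
      rw [c5, trace_sub, trace_smul, smul_eq_mul] at c4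
      rw [c1, c6]
      linarith
    rw [transpose_add, Matrix.add_mul, Matrix.mul_add, Matrix.mul_add, trace_add, trace_add,
      trace_add, b3, b4, hhs] at b1
    rw [b2]
    linarith
  have t7 := le_abs_self ((W * (D * f * Uᵀ)).trace)
  rw [key]
  simp only [Matrix.mul_add, Matrix.mul_sub, trace_add, trace_sub]
  rw [t2, t5]
  linarith

/-- **The outer step.** -/
theorem own_outer {J : Finset α} {X0 X1 U0 U1 U : α → Matrix n n ℝ}
    (h0 : ∀ j ∈ J, (X0 j).PosSemidef) (h1 : ∀ j ∈ J, (X1 j).PosSemidef)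
    (hU0 : ∀ j ∈ J, (1 - U0 j * (U0 j)ᵀ).PosSemidef)
    (hU1 : ∀ j ∈ J, (1 - U1 j * (U1 j)ᵀ).PosSemidef)
    (hU : ∀ j ∈ J, (1 - (U j)ᵀ * U j).PosSemidef)
    (hU' : ∀ j ∈ J, (1 - U j * (U j)ᵀ).PosSemidef)
    {Sm Qp W : Matrix n n ℝ} (hSm : Sm = mn J (fun j => cj (U j) ((1 / 2 : ℝ) • (X0 j + X1 j))))
    (hQp : Qp = mn J (fun j => (1 / 2 : ℝ) • (cj (U0 j) (X0 j) + cj (U1 j) (X1 j))))
    (hW : W = Sm + Qp) :
    (Sm * Sm).trace ≤ (Qp * Qp).trace + (J.card : ℝ)⁻¹ * ∑ j ∈ J,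
      (3 * (delt (X0 j) (X1 j)).trace
        + 2 * (((1 / 2 : ℝ) • (U0 j - U1 j)) * ((1 / 2 : ℝ) • (U0 j - U1 j))ᵀ * W).trace
        + 2 * |(W * ((U j - (1 / 2 : ℝ) • (U0 j + U1 j))
            * ((1 / 2 : ℝ) • (phi (X0 j) + phi (X1 j))) * (U j)ᵀ)).trace|) := by
  have pS : Sm.PosSemidef := by
    rw [hSm]; exact mn_psd fun j hj => cj_psd (half_psd (h0 j hj) (h1 j hj))
  have pQ : Qp.PosSemidef := by
    rw [hQp]
    exact mn_psd fun j hj => ((cj_psd (h0 j hj)).add (cj_psd (h1 j hj))).smul (by norm_num)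
  have oS : (1 - Sm).PosSemidef := by
    rw [hSm]; exact one_sub_mn fun j hj => one_sub_cj (half_psd (h0 j hj) (h1 j hj)) (hU' j hj)
  have oQ : (1 - Qp).PosSemidef := by
    rw [hQp]
    refine one_sub_mn fun j hj => ?_
    have e : 1 - (1 / 2 : ℝ) • (cj (U0 j) (X0 j) + cj (U1 j) (X1 j))
        = (1 / 2 : ℝ) • ((1 - cj (U0 j) (X0 j)) + (1 - cj (U1 j) (X1 j))) := by
      module
    rw [e]
    exact ((one_sub_cj (h0 j hj) (hU0 j hj)).add (one_sub_cj (h1 j hj) (hU1 j hj))).smul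
      (by norm_num)
  have pW : W.PosSemidef := by rw [hW]; exact pS.add pQ
  have oW : ((2 : ℝ) • (1 : Matrix n n ℝ) - W).PosSemidef := by
    have e : (2 : ℝ) • (1 : Matrix n n ℝ) - W = (1 - Sm) + (1 - Qp) := by rw [hW]; module
    rw [e]; exact oS.add oQ
  have e1 : (Sm * Sm).trace - (Qp * Qp).trace = (W * (Sm - Qp)).trace := by
    rw [hW, Matrix.add_mul, Matrix.mul_sub, Matrix.mul_sub, trace_add, trace_sub, trace_sub,
      trace_mul_comm Sm Qp]
    ring
  have e2 : Sm - Qp = mn J (fun j => cj (U j) ((1 / 2 : ℝ) • (X0 j + X1 j))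
      - (1 / 2 : ℝ) • (cj (U0 j) (X0 j) + cj (U1 j) (X1 j))) := by
    rw [hSm, hQp, mn, mn, mn, Finset.sum_sub_distrib, smul_sub]
  rw [e2, tr_mul_mn] at e1
  have h3 := mul_le_mul_of_nonneg_left (Finset.sum_le_sum fun j hj =>
    outer_node pW oW (h0 j hj) (h1 j hj) (hU0 j hj) (hU1 j hj) (hU j hj))
    (show (0 : ℝ) ≤ (J.card : ℝ)⁻¹ by positivity)
  linarith

end Vale.Agent.P141.H170
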