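import Vale.Agent.P141.H170.RowC
import Vale.Agent.P141.H293.OwnV1

/-!
# P141, line (A): the pair `(A, C~)` with a raw partner

`pairACr : PairACr 70000` (`H505.SkelStack1`), from `H389.realT`, `TV_rawT`, `BT_le`, the stack
`H38.T.stkTR` in the time convention `k + 1` at the scale `k`, and the families cut to the roots.
-/

namespace Vale.Agent.P141.H170.PairT

open Finset Matrix Vale.Agent.P141.PL Vale.Agent.P141.PL.H103 Vale.Agent.P141.H103
open Vale.Agent.P141.H505 Vale.Agent.P141.H336 Vale.Agent.P141.H389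
open Vale.Agent.P141.H170.Win Vale.Agent.P141.H170.RowC
open Vale.Agent.P141.H92 (StO dh dls_nonneg gcs_le rad_symm')
open Vale.Agent.P141.H585.PairCh (phs dls)
open Vale.Agent.P141.H505.Sk1 (Ch Wgt W3 eT dTh eM Num NumA PairACr)
open Vale.Agent.P075 (Ix val rad GX phi res)
open Vale.Agent.P141.PL.H588 (hd)

noncomputable section

open scoped Classical

variable {κ : Type} [Fintype κ] [DecidableEq κ]

/-- **The raw pair against the capped moving stack, all cells, numbers.** -/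
theorem coreW {k₀ N : ℕ} (hkN : k₀ ≤ N) {R S T : ℤ} {pl : ℕ → ℤ} (hpl : H588.Pl pl)
    {Th Nn M Nm : ℤ → ℕ → ℤ → Matrix κ κ ℝ} (wf : Wf N Th Nn M Nm) {τ s : ℝ}
    (hs : 0 < s) (hτ : 0 ≤ τ) (J : ℕ) (A : ℕ → ℤ → ℤ → ℝ) (c : ℕ → ℤ → ℤ → κ → ℝ)
    {P Q Bo : ℕ → ℤ → ℤ → Prop}
    (hP : ∀ k, k₀ < k → k ≤ N → ∀ z m, ¬ P k z m → ∀ y ∈ iv k m, A (k + 1) z y = A k z y)
    (hQ : ∀ k, k₀ < k → k ≤ N → ∀ x m, ¬ Q k x m → ∀ y ∈ iv k m, c (k + 1) x y = c k x y)
    (cA0 : ∀ k a, k₀ < k → k ≤ a → a ≤ N → ∀ n m,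
      (τ • (1 : Matrix (Ix k) (Ix k) ℝ) - PA (A k) k a n m).PosSemidef)
    (cA1 : ∀ k a, k₀ ≤ k → k ≤ a → a ≤ N → ∀ n m,
      (τ • (1 : Matrix (Ix k) (Ix k) ℝ) - PA (A (k + 1)) k a n m).PosSemidef)
    (cC : ∀ k a n m, k₀ ≤ k → k + 1 ≤ a → a ≤ N →
      (1 - (s⁻¹ / 4 ^ J) • (2 : ℝ) • XW (c (k + 1)) Th (k + 1) a n m).PosSemidef)
    (hB : ∀ k z m, P k z m → Bo k (ix k z) m) {E EA Qm V : ℝ}
    (hEA : eA N R S (A (k₀ + 1)) ≤ EA)
    (hDA : ∑ k ∈ Ico k₀ N, eA N R S (rst (P (k + 1)) (k + 1) (A (k + 2))) ≤ EA)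
    (hE : H293.ms N T S (c (k₀ + 1)) (fun x m => Th x k₀ m) k₀ ≤ E)
    (hQm : ∑ k ∈ Ico k₀ N, H38.T.cT J N T S Th M Nm Q c k ≤ Qm)
    (hV : ∑ k ∈ Ico k₀ N, cAC N T S (c (k + 1)) Th M Nm k ≤ V)
    (hDC : ∑ k ∈ Ico k₀ N, eC N T S (rst (Q (k + 1)) (k + 1) (c (k + 2))) Th (k + 1) ≤ E)
    (hCR : ∑ k ∈ Ico k₀ N, GW N R S T (k + 1) (pl (k + 1)) (fun n n' m =>
      if Bo (k + 1) n m then (XW (c (k + 2)) Th (k + 1) (k + 1) n' m).trace else 0) ≤ E) {X : ℝ}
    (hX : 4 * (((J : ℝ) + 1) * E + Qm) ≤ X) :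
    (1 / 4) * ∑ k ∈ Ico k₀ N, GW N R S T (k + 1) (pl (k + 1))
        (gAC (A (k + 1)) (c (k + 1)) Th s k (k + 1) (k + 1))
      ≤ √(308 * (τ * EA) * (400 * s * X)) + 6 * (τ * X) + 2 * τ * V + τ * E
        + √(τ * EA) * √(s * E) := by
  have nE : 0 ≤ E := (Finset.sum_nonneg fun k _ => eC_nonneg wf _ _ _ _).trans hDC
  have nEA : 0 ≤ EA := (eA_nonneg _ _ _ _).trans hEA
  have nQm : 0 ≤ Qm := (Finset.sum_nonneg fun k _ => H38.T.cT_nonneg wf Q c J T S k).trans hQm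
  have hμ : 0 < s⁻¹ := inv_pos.2 hs
  have hT := realT (P := P) (Q := Q) wf hkN (R := R) (S := S) (T := T) hpl hs hτ A c hP hQ
    (fun k h1 h2 n m => cA1 k (k + 1) h1 (by omega) h2 n m)
    (fun k h1 h2 n m => cA0 k k h1 le_rfl h2 n m)
  have hTV := TV_rawT hkN hτ hP cA0 cA1 hEA hDA
  have hBT := BT_le (c := c) (Bo := Bo) wf (k₀ := k₀) (R := R) (S := S) (T := T) (pl := pl) hs hτ A
    hB (fun k h1 h2 n m => cA1 k k h1.le le_rfl h2 n m) hDA hCR
  -- the stack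
  have st := H38.T.stkTR (Q := Q) (c := c) hkN T S wf
    (fun k x m h1 h2 hq y hy => (hQ (k + 1) (by omega) (by omega) x m hq y hy).symm) hμ J
    (fun k a n m h1 h2 h3 => cC k a n m h1 h2 h3) (H := E) (Qm := Qm) hE hQm
  have so : StO (ι := fun k => Ix k) (fun _ _ _ _ => 0) (fun _ _ _ _ => 0) :=
    ⟨fun _ _ _ _ => rfl, fun _ _ _ _ => rfl⟩
  have est : EstR N J (fun _ => E) (fun _ => 0) (fun _ => Qm) ≤ X := by
    have := EstR_const (N := N) (J := J) nE le_rfl nQm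
    refine this.trans (le_trans (le_of_eq ?_) hX)
    ring
  have nX : 0 ≤ X := st.Est_nonneg.trans est
  have es : (s⁻¹ / 4 ^ 0)⁻¹ = s := by rw [pow_zero, div_one, inv_inv]
  have h0J : 0 ≤ J := Nat.zero_le J
  -- outer defects
  have d1 : ∑ k ∈ Ico k₀ N, GW N R S T (k + 1) (pl (k + 1)) (fun _ n' m =>
      dh s (XW (c (k + 1)) Th k k) n' m) ≤ 8 * s * X := by
    refine (sum_le_sum fun k _ => H92.GW_right N R S T (k + 1) (pl (k + 1)) fun n m => ?_).trans ?_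
    · exact add_nonneg (dls_nonneg hs (XW_psd wf _ _ _ _ _) (XW_psd wf _ _ _ _ _))
        (dls_nonneg hs (XW_psd wf _ _ _ _ _) (XW_psd wf _ _ _ _ _))
    · have h := dh_sumR st so (j := 0) h0J
      rw [es] at h
      have h2 := mul_le_mul_of_nonneg_left est (by positivity : 0 ≤ 8 * s)
      have h3 : ∑ k ∈ Ico k₀ N, bsum N T S (k + 1) (k + 1) (dh s (XW (c (k + 1)) Th k k))
          ≤ 8 * s * EstR N J (fun _ => E) (fun _ => 0) (fun _ => Qm) := h
      linarith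
  -- middle defects
  have d2 : ∑ k ∈ Ico k₀ N, GW N R S T (k + 1) (pl (k + 1)) (fun _ n' m =>
      gC (c (k + 1)) Th s k (k + 1) n' m) ≤ 4 * s * X := by
    refine (sum_le_sum fun k _ => H92.GW_right N R S T (k + 1) (pl (k + 1)) fun n m => ?_).trans ?_
    · have hp := phs_psd hs (XW_psd wf (c (k + 1)) (k + 1) (k + 1) n m)
      exact P075.trace_mul_nonneg (V := rad (Ix k) * phs s (XWs (c (k + 1)) Th k (k + 1) n m)
        * rad (Ix k)) hp (P075.psd_conj_symm hp (rad_symm' k))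
    · have h0 := st.mid_diag 0
      simp only [Nat.sub_zero, Nat.add_zero] at h0
      have key : ∀ k ∈ Ico k₀ N, bsum N T S (k + 1) (k + 1)
          (fun n' m => gC (c (k + 1)) Th s k (k + 1) n' m)
          ≤ 4 * s * ((2 : ℝ) ^ (k + 1) * 2 ^ (k + 1) * ∑ m ∈ iv (N - (k + 1)) S,
            ∑ n ∈ iv (N - (k + 1)) T,
              (1 / 4) * SC s⁻¹ J (rad (Ix k)) (XWs (c (k + 1)) Th k (k + 1) n m)) := by
        intro k _
        refine (bsum_mono (g := fun n m => 4 * s * ((1 / 4) * SC s⁻¹ J (rad (Ix k))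
          (XWs (c (k + 1)) Th k (k + 1) n m))) fun n m => ?_).trans (le_of_eq ?_)
        · have g1 := gcs_le (X := XWs (c (k + 1)) Th k (k + 1) n m) (r := rad (Ix k))
            (XW_psd wf (c (k + 1)) (k + 1) (k + 1) n m) (rad_symm' k) hμ (J := J) (j := 0) h0J
          rw [es] at g1
          unfold gC
          linarith
        · rw [bsum_smul]
          rfl
      refine (sum_le_sum key).trans ?_
      rw [← mul_sum]
      have hXs := st.X_le
      exact mul_le_mul_of_nonneg_left ((h0.trans hXs).trans est)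
        (by positivity : (0 : ℝ) ≤ 4 * s)
  -- plane energies
  have t2 := st.TV_stack (j := 0) h0J
  rw [es] at t2
  have t2' : TV k₀ N T S (fun k a n m => phs s (XW (c (k + 1)) Th k a n m)) ≤ 400 * s * X := by
    have h2 := mul_le_mul_of_nonneg_left est (by positivity : 0 ≤ 400 * s)
    have h3 : TV k₀ N T S (fun k a n m => phs s (XW (c (k + 1)) Th k a n m))
      ≤ 400 * s * EstR N J (fun _ => E) (fun _ => 0) (fun _ => Qm) := t2
    linarith
  have z2 : 0 ≤ TV k₀ N T S (fun k a n m => phs s (XW (c (k + 1)) Th k a n m)) :=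
    TV_nonneg fun k a n m => H336.phs_symm (XW_psd wf _ _ _ _ _) hs
  have z1 : 0 ≤ TV k₀ N R S (fun k => PA (A (k + 1)) k) :=
    TV_nonneg fun k a n m => PA_symm (A (k + 1)) k a n m
  have t3 := Real.sqrt_le_sqrt (mul_le_mul hTV t2' z2 (z1.trans hTV))
  have b1 : τ * s⁻¹ / 2 * (8 * s * X) = 4 * (τ * X) := by
    field_simp
    ring
  have b2 : τ * s⁻¹ / 2 * (4 * s * X) = 2 * (τ * X) := by
    field_simp
    ring
  have c1 := mul_le_mul_of_nonneg_left d1 (by positivity : 0 ≤ τ * s⁻¹ / 2)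
  have c2 := mul_le_mul_of_nonneg_left d2 (by positivity : 0 ≤ τ * s⁻¹ / 2)
  have c3 := mul_le_mul_of_nonneg_left hV (by positivity : 0 ≤ 2 * τ)
  have c4 := mul_le_mul_of_nonneg_left hDC hτ
  linarith

/-- the quadratic form of `L X⁻¹ L` -/
theorem form_eq {L X : Matrix κ κ ℝ} (hL : Lᵀ = L) (v : κ → ℝ) :
    v ⬝ᵥ (L * X * L) *ᵥ v = (L *ᵥ v) ⬝ᵥ X *ᵥ (L *ᵥ v) := by
  rw [← mulVec_mulVec, ← mulVec_mulVec, dotProduct_mulVec _ L, ← mulVec_transpose, hL]

/-- the quadratic variation in the letters of the pair -/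
theorem cAC_le {N : ℕ} {Th Nn M Nm : ℤ → ℕ → ℤ → Matrix κ κ ℝ} (wf : Wf N Th Nn M Nm) (T S : ℤ)
    (b : ℤ → ℤ → κ → ℝ) (k : ℕ) :
    cAC N T S b Th M Nm k ≤ ∑ x ∈ iv N T, ∑ z ∈ iv N S, eM b Th M k x z
      + (1 / 2) * ∑ x ∈ iv N T, ∑ z ∈ iv N S,
        b x z ⬝ᵥ Nm x (k + 1) (ix (k + 1) z) *ᵥ b x z := by
  unfold cAC
  rw [Finset.mul_sum, ← Finset.sum_add_distrib]
  refine Finset.sum_le_sum fun x _ => ?_
  rw [Finset.mul_sum, ← Finset.sum_add_distrib]
  refine Finset.sum_le_sum fun z _ => ?_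
  have hix : ix k z / 2 = ix (k + 1) z := by
    have := ix_ix k 1 z
    rw [← this]
    simp [ix]
  have e1 := form_eq (X := (Th x (k + 1) (ix (k + 1) z))⁻¹) (wf.sM x (k + 1) (ix (k + 1) z))
    (b x z)
  have sD : (dTh Th k x z)ᵀ = dTh Th k x z := by
    unfold dTh
    rw [transpose_sub, P075.psd_isSymm (wf.pd _ _ _).posSemidef,
      P075.psd_isSymm (wf.pd _ _ _).posSemidef]
  have e2 := form_eq (X := (Th x k (ix k z))⁻¹) sD (b x z)
  have e3 : dW Th x k (ix k z) = dTh Th k x z := by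
    unfold dW dTh
    rw [hix]
  have n2 : 0 ≤ (dTh Th k x z *ᵥ b x z) ⬝ᵥ (Th x k (ix k z))⁻¹ *ᵥ (dTh Th k x z *ᵥ b x z) := by
    have := (wf.pd x k (ix k z)).inv.posSemidef.dotProduct_mulVec_nonneg (dTh Th k x z *ᵥ b x z)
    rwa [star_trivial] at this
  rw [e3, e1, e2]
  unfold eM
  linarith

/-! ### The numbers of the cut families -/

/-- index shift -/
theorem shift_le {k₀ N : ℕ} (h : k₀ ≤ N) {f : ℕ → ℝ} (hf : f N = 0) (n : ∀ k, 0 ≤ f k) :
    ∑ k ∈ Ico k₀ N, f (k + 1) ≤ ∑ k ∈ Ico k₀ N, f k := by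
  rw [shift h hf]
  exact Finset.sum_le_sum_of_subset_of_nonneg (Ico_subset_Ico (Nat.le_succ _) le_rfl)
    fun k _ _ => n k

/-- the cut family stops -/
theorem cut_stop {α : Type} [Zero α] {N : ℕ} {R S : ℤ} {F : ℕ → ℤ → ℤ → α} {k : ℕ} (hk : k ≤ N)
    {x m : ℤ} (h : ¬ (k < N ∧ Ch (cut N R S F) k (ix k x) m)) {z : ℤ} (hz : z ∈ iv k m) :
    cut N R S F (k + 1) x z = cut N R S F k x z := by
  rcases hk.lt_or_eq with h1 | h1
  · exact row_eq (fun hc => h ⟨h1, hc⟩) hz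
  · subst h1
    unfold cut
    rw [min_eq_right (Nat.le_succ k), min_self]

/-- **The pair `(A, C~)` with a raw partner.** -/
theorem pairACr : PairACr 70000 := by
  intro κ _ _ k₀ N r1 r2 r3 pl β A b c Th Nn M Nm E EA cC t2 x2 J hkN hpl hw hN hA hx ht hJ
  have wf := hw.wf
  rcases hkN.lt_or_eq with h0 | h0
  swap
  · subst h0
    have nE : 0 ≤ E := (Finset.sum_nonneg fun x _ => Finset.sum_nonneg fun z _ => by
      have := (wf.pd x k₀ (ix k₀ z)).posSemidef.dotProduct_mulVec_nonneg (c k₀ x z)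
      rwa [star_trivial] at this).trans (hN.en k₀ le_rfl le_rfl k₀ le_rfl (Nat.le_succ _))
    rw [Finset.Ico_self, Finset.sum_empty]
    positivity
  have hN' := Num.cut hN
  have hA' := NumA.cut hA
  set A' := cut N r2 r3 A with hA'd
  set c' := cut N r1 r3 c with hc'd
  have nT : ∀ x k m (v : κ → ℝ), 0 ≤ v ⬝ᵥ Th x k m *ᵥ v := fun x k m v => by
    have := (wf.pd x k m).posSemidef.dotProduct_mulVec_nonneg v
    rwa [star_trivial] at this
  have nE : 0 ≤ E := (Finset.sum_nonneg fun x _ => Finset.sum_nonneg fun z _ =>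
    nT _ _ _ _).trans (hN'.en k₀ le_rfl hkN k₀ le_rfl (Nat.le_succ _))
  have nEA : 0 ≤ EA := (Finset.sum_nonneg fun x _ => Finset.sum_nonneg fun z _ =>
    sq_nonneg _).trans (hA'.en k₀ hkN)
  -- the born part of the stack
  have fB : ∑ k ∈ Ico k₀ N, eC N r1 r3 (rst (fun x m => k + 1 < N ∧ Ch c' (k + 1) (ix (k + 1) x) m)
      (k + 1) (c' (k + 2))) Th (k + 1) ≤ E := by
    have h1 := shift_le hkN (f := fun k => ∑ x ∈ iv N r1, ∑ z ∈ iv N r3,
      (if k < N ∧ Ch c' k (ix k x) (ix k z) then eT (c' (k + 1)) Th k x z else 0)) (by simp)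
      (fun k => Finset.sum_nonneg fun x _ => Finset.sum_nonneg fun z _ => by
        split_ifs
        · exact nT _ _ _ _
        · exact le_rfl)
    refine le_trans (le_of_eq ?_) (h1.trans (le_trans (le_of_eq ?_) hN'.born))
    · refine Finset.sum_congr rfl fun k _ => ?_
      unfold eC
      refine Finset.sum_congr rfl fun x _ => Finset.sum_congr rfl fun z _ => ?_
      unfold rst eT
      split_ifs
      · rfl
      · simp
    · refine Finset.sum_congr rfl fun k hk => Finset.sum_congr rfl fun x _ =>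
        Finset.sum_congr rfl fun z _ => ?_
      simp only [(mem_Ico.1 hk).2, true_and]
  -- the levels
  have hcT : ∑ k ∈ Ico k₀ N, H38.T.cT (J + 1) N r1 r3 Th M Nm
      (fun k x m => k < N ∧ Ch c' k (ix k x) m) c' k ≤ 528 * ((J : ℝ) + 1) ^ 3 * E := by
    have h1 : ∀ k, H293.ms N r1 r3 (c' (k + 1))
        (fun x m => M x (k + 1) m * (Th x (k + 1) m)⁻¹ * M x (k + 1) m) (k + 1)
        ≤ ∑ x ∈ iv N r1, ∑ z ∈ iv N r3, eM (c' (k + 1)) Th M k x z := by
      intro k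
      refine Finset.sum_le_sum fun x _ => Finset.sum_le_sum fun z _ => ?_
      have e1 := form_eq (X := (Th x (k + 1) (ix (k + 1) z))⁻¹)
        (wf.sM x (k + 1) (ix (k + 1) z)) (c' (k + 1) x z)
      have n2 : 0 ≤ (dTh Th k x z *ᵥ c' (k + 1) x z) ⬝ᵥ (Th x k (ix k z))⁻¹ *ᵥ
          (dTh Th k x z *ᵥ c' (k + 1) x z) := by
        have := (wf.pd x k (ix k z)).inv.posSemidef.dotProduct_mulVec_nonneg
          (dTh Th k x z *ᵥ c' (k + 1) x z)
        rwa [star_trivial] at this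
      simp only []
      rw [e1]
      unfold eM
      linarith
    have s1 := (Finset.sum_le_sum fun k (_ : k ∈ Ico k₀ N) => h1 k).trans hN'.var
    have s2 : ∑ k ∈ Ico k₀ N, H293.ms N r1 r3 (c' (k + 1)) (fun x m => Nm x (k + 1) m) (k + 1)
        ≤ E := hN'.dr
    have s3 : ∑ k ∈ Ico k₀ N, H293.ms N r1 r3
        (H293.af (fun k x m => k < N ∧ Ch c' k (ix k x) m) c' (k + 1))
        (fun x m => Th x (k + 1) m) (k + 1) ≤ E := fB
    have hJ0 : (0 : ℝ) ≤ J := Nat.cast_nonneg J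
    have j1 : ((J + 1 : ℕ) : ℝ) + 1 ≤ 2 * ((J : ℝ) + 1) := by
      push_cast
      linarith
    have j3 : (((J + 1 : ℕ) : ℝ) + 1) ^ 3 ≤ 8 * ((J : ℝ) + 1) ^ 3 := by
      have h3 := pow_le_pow_left₀ (by positivity) j1 3
      rw [mul_pow] at h3
      linarith
    have j2 : ((J + 1 : ℕ) : ℝ) + 1 ≤ 8 * ((J : ℝ) + 1) ^ 3 := by
      refine j1.trans ?_
      nlinarith [mul_nonneg hJ0 hJ0, mul_nonneg hJ0 (mul_nonneg hJ0 hJ0)]
    unfold H38.T.cT
    simp only [Finset.sum_add_distrib, ← Finset.mul_sum]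
    have t1 := mul_le_mul (mul_le_mul_of_nonneg_left j3 (by norm_num : (0 : ℝ) ≤ 64)) s1
      (Finset.sum_nonneg fun k _ => Finset.sum_nonneg fun x _ => Finset.sum_nonneg fun y _ =>
        H389.quad_nonneg (wf.pd x _ _) (wf.sM x _ _) _) (by positivity)
    have t2' := mul_le_mul j2 s2 (Finset.sum_nonneg fun k _ =>
      H293.ms_nonneg N r1 r3 (c' (k + 1)) (k + 1) fun x m => wf.pNm x (k + 1) m) (by positivity)
    have t3 := mul_le_mul j2 s3 (Finset.sum_nonneg fun k _ =>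
      H293.ms_nonneg N r1 r3 _ (k + 1) fun x m => (wf.pd x (k + 1) m).posSemidef) (by positivity)
    linarith
  have hV : ∑ k ∈ Ico k₀ N, cAC N r1 r3 (c' (k + 1)) Th M Nm k ≤ 2 * E := by
    refine (Finset.sum_le_sum fun k _ => cAC_le wf r1 r3 (c' (k + 1)) k).trans ?_
    rw [Finset.sum_add_distrib, ← Finset.mul_sum]
    have h1 := hN'.var
    have h2 := hN'.dr
    linarith
  have fA : ∑ k ∈ Ico k₀ N, eA N r2 r3 (rst (fun y m => k + 1 < N ∧ Ch A' (k + 1) (ix (k + 1) y) m)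
      (k + 1) (A' (k + 2))) ≤ EA := by
    have h1 := shift_le hkN (f := fun k => ∑ y ∈ iv N r2, ∑ z ∈ iv N r3,
      (if k < N ∧ Ch A' k (ix k y) (ix k z) then A' (k + 1) y z ^ 2 else 0)) (by simp)
      (fun k => Finset.sum_nonneg fun x _ => Finset.sum_nonneg fun z _ => by
        split_ifs
        · exact sq_nonneg _
        · exact le_rfl)
    refine le_trans (le_of_eq ?_) (h1.trans (le_trans (le_of_eq ?_) hA'.born))
    · refine Finset.sum_congr rfl fun k _ => ?_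
      unfold eA
      refine Finset.sum_congr rfl fun x _ => Finset.sum_congr rfl fun z _ => ?_
      unfold rst
      split_ifs
      · rfl
      · simp
    · refine Finset.sum_congr rfl fun k hk => Finset.sum_congr rfl fun x _ =>
        Finset.sum_congr rfl fun z _ => ?_
      simp only [(mem_Ico.1 hk).2, true_and]
  have fC : ∑ k ∈ Ico k₀ N, GW N r2 r3 r1 (k + 1) (pl (k + 1)) (fun n2 n1 m =>
      if k + 1 < N ∧ Ch A' (k + 1) n2 m then
        (XW (c' (k + 2)) Th (k + 1) (k + 1) n1 m).trace else 0) ≤ E := by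
    have h1 := shift_le hkN (f := fun k => GW N r2 r3 r1 k (pl k) (fun n2 n1 m =>
      if k < N ∧ Ch A' k n2 m then (XW (c' (k + 1)) Th k k n1 m).trace else 0))
      (by simp [GW])
      (fun k => H103.GW_nonneg _ _ _ _ _ _ fun n n' m => by
        split_ifs
        · exact (XW_psd wf _ _ _ _ _).trace_nonneg
        · exact le_rfl)
    refine le_trans (le_of_eq ?_) (h1.trans (le_trans (Finset.sum_le_sum fun k _ => GW_mo
      fun n n' m => ?_) hN'.cross))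
    · rfl
    · by_cases hh : k < N ∧ Ch A' k n m
      · rw [if_pos hh, if_pos (Or.inl hh.2)]
        exact le_rfl
      · rw [if_neg hh]
        split_ifs
        · exact (XW_psd wf (c' (k + 1)) k k n' m).trace_nonneg
        · exact le_rfl
  have hJ0 : (0 : ℝ) ≤ J := Nat.cast_nonneg J
  have y1 : (1 : ℝ) ≤ ((J : ℝ) + 1) ^ 3 := one_le_pow₀ (by linarith)
  have key := coreW hkN (R := r2) (S := r3) (T := r1) hpl wf (τ := t2) hx ht.le (J + 1) A' c'
    (P := fun k y m => k < N ∧ Ch A' k (ix k y) m)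
    (Q := fun k x m => k < N ∧ Ch c' k (ix k x) m) (Bo := fun k n m => k < N ∧ Ch A' k n m)
    (E := E) (EA := EA) (Qm := 528 * ((J : ℝ) + 1) ^ 3 * E) (V := 2 * E)
    (X := 2144 * (((J : ℝ) + 1) ^ 3 * E))
    (fun k _ h2 z m h y hy => cut_stop h2 h hy)
    (fun k _ h2 z m h y hy => cut_stop h2 h hy)
    (fun k a h1 h2 h3 n m => capA_all ht.le hA h1.le h2 h3 le_rfl (Nat.le_succ k) n m)
    (fun k a h1 h2 h3 n m => capA_all ht.le hA h1 h2 h3 (Nat.le_succ k) le_rfl n m)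
    (fun k a n m h1 h2 h3 => H293.scale_cap hx hJ (cap_all hN (k := k + 1) (a := a) (by omega)
      (by omega) (by omega) h3 (j := k + 1) (by omega) (by omega) n m))
    (fun k z m h => h)
    (hA'.en (k₀ + 1) h0) fA (hN'.en k₀ le_rfl hkN (k₀ + 1) (Nat.le_succ _) le_rfl) hcT hV fB
    (le_trans (le_of_eq (Finset.sum_congr rfl fun k _ => GW_congr fun m _ n _ n' _ => by
      by_cases hh : k + 1 < N ∧ Ch A' (k + 1) n m
      · rw [if_pos hh, if_pos hh]
      · rw [if_neg hh, if_neg hh])) fC) (by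
      have j2 : (((J + 1 : ℕ) : ℝ) + 1) * E ≤ 8 * ((J : ℝ) + 1) ^ 3 * E := by
        refine mul_le_mul_of_nonneg_right ?_ nE
        push_cast
        nlinarith [mul_nonneg hJ0 hJ0, mul_nonneg hJ0 (mul_nonneg hJ0 hJ0)]
      linarith)
  rw [← lhs_cut x2]
  have e0 : ∑ k ∈ Ico k₀ N, GW N r2 r3 r1 (k + 1) (pl (k + 1)) (fun n2 n1 m =>
      (PA (cut N r2 r3 A (k + 1)) (k + 1) (k + 1) n2 m * (hd (k + 1) *
        phs x2 (W3 (cut N r1 r3 c (k + 1)) Th (k + 1) (k + 1) n1 m) * hd (k + 1))).trace)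
      = ∑ k ∈ Ico k₀ N, GW N r2 r3 r1 (k + 1) (pl (k + 1))
        (gAC (A' (k + 1)) (c' (k + 1)) Th x2 k (k + 1) (k + 1)) := rfl
  rw [e0]
  have nD : 0 ≤ t2 * E := mul_nonneg ht.le nE
  have nB : 0 ≤ √(x2 * E * (t2 * EA)) := Real.sqrt_nonneg _
  have nP : 0 ≤ x2 * E * (t2 * EA) := by positivity
  have r1' : √(308 * (t2 * EA) * (400 * x2 * (2144 * (((J : ℝ) + 1) ^ 3 * E))))
      ≤ 16253 * ((J : ℝ) + 1) ^ 3 * √(x2 * E * (t2 * EA)) := by
    have e4 : √((16253 * ((J : ℝ) + 1) ^ 3) ^ 2 * (x2 * E * (t2 * EA)))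
        = 16253 * ((J : ℝ) + 1) ^ 3 * √(x2 * E * (t2 * EA)) := by
      rw [Real.sqrt_mul (by positivity), Real.sqrt_sq (by positivity)]
    rw [← e4]
    refine Real.sqrt_le_sqrt ?_
    have e5 : 308 * (t2 * EA) * (400 * x2 * (2144 * (((J : ℝ) + 1) ^ 3 * E)))
        = 264140800 * ((J : ℝ) + 1) ^ 3 * (x2 * E * (t2 * EA)) := by ring
    rw [e5]
    refine mul_le_mul_of_nonneg_right ?_ nP
    nlinarith [mul_nonneg (by positivity : (0 : ℝ) ≤ ((J : ℝ) + 1) ^ 3) (sub_nonneg.2 y1)]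
  have r2' : √(t2 * EA) * √(x2 * E) = √(x2 * E * (t2 * EA)) := by
    rw [mul_comm, ← Real.sqrt_mul (by positivity)]
  rw [r2'] at key
  have q1 := mul_le_mul_of_nonneg_right y1 nB
  have q2 := mul_le_mul_of_nonneg_right y1 nD
  have q3 : 0 ≤ ((J : ℝ) + 1) ^ 3 * (t2 * E) := by positivity
  have q4 : 0 ≤ ((J : ℝ) + 1) ^ 3 * √(x2 * E * (t2 * EA)) := by positivity
  have e6 : 6 * (t2 * (2144 * (((J : ℝ) + 1) ^ 3 * E)))
      = 12864 * (((J : ℝ) + 1) ^ 3 * (t2 * E)) := by ring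
  have e7 : 2 * t2 * (2 * E) = 4 * (t2 * E) := by ring
  have e8 : 70000 * ((J : ℝ) + 1) ^ 3 * (√(x2 * E * (t2 * EA)) + t2 * E)
      = 70000 * (((J : ℝ) + 1) ^ 3 * √(x2 * E * (t2 * EA)))
        + 70000 * (((J : ℝ) + 1) ^ 3 * (t2 * E)) := by ring
  rw [e6, e7] at key
  rw [e8]
  linarith

end

end Vale.Agent.P141.H170.PairT
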