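import Vale.Agent.P141.H92.PairFin
import Vale.Agent.P141.H389.RealAC
import Vale.Agent.P141.H103.CapA

/-!
# P141, line (A): changed rows of a path family in the pair sums

Between two times the rows of a Gram matrix change on affected squares only.  `phs_add_le`: a
capped slot pays for an added Gram matrix `Y` at most `q * tr Y` against a partner `Q ≤ q`.
`phs_QW_le`: the weighted Gram matrices of two functions which agree on the good rows of the cell.
`sum_chg`: the plane sums of the changed masses.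
-/

namespace Vale.Agent.P141.H170.PathAC

open Finset Matrix Vale.Agent.P141.PL Vale.Agent.P141.PL.H103 Vale.Agent.P141.H103
open Vale.Agent.P075 (Ix val phi res)
open Vale.Agent.P141.H585.PairCh (phs)
open Vale.Agent.P141.H336 (bsum)

noncomputable section

open scoped Classical

section mat

variable {ι : Type*} [Fintype ι] [DecidableEq ι]

/-- `phi (X + Y) - phi X ≤ res X * Y * res X` -/
theorem phi_add_le {X Y : Matrix ι ι ℝ} (hX : X.PosSemidef) (hY : Y.PosSemidef) :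
    (res X * Y * res X - (phi (X + Y) - phi X)).PosSemidef := by
  have hXY := hX.add hY
  have a1 := P075.one_add_mul_res hX
  have a2 := P075.res_mul_one_add hX
  have c1 := P075.one_add_mul_res hXY
  have c2 := P075.res_mul_one_add hXY
  set p := res X with hp
  set r := res (X + Y) with hr
  have sp : pᵀ = p := by
    have h := P075.phi_symm hX
    rw [phi, transpose_sub, transpose_one] at h
    exact sub_right_injective h
  have sY : Yᵀ = Y := by
    have := hY.isHermitian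
    rwa [Matrix.IsHermitian, conjTranspose_eq_transpose_of_trivial] at this
  -- `p - r = p Y r = r Y p`
  have e1 : p - r = p * Y * r := by
    have : p * ((1 + (X + Y)) * r) - (p * (1 + X)) * r = p * Y * r := by noncomm_ring
    rw [c1, a2, Matrix.mul_one, Matrix.one_mul] at this
    exact this
  have e2 : p - r = r * Y * p := by
    have : (r * (1 + (X + Y))) * p - r * ((1 + X) * p) = r * Y * p := by noncomm_ring
    rw [c2, a1, Matrix.mul_one, Matrix.one_mul] at this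
    exact this
  have e3 : p * Y * p - (phi (X + Y) - phi X) = (Y * p)ᵀ * r * (Y * p) := by
    have e4 : phi (X + Y) - phi X = p - r := by rw [phi, phi]; abel
    have e5 : (Y * p)ᵀ = p * Y := by rw [transpose_mul, sp, sY]
    rw [e4, e5]
    have e6 : p * Y * p - (p - r) = p * Y * (p - r) := by
      rw [Matrix.mul_sub, ← e1]
    rw [e6, e2]
    noncomm_ring
  rw [e3]
  have hr0 : r.PosSemidef := P075.res_psd hXY
  have := hr0.conjTranspose_mul_mul_same (Y * p)
  rwa [conjTranspose_eq_transpose_of_trivial] at this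

/-- trace of the added part -/
theorem tr_phi_add_le {X Y : Matrix ι ι ℝ} (hX : X.PosSemidef) (hY : Y.PosSemidef) :
    (phi (X + Y) - phi X).trace ≤ Y.trace := by
  have h := (phi_add_le hX hY).trace_nonneg
  rw [trace_sub] at h
  have hp : (res X).PosSemidef := P075.res_psd hX
  have h1 : (1 - res X * res X).PosSemidef := by
    have a := P075.phi_psd hX
    have e : (1 : Matrix ι ι ℝ) - res X * res X = phi X + res X * phi X := by
      rw [phi]; noncomm_ring
    rw [e]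
    have e2 : res X * phi X = phi X - phi X * phi X := by rw [phi]; noncomm_ring
    rw [e2]
    exact a.add (P075.phi_sub_sq_psd hX)
  have e : (res X * Y * res X).trace = (Y * (res X * res X)).trace := by
    rw [Matrix.mul_assoc, trace_mul_comm, Matrix.mul_assoc]
  have h2 := P075.trace_mul_nonneg hY h1
  rw [Matrix.mul_sub, trace_sub, Matrix.mul_one] at h2
  rw [e] at h
  linarith

/-- **An added Gram matrix** costs at most `q * tr Y` against a partner `Q ≤ q`. -/
theorem phs_add_le {s q : ℝ} (hs : 0 < s) {X Y Q : Matrix ι ι ℝ} (hX : X.PosSemidef)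
    (hY : Y.PosSemidef) (hQ : (q • (1 : Matrix ι ι ℝ) - Q).PosSemidef) (hq0 : 0 ≤ q) :
    (phs s (X + Y) * Q).trace ≤ (phs s X * Q).trace + q * Y.trace := by
  have kX : (s⁻¹ • X).PosSemidef := hX.smul (inv_pos.2 hs).le
  have kY : (s⁻¹ • Y).PosSemidef := hY.smul (inv_pos.2 hs).le
  have hm : (phi (s⁻¹ • X + s⁻¹ • Y) - phi (s⁻¹ • X)).PosSemidef := by
    have := P075.res_anti kX kY
    rw [phi, phi]
    have e : (1 : Matrix ι ι ℝ) - res (s⁻¹ • X + s⁻¹ • Y) - (1 - res (s⁻¹ • X))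
        = res (s⁻¹ • X) - res (s⁻¹ • X + s⁻¹ • Y) := by abel
    rw [e]
    exact this
  have h1 := P075.trace_mul_nonneg hm hQ
  rw [Matrix.mul_sub, trace_sub, Matrix.mul_smul, Matrix.mul_one, trace_smul, smul_eq_mul] at h1
  have h2 := tr_phi_add_le kX kY
  have h3 : ((phi (s⁻¹ • X + s⁻¹ • Y) - phi (s⁻¹ • X)) * Q).trace ≤ q * (s⁻¹ • Y).trace := by
    have := mul_le_mul_of_nonneg_left h2 hq0
    linarith
  rw [Matrix.sub_mul, trace_sub, trace_smul, smul_eq_mul] at h3
  have e : s⁻¹ • (X + Y) = s⁻¹ • X + s⁻¹ • Y := smul_add _ _ _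
  unfold phs
  rw [e, Matrix.smul_mul, Matrix.smul_mul, trace_smul, trace_smul, smul_eq_mul, smul_eq_mul]
  have h4 := mul_le_mul_of_nonneg_left h3 hs.le
  have e5 : s * (q * (s⁻¹ * Y.trace)) = q * Y.trace := by
    field_simp
  rw [mul_sub, e5] at h4
  linarith

/-- monotone in the slot -/
theorem phs_mono_tr {s : ℝ} (hs : 0 < s) {X Y Q : Matrix ι ι ℝ} (hX : X.PosSemidef)
    (hY : Y.PosSemidef) (hQ : Q.PosSemidef) :
    (phs s X * Q).trace ≤ (phs s (X + Y) * Q).trace := by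
  have kX : (s⁻¹ • X).PosSemidef := hX.smul (inv_pos.2 hs).le
  have kY : (s⁻¹ • Y).PosSemidef := hY.smul (inv_pos.2 hs).le
  have hm : (phi (s⁻¹ • X + s⁻¹ • Y) - phi (s⁻¹ • X)).PosSemidef := by
    have := P075.res_anti kX kY
    rw [phi, phi]
    have e : (1 : Matrix ι ι ℝ) - res (s⁻¹ • X + s⁻¹ • Y) - (1 - res (s⁻¹ • X))
        = res (s⁻¹ • X) - res (s⁻¹ • X + s⁻¹ • Y) := by abel
    rw [e]
    exact this
  have h1 := P075.trace_mul_nonneg hm hQ
  rw [Matrix.sub_mul, trace_sub] at h1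
  have e : s⁻¹ • (X + Y) = s⁻¹ • X + s⁻¹ • Y := smul_add _ _ _
  unfold phs
  rw [e, Matrix.smul_mul, Matrix.smul_mul, trace_smul, trace_smul, smul_eq_mul, smul_eq_mul]
  exact mul_le_mul_of_nonneg_left (by linarith) hs.le

end mat

/-! ### Rows of the weighted Gram matrices -/

variable {κ : Type*} [Fintype κ]

/-- the part of a function on the rows `D` -/
def rw0 (D : ℤ → Prop) (b : ℤ → ℤ → κ → ℝ) (x y : ℤ) : κ → ℝ := if D x then b x y else 0

theorem QW_split (a k : ℕ) (b : ℤ → ℤ → κ → ℝ) (M : ℤ → Matrix κ κ ℝ) (D : ℤ → Prop) (n m : ℤ) :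
    QW a k b M n m = QW a k (rw0 (fun x => ¬ D x) b) M n m + QW a k (rw0 D b) M n m := by
  ext j j'
  rw [Matrix.add_apply, QW, QW, QW, ← mul_add, ← Finset.sum_add_distrib]
  congr 1
  refine Finset.sum_congr rfl fun x _ => ?_
  unfold rw0
  by_cases h : D x <;> simp [h]

theorem QW_good {a k : ℕ} {b b' : ℤ → ℤ → κ → ℝ} (M : ℤ → Matrix κ κ ℝ) {D : ℤ → Prop} {n m : ℤ}
    (h : ∀ x ∈ iv a n, ¬ D x → ∀ y ∈ iv k m, b' x y = b x y) :
    QW a k (rw0 (fun x => ¬ D x) b') M n m = QW a k (rw0 (fun x => ¬ D x) b) M n m := by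
  ext j j'
  rw [QW, QW]
  congr 1
  refine Finset.sum_congr rfl fun x hx => ?_
  unfold rw0
  by_cases hD : D x
  · simp [hD]
  · simp only [hD, not_false_eq_true, if_true]
    rw [h x hx hD _ (H103.mem_iv_val k m j), h x hx hD _ (H103.mem_iv_val k m j')]

/-- the trace of the changed rows -/
theorem tr_QW_rows (a k : ℕ) (b : ℤ → ℤ → κ → ℝ) (M : ℤ → Matrix κ κ ℝ) (D : ℤ → Prop) (n m : ℤ) :
    (QW a k (rw0 D b) M n m).trace = ((2 : ℝ) ^ a * 2 ^ k)⁻¹ * ∑ x ∈ iv a n with D x,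
      ∑ y ∈ iv k m, b x y ⬝ᵥ M x *ᵥ b x y := by
  rw [Matrix.trace]
  simp only [Matrix.diag_apply, QW]
  rw [← Finset.mul_sum]
  congr 1
  rw [Finset.sum_comm, Finset.sum_filter]
  refine Finset.sum_congr rfl fun x _ => ?_
  rw [H588.sum_iv k m fun y => b x y ⬝ᵥ M x *ᵥ b x y]
  unfold rw0
  by_cases hD : D x <;> simp [hD]

/-- **Changed rows**: `b'` (new time) against `b` (old time). -/
theorem phs_QW_le {s q : ℝ} (hs : 0 < s) (hq0 : 0 ≤ q) {a k : ℕ} {b b' : ℤ → ℤ → κ → ℝ}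
    {M : ℤ → Matrix κ κ ℝ} (hM : ∀ x, (M x).PosSemidef) {D : ℤ → Prop} {n m : ℤ}
    (h : ∀ x ∈ iv a n, ¬ D x → ∀ y ∈ iv k m, b' x y = b x y) {Q : Matrix (Ix k) (Ix k) ℝ}
    (hQ : Q.PosSemidef) (hq : (q • (1 : Matrix (Ix k) (Ix k) ℝ) - Q).PosSemidef) :
    (phs s (QW a k b' M n m) * Q).trace ≤ (phs s (QW a k b M n m) * Q).trace
      + q * (((2 : ℝ) ^ a * 2 ^ k)⁻¹ * ∑ x ∈ iv a n with D x,
        ∑ y ∈ iv k m, b' x y ⬝ᵥ M x *ᵥ b' x y) := by
  rw [← tr_QW_rows a k b' M D n m, QW_split a k b' M D n m, QW_split a k b M D n m, QW_good M h]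
  exact (phs_add_le hs (QW_psd hM n m) (QW_psd hM n m) hq hq0).trans
    (add_le_add (phs_mono_tr hs (QW_psd hM n m) (QW_psd hM n m) hQ) le_rfl)

/-- the same for a raw partner: linear in the changed Gram matrix -/
theorem raw_QW_le {q : ℝ} {a k : ℕ} {b b' : ℤ → ℤ → κ → ℝ}
    {M : ℤ → Matrix κ κ ℝ} (hM : ∀ x, (M x).PosSemidef) {D : ℤ → Prop} {n m : ℤ}
    (h : ∀ x ∈ iv a n, ¬ D x → ∀ y ∈ iv k m, b' x y = b x y) {Q : Matrix (Ix k) (Ix k) ℝ}
    (hQ : Q.PosSemidef) (hq : (q • (1 : Matrix (Ix k) (Ix k) ℝ) - Q).PosSemidef) :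
    (QW a k b' M n m * Q).trace ≤ (QW a k b M n m * Q).trace
      + q * (((2 : ℝ) ^ a * 2 ^ k)⁻¹ * ∑ x ∈ iv a n with D x,
        ∑ y ∈ iv k m, b' x y ⬝ᵥ M x *ᵥ b' x y) := by
  rw [← tr_QW_rows a k b' M D n m, QW_split a k b' M D n m, QW_split a k b M D n m, QW_good M h,
    Matrix.add_mul, Matrix.add_mul, trace_add, trace_add]
  have h1 := P075.trace_mul_nonneg (QW_psd hM n m : (QW a k (rw0 D b') M n m).PosSemidef) hq
  rw [Matrix.mul_sub, trace_sub, Matrix.mul_smul, Matrix.mul_one, trace_smul, smul_eq_mul] at h1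
  have h2 := P075.trace_mul_nonneg (QW_psd hM n m : (QW a k (rw0 D b) M n m).PosSemidef) hQ
  linarith

/-! ### Plane sums of the changed masses -/

/-- **The plane sum of the changed masses** of the halves at the step `k → k + 1`. -/
theorem sum_chg {N k : ℕ} (hk : k < N) (R S : ℤ) {f : ℤ → ℤ → ℝ} {D : ℤ → ℤ → Prop} :
    bsum N R S (k + 1) (k + 1) (fun n m => ∑ h : Bool,
      (((2 : ℝ) ^ (k + 1) * 2 ^ k)⁻¹ * ∑ x ∈ iv (k + 1) n with D x (2 * m + cond h 1 0),
        ∑ y ∈ iv k (2 * m + cond h 1 0), f x y))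
      = 2 * ∑ x ∈ iv N R, ∑ j ∈ iv (N - k) S, if D x j then ∑ y ∈ iv k j, f x y else 0 := by
  have e1 : ∀ m n, ∑ h : Bool, (((2 : ℝ) ^ (k + 1) * 2 ^ k)⁻¹ *
      ∑ x ∈ iv (k + 1) n with D x (2 * m + cond h 1 0), ∑ y ∈ iv k (2 * m + cond h 1 0), f x y)
      = ((2 : ℝ) ^ (k + 1) * 2 ^ k)⁻¹ * ∑ x ∈ iv (k + 1) n,
        ((if D x (2 * m) then ∑ y ∈ iv k (2 * m), f x y else 0)
          + (if D x (2 * m + 1) then ∑ y ∈ iv k (2 * m + 1), f x y else 0)) := by
    intro m n
    rw [Fintype.sum_bool, sum_add_distrib, ← sum_filter, ← sum_filter]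
    simp only [cond_true, cond_false, add_zero]
    ring
  unfold H336.bsum
  simp only [e1]
  have e2 : ∀ m, ∑ n ∈ iv (N - (k + 1)) R, ((2 : ℝ) ^ (k + 1) * 2 ^ k)⁻¹ * ∑ x ∈ iv (k + 1) n,
        ((if D x (2 * m) then ∑ y ∈ iv k (2 * m), f x y else 0)
          + (if D x (2 * m + 1) then ∑ y ∈ iv k (2 * m + 1), f x y else 0))
      = ((2 : ℝ) ^ (k + 1) * 2 ^ k)⁻¹ * ∑ x ∈ iv N R,
        ((if D x (2 * m) then ∑ y ∈ iv k (2 * m), f x y else 0)
          + (if D x (2 * m + 1) then ∑ y ∈ iv k (2 * m + 1), f x y else 0)) := by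
    intro m
    rw [← mul_sum]
    congr 1
    exact PL.H978.sum_iv_iv (by omega : k + 1 ≤ N) R _
  simp only [e2]
  rw [← mul_sum, sum_comm]
  have e3 : ∀ x, ∑ m ∈ iv (N - (k + 1)) S,
        ((if D x (2 * m) then ∑ y ∈ iv k (2 * m), f x y else 0)
          + (if D x (2 * m + 1) then ∑ y ∈ iv k (2 * m + 1), f x y else 0))
      = ∑ j ∈ iv (N - k) S, if D x j then ∑ y ∈ iv k j, f x y else 0 := by
    intro x
    have : N - k = (N - (k + 1)) + 1 := by omega
    rw [this]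
    exact (H588.sum_iv_succ _ S fun j => if D x j then ∑ y ∈ iv k j, f x y else 0).symm
  simp only [e3]
  rw [← mul_assoc]
  congr 1
  rw [pow_succ]
  field_simp

end

end Vale.Agent.P141.H170.PathAC
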