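import Vale.Agent.P141.H170.PathAC
import Vale.Agent.P141.H389.PathA

/-!
# P141, line (A): changed rows, abstract form

A Gram matrix is a sum of row matrices `G z`, `z` in a finite set.  If the new rows `G' z` agree
with the old ones off the affected set `D`, then the capped slot pays `q` times the trace of the
affected new rows, and the level sum `SG` pays `(J + 1)` times this trace.  Any index types, so it
serves both hubs, with or without labels.
-/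

namespace Vale.Agent.P141.H170.PathAC

open Finset Matrix
open Vale.Agent.P141.H585.PairCh (phs)
open Vale.Agent.P141.H505 (SG)

noncomputable section

open scoped Classical

variable {ι σ : Type*} [Fintype ι] [DecidableEq ι]

/-- the two sums through the common good rows -/
theorem rows_split {c : ℝ} (hc : 0 ≤ c) {Z : Finset σ} {G G' : σ → Matrix ι ι ℝ} {D : σ → Prop}
    (hG : ∀ z ∈ Z, (G z).PosSemidef) (hG' : ∀ z ∈ Z, (G' z).PosSemidef)
    (h : ∀ z ∈ Z, ¬ D z → G' z = G z) :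
    ∃ X E Y : Matrix ι ι ℝ, X.PosSemidef ∧ E.PosSemidef ∧ Y.PosSemidef ∧
      c • ∑ z ∈ Z, G z = X + E ∧ c • ∑ z ∈ Z, G' z = X + Y ∧
      Y.trace = c * ∑ z ∈ Z with D z, (G' z).trace := by
  refine ⟨c • ∑ z ∈ Z with ¬ D z, G z, c • ∑ z ∈ Z with D z, G z, c • ∑ z ∈ Z with D z, G' z,
    (posSemidef_sum _ fun z hz => hG z (mem_filter.1 hz).1).smul hc,
    (posSemidef_sum _ fun z hz => hG z (mem_filter.1 hz).1).smul hc,
    (posSemidef_sum _ fun z hz => hG' z (mem_filter.1 hz).1).smul hc, ?_, ?_, ?_⟩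
  · rw [← smul_add, add_comm, sum_filter_add_sum_filter_not]
  · have e : ∑ z ∈ Z with ¬ D z, G z = ∑ z ∈ Z with ¬ D z, G' z :=
      sum_congr rfl fun z hz => (h z (mem_filter.1 hz).1 (mem_filter.1 hz).2).symm
    rw [e, ← smul_add, add_comm, sum_filter_add_sum_filter_not]
  · rw [trace_smul, smul_eq_mul, trace_sum]

/-- **Changed rows against a partner `Q ≤ q`**, capped slot. -/
theorem phs_rows_le {s q c : ℝ} (hs : 0 < s) (hq0 : 0 ≤ q) (hc : 0 ≤ c) {Z : Finset σ}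
    {G G' : σ → Matrix ι ι ℝ} {D : σ → Prop} (hG : ∀ z ∈ Z, (G z).PosSemidef)
    (hG' : ∀ z ∈ Z, (G' z).PosSemidef) (h : ∀ z ∈ Z, ¬ D z → G' z = G z) {Q : Matrix ι ι ℝ}
    (hQ : Q.PosSemidef) (hq : (q • (1 : Matrix ι ι ℝ) - Q).PosSemidef) :
    (phs s (c • ∑ z ∈ Z, G' z) * Q).trace ≤ (phs s (c • ∑ z ∈ Z, G z) * Q).trace
      + q * (c * ∑ z ∈ Z with D z, (G' z).trace) := by
  obtain ⟨X, E, Y, pX, pE, pY, e1, e2, e3⟩ := rows_split hc hG hG' h
  rw [e1, e2, ← e3]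
  exact (phs_add_le hs pX pY hq hq0).trans (add_le_add (phs_mono_tr hs pX pE hQ) le_rfl)

/-- **Changed rows against a partner `Q ≤ q`**, raw slot. -/
theorem raw_rows_le {q c : ℝ} (hc : 0 ≤ c) {Z : Finset σ} {G G' : σ → Matrix ι ι ℝ}
    {D : σ → Prop} (hG : ∀ z ∈ Z, (G z).PosSemidef) (hG' : ∀ z ∈ Z, (G' z).PosSemidef)
    (h : ∀ z ∈ Z, ¬ D z → G' z = G z) {Q : Matrix ι ι ℝ} (hQ : Q.PosSemidef)
    (hq : (q • (1 : Matrix ι ι ℝ) - Q).PosSemidef) :
    ((c • ∑ z ∈ Z, G' z) * Q).trace ≤ ((c • ∑ z ∈ Z, G z) * Q).trace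
      + q * (c * ∑ z ∈ Z with D z, (G' z).trace) := by
  obtain ⟨X, E, Y, pX, pE, pY, e1, e2, e3⟩ := rows_split hc hG hG' h
  rw [e1, e2, ← e3, Matrix.add_mul, Matrix.add_mul, trace_add, trace_add]
  have h1 := P075.trace_mul_nonneg pY hq
  rw [Matrix.mul_sub, trace_sub, Matrix.mul_smul, Matrix.mul_one, trace_smul, smul_eq_mul] at h1
  have h2 := P075.trace_mul_nonneg pE hQ
  linarith

/-- **Changed rows in the level sum.** -/
theorem SG_rows_le {c : ℝ} (hc : 0 ≤ c) {Z : Finset σ} {G G' : σ → Matrix ι ι ℝ}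
    {D : σ → Prop} (hG : ∀ z ∈ Z, (G z).PosSemidef) (hG' : ∀ z ∈ Z, (G' z).PosSemidef)
    (h : ∀ z ∈ Z, ¬ D z → G' z = G z) {μ : ℝ} (hμ : 0 < μ) (J : ℕ) :
    SG μ J (c • ∑ z ∈ Z, G' z) ≤ SG μ J (c • ∑ z ∈ Z, G z)
      + ((J : ℝ) + 1) * (c * ∑ z ∈ Z with D z, (G' z).trace) := by
  obtain ⟨X, E, Y, pX, pE, pY, e1, e2, e3⟩ := rows_split hc hG hG' h
  rw [e1, e2, ← e3]
  have h1 := H389.SG_add_le hμ J pX pY
  have h2 := H389.SG_mono hμ J pX pE
  linarith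

end

end Vale.Agent.P141.H170.PathAC
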