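import Vale.Agent.P141.H170.Win
import Vale.Agent.P141.H389.TVraw
import Vale.Agent.P141.H38.StkT
import Vale.Agent.P141.H336.TVp

/-!
# P141, line (A): a raw pair with row changes, static weight

The raw scalar slot `A` and the raw vector slot `c` change along the scales; changes are counted by
row predicates `P k y m`, `Q k x m` (row, middle cell). A row of `c` which is born (time `k` nonzero,
time `k + 1` zero) costs nothing.
-/

namespace Vale.Agent.P141.H170.RowC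

open Finset Matrix Vale.Agent.P141.PL Vale.Agent.P141.PL.H103 Vale.Agent.P141.H103
open Vale.Agent.P141.H505 Vale.Agent.P141.H336 Vale.Agent.P141.H389
open Vale.Agent.P141.H170.Win
open Vale.Agent.P141.H92 (StO dh dls_nonneg gcs_le rad_symm')
open Vale.Agent.P141.H585.PairCh (phs dls)
open Vale.Agent.P075 (Ix val rad GX phi res)
open Vale.Agent.P141.PL.H588 (hd)

noncomputable section

open scoped Classical

/-- static weight -/
def w1 (κ : Type) [DecidableEq κ] : ℤ → ℕ → ℤ → Matrix κ κ ℝ := fun _ _ _ => 1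

/-- no motion -/
def w0 (κ : Type) : ℤ → ℕ → ℤ → Matrix κ κ ℝ := fun _ _ _ => 0

variable {κ : Type} [Fintype κ] [DecidableEq κ]

theorem wf1 (N : ℕ) : Wf N (w1 κ) (w0 κ) (w0 κ) (w0 κ) where
  pd _ _ _ := Matrix.PosDef.one
  sN _ _ _ := by simp [w0]
  sM _ _ _ := by simp [w0]
  pNm _ _ _ := Matrix.PosSemidef.zero
  pN _ _ _ := by
    simp only [w0, add_zero]
    exact Matrix.PosSemidef.zero
  left _ _ _ _ := by simp [w0, w1]
  right _ _ _ _ := by simp [w0, w1]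

/-- below the level the capped matrix is at least one half -/
theorem phs_ge {n : Type*} [Fintype n] [DecidableEq n] {s : ℝ} (hs : 0 < s) {X : Matrix n n ℝ}
    (hX : X.PosSemidef) (h1 : (s • (1 : Matrix n n ℝ) - X).PosSemidef) :
    (phs s X - (1 / 2 : ℝ) • X).PosSemidef := by
  have h2 : (1 - s⁻¹ • X).PosSemidef := by
    have := h1.smul (inv_nonneg.2 hs.le)
    rwa [smul_sub, smul_smul, inv_mul_cancel₀ hs.ne', one_smul] at this
  have h3 := (PL.H804.phi_ge_half (hX.smul (inv_nonneg.2 hs.le)) h2).smul hs.le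
  rw [smul_sub, smul_smul, smul_smul] at h3
  have e : s * (1 / 2) * s⁻¹ = 1 / 2 := by field_simp
  rw [e] at h3
  exact h3

/-- raw gain -/
def gR (A : ℤ → ℤ → ℝ) (b : ℤ → ℤ → κ → ℝ) (k : ℕ) (n n' m : ℤ) : ℝ :=
  (PA A (k + 1) (k + 1) n m * (hd (k + 1) *
    QW (k + 1) (k + 1) b (fun _ => (1 : Matrix κ κ ℝ)) n' m * hd (k + 1))).trace

/-- the raw gain is at most twice the capped one -/
theorem gR_le {s : ℝ} (hs : 0 < s) (A : ℤ → ℤ → ℝ) (b : ℤ → ℤ → κ → ℝ) (k : ℕ) (n n' m : ℤ)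
    (cap : (s • (1 : Matrix (Ix (k + 1)) (Ix (k + 1)) ℝ)
      - QW (k + 1) (k + 1) b (fun _ => (1 : Matrix κ κ ℝ)) n' m).PosSemidef) :
    gR A b k n n' m ≤ 2 * gAC A b (w1 κ) s k (k + 1) (k + 1) n n' m := by
  have pX : (QW (k + 1) (k + 1) b (fun _ => (1 : Matrix κ κ ℝ)) n' m).PosSemidef :=
    QW_psd (fun _ => Matrix.PosSemidef.one) n' m
  have h1 := phs_ge hs pX cap
  have pA : (PA A (k + 1) (k + 1) n m).PosSemidef := PA_psd _ _ _ _ _
  have sr : (hd (k + 1))ᵀ = hd (k + 1) := rad_symm' k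
  have h2 := P075.psd_conj_symm h1 sr
  have h3 := P075.trace_mul_nonneg pA h2
  have e : hd (k + 1) * (phs s (QW (k + 1) (k + 1) b (fun _ => (1 : Matrix κ κ ℝ)) n' m)
      - (1 / 2 : ℝ) • QW (k + 1) (k + 1) b (fun _ => (1 : Matrix κ κ ℝ)) n' m) * hd (k + 1)
      = hd (k + 1) * phs s (QW (k + 1) (k + 1) b (fun _ => (1 : Matrix κ κ ℝ)) n' m) * hd (k + 1)
        - (1 / 2 : ℝ) • (hd (k + 1) * QW (k + 1) (k + 1) b (fun _ => (1 : Matrix κ κ ℝ)) n' m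
          * hd (k + 1)) := by
    rw [Matrix.mul_sub, Matrix.sub_mul, Matrix.mul_smul, Matrix.smul_mul]
  rw [e, Matrix.mul_sub, trace_sub, Matrix.mul_smul, trace_smul, smul_eq_mul] at h3
  have e2 : gAC A b (w1 κ) s k (k + 1) (k + 1) n n' m = (PA A (k + 1) (k + 1) n m * (hd (k + 1) *
      phs s (QW (k + 1) (k + 1) b (fun _ => (1 : Matrix κ κ ℝ)) n' m) * hd (k + 1))).trace := rfl
  rw [e2]
  unfold gR
  linarith

/-- no cost of motion -/
theorem cAC_zero (N : ℕ) (T S : ℤ) (b : ℤ → ℤ → κ → ℝ) (k : ℕ) :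
    cAC N T S b (w1 κ) (w0 κ) (w0 κ) k = 0 := by
  unfold cAC dW w1 w0
  simp

/-- energy of a vector function over the plane -/
def e2 (N : ℕ) (T S : ℤ) (b : ℤ → ℤ → κ → ℝ) : ℝ :=
  ∑ x ∈ iv N T, ∑ z ∈ iv N S, b x z ⬝ᵥ b x z

theorem eC_one (N : ℕ) (T S : ℤ) (b : ℤ → ℤ → κ → ℝ) (k : ℕ) :
    eC N T S b (w1 κ) k = e2 N T S b := by
  unfold eC e2 w1
  simp only [one_mulVec]

theorem ms_one (N : ℕ) (T S : ℤ) (b : ℤ → ℤ → κ → ℝ) (k k' : ℕ) :
    H293.ms N T S b (fun x m => w1 κ x k' m) k = e2 N T S b := by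
  unfold H293.ms e2 w1
  simp only [one_mulVec]

theorem e2_nonneg (N : ℕ) (T S : ℤ) (b : ℤ → ℤ → κ → ℝ) : 0 ≤ e2 N T S b :=
  Finset.sum_nonneg fun x _ => Finset.sum_nonneg fun z _ => by
    rw [dotProduct]
    exact Finset.sum_nonneg fun i _ => mul_self_nonneg _

theorem cT_one (N : ℕ) (T S : ℤ) (Q : ℕ → ℤ → ℤ → Prop) (c : ℕ → ℤ → ℤ → κ → ℝ) (k : ℕ) :
    H38.T.cT 0 N T S (w1 κ) (w0 κ) (w0 κ) Q c k
      = e2 N T S (rst (Q (k + 1)) (k + 1) (c (k + 2))) := by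
  have h1 : H293.ms N T S (c (k + 1)) (fun x m => w0 κ x (k + 1) m * (w1 κ x (k + 1) m)⁻¹
      * w0 κ x (k + 1) m) (k + 1) = 0 := by
    unfold H293.ms w0
    simp
  have h2 : H293.ms N T S (c (k + 1)) (fun x m => w0 κ x (k + 1) m) (k + 1) = 0 := by
    unfold H293.ms w0
    simp
  have h3 : H293.ms N T S (H293.af Q c (k + 1)) (fun x m => w1 κ x (k + 1) m) (k + 1)
      = e2 N T S (rst (Q (k + 1)) (k + 1) (c (k + 2))) := ms_one _ _ _ _ _ _
  unfold H38.T.cT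
  rw [h1, h2, h3]
  simp

/-- **The pair with row changes, all cells.** -/
theorem core {k₀ N : ℕ} (hkN : k₀ ≤ N) {R S T : ℤ} {pl : ℕ → ℤ} (hpl : H588.Pl pl) {τ s : ℝ}
    (hs : 0 < s) (hτ : 0 ≤ τ) (A : ℕ → ℤ → ℤ → ℝ) (c : ℕ → ℤ → ℤ → κ → ℝ)
    {P Q Bo : ℕ → ℤ → ℤ → Prop}
    (hP : ∀ k, k₀ < k → k ≤ N → ∀ z m, ¬ P k z m → ∀ y ∈ iv k m, A (k + 1) z y = A k z y)
    (hQ : ∀ k, k₀ < k → k ≤ N → ∀ x m, ¬ Q k x m → ∀ y ∈ iv k m, c (k + 1) x y = c k x y)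
    (cA0 : ∀ k a, k₀ < k → k ≤ a → a ≤ N → ∀ n m,
      (τ • (1 : Matrix (Ix k) (Ix k) ℝ) - PA (A k) k a n m).PosSemidef)
    (cA1 : ∀ k a, k₀ ≤ k → k ≤ a → a ≤ N → ∀ n m,
      (τ • (1 : Matrix (Ix k) (Ix k) ℝ) - PA (A (k + 1)) k a n m).PosSemidef)
    (cC : ∀ k a n m, k₀ ≤ k → k + 1 ≤ a → a ≤ N →
      (s • (1 : Matrix (Ix (k + 1)) (Ix (k + 1)) ℝ)
        - (2 : ℝ) • QW a (k + 1) (c (k + 1)) (fun _ => (1 : Matrix κ κ ℝ)) n m).PosSemidef)
    (hB : ∀ k z m, P k z m → Bo k (ix k z) m) {E EA : ℝ}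
    (hEA : eA N R S (A (k₀ + 1)) ≤ EA)
    (hDA : ∑ k ∈ Ico k₀ N, eA N R S (rst (P (k + 1)) (k + 1) (A (k + 2))) ≤ EA)
    (hE : e2 N T S (c (k₀ + 1)) ≤ E)
    (hDC : ∑ k ∈ Ico k₀ N, e2 N T S (rst (Q (k + 1)) (k + 1) (c (k + 2))) ≤ E)
    (hCR : ∑ k ∈ Ico k₀ N, GW N R S T (k + 1) (pl (k + 1)) (fun n n' m =>
      if Bo (k + 1) n m then
        (QW (k + 1) (k + 1) (c (k + 2)) (fun _ => (1 : Matrix κ κ ℝ)) n' m).trace else 0) ≤ E) :
    ∑ k ∈ Ico k₀ N, GW N R S T (k + 1) (pl (k + 1)) (gR (A (k + 1)) (c (k + 1)) k)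
      ≤ 8000 * (√(τ * EA) * √(s * E)) + 400 * (τ * E) := by
  have wf := wf1 (κ := κ) N
  have nE : 0 ≤ E := (e2_nonneg _ _ _ _).trans hE
  have nEA : 0 ≤ EA := (eA_nonneg _ _ _ _).trans hEA
  have hμ : 0 < s⁻¹ := inv_pos.2 hs
  have hT := realT (P := P) (Q := Q) wf hkN (R := R) (S := S) (T := T) hpl hs hτ A c hP hQ
    (fun k h1 h2 n m => cA1 k (k + 1) h1 (by omega) h2 n m)
    (fun k h1 h2 n m => cA0 k k h1 le_rfl h2 n m)
  have hTV := TV_rawT hkN hτ hP cA0 cA1 hEA hDA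
  have hBT := BT_le (c := c) (Bo := Bo) wf (k₀ := k₀) (R := R) (S := S) (T := T) (pl := pl) hs hτ A
    hB (fun k h1 h2 n m => cA1 k k h1.le le_rfl h2 n m) hDA hCR
  -- the stack
  have st := H38.T.stkTR (Q := Q) (c := c) hkN T S wf
    (fun k x m h1 h2 hq y hy => (hQ (k + 1) (by omega) (by omega) x m hq y hy).symm) hμ 0
    (fun k a n m h1 h2 h3 => by
      have h := (cC k a n m h1 h2 h3).smul hμ.le
      rw [smul_sub, smul_smul, smul_smul, inv_mul_cancel₀ hs.ne', one_smul] at h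
      rw [pow_zero, div_one, smul_smul]
      exact h)
    (H := E) (Qm := E) (by
      have e : H293.ms N T S (c (k₀ + 1)) (fun x m => w1 κ x k₀ m) k₀ = e2 N T S (c (k₀ + 1)) :=
        ms_one _ _ _ _ _ _
      rw [e]
      exact hE)
    (by
      rw [Finset.sum_congr rfl fun k _ => cT_one N T S Q c k]
      exact hDC)
  have so : StO (ι := fun k => Ix k) (fun _ _ _ _ => 0) (fun _ _ _ _ => 0) := ⟨fun _ _ _ _ => rfl, fun _ _ _ _ => rfl⟩
  have est : EstR N 0 (fun _ => E) (fun _ => 0) (fun _ => E) ≤ 8 * E := by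
    have := EstR_const (N := N) (J := 0) nE le_rfl nE
    refine this.trans (le_of_eq ?_)
    push_cast
    ring
  have es : (s⁻¹ / 4 ^ 0)⁻¹ = s := by rw [pow_zero, div_one, inv_inv]
  have nEst : 0 ≤ EstR N 0 (fun _ => E) (fun _ => 0) (fun _ => E) := st.Est_nonneg
  -- outer defects
  have d1 : ∑ k ∈ Ico k₀ N, GW N R S T (k + 1) (pl (k + 1)) (fun _ n' m =>
      dh s (XW (c (k + 1)) (w1 κ) k k) n' m) ≤ 64 * (s * E) := by
    refine (sum_le_sum fun k _ => H92.GW_right N R S T (k + 1) (pl (k + 1)) fun n m => ?_).trans ?_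
    · exact add_nonneg (dls_nonneg hs (XW_psd wf _ _ _ _ _) (XW_psd wf _ _ _ _ _))
        (dls_nonneg hs (XW_psd wf _ _ _ _ _) (XW_psd wf _ _ _ _ _))
    · have h := dh_sumR st so (j := 0) le_rfl
      rw [es] at h
      have h2 := mul_le_mul_of_nonneg_left est (by positivity : 0 ≤ 8 * s)
      have h3 : ∑ k ∈ Ico k₀ N, bsum N T S (k + 1) (k + 1) (dh s (XW (c (k + 1)) (w1 κ) k k))
          ≤ 8 * s * EstR N 0 (fun _ => E) (fun _ => 0) (fun _ => E) := h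
      linarith
  -- middle defects
  have d2 : ∑ k ∈ Ico k₀ N, GW N R S T (k + 1) (pl (k + 1)) (fun _ n' m =>
      gC (c (k + 1)) (w1 κ) s k (k + 1) n' m) ≤ 32 * (s * E) := by
    refine (sum_le_sum fun k _ => H92.GW_right N R S T (k + 1) (pl (k + 1)) fun n m => ?_).trans ?_
    · have hp := phs_psd hs (XW_psd wf (c (k + 1)) (k + 1) (k + 1) n m)
      exact P075.trace_mul_nonneg (V := rad (Ix k) * phs s (XWs (c (k + 1)) (w1 κ) k (k + 1) n m)
        * rad (Ix k)) hp (P075.psd_conj_symm hp (rad_symm' k))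
    · have h0 := st.mid_diag 0
      simp only [Nat.sub_zero, Nat.add_zero] at h0
      have key : ∀ k ∈ Ico k₀ N, bsum N T S (k + 1) (k + 1)
          (fun n' m => gC (c (k + 1)) (w1 κ) s k (k + 1) n' m)
          ≤ 4 * s * ((2 : ℝ) ^ (k + 1) * 2 ^ (k + 1) * ∑ m ∈ iv (N - (k + 1)) S,
            ∑ n ∈ iv (N - (k + 1)) T,
              (1 / 4) * SC s⁻¹ 0 (rad (Ix k)) (XWs (c (k + 1)) (w1 κ) k (k + 1) n m)) := by
        intro k _
        refine (bsum_mono (g := fun n m => 4 * s * ((1 / 4) * SC s⁻¹ 0 (rad (Ix k))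
          (XWs (c (k + 1)) (w1 κ) k (k + 1) n m))) fun n m => ?_).trans (le_of_eq ?_)
        · have g1 := gcs_le (X := XWs (c (k + 1)) (w1 κ) k (k + 1) n m) (r := rad (Ix k))
            (XW_psd wf (c (k + 1)) (k + 1) (k + 1) n m) (rad_symm' k) hμ (J := 0) (j := 0) le_rfl
          rw [es] at g1
          unfold gC
          linarith
        · rw [bsum_smul]
          rfl
      refine (sum_le_sum key).trans ?_
      rw [← mul_sum]
      have hX := st.X_le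
      have h1 := mul_le_mul_of_nonneg_left ((h0.trans hX).trans est)
        (by positivity : (0 : ℝ) ≤ 4 * s)
      linarith
  -- plane energies
  have t2 := st.TV_stack (j := 0) le_rfl
  rw [es] at t2
  have t2' : TV k₀ N T S (fun k a n m => phs s (XW (c (k + 1)) (w1 κ) k a n m))
      ≤ 3200 * (s * E) := by
    have h2 := mul_le_mul_of_nonneg_left est (by positivity : 0 ≤ 400 * s)
    have h3 : TV k₀ N T S (fun k a n m => phs s (XW (c (k + 1)) (w1 κ) k a n m))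
      ≤ 400 * s * EstR N 0 (fun _ => E) (fun _ => 0) (fun _ => E) := t2
    linarith
  have z2 : 0 ≤ TV k₀ N T S (fun k a n m => phs s (XW (c (k + 1)) (w1 κ) k a n m)) :=
    TV_nonneg fun k a n m => H336.phs_symm (XW_psd wf _ _ _ _ _) hs
  have z1 : 0 ≤ TV k₀ N R S (fun k => PA (A (k + 1)) k) :=
    TV_nonneg fun k a n m => PA_symm (A (k + 1)) k a n m
  have t3 : √(TV k₀ N R S (fun k => PA (A (k + 1)) k)
      * TV k₀ N T S (fun k a n m => phs s (XW (c (k + 1)) (w1 κ) k a n m)))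
      ≤ 993 * (√(τ * EA) * √(s * E)) := by
    have h1 := mul_le_mul hTV t2' z2 (z1.trans hTV)
    refine (Real.sqrt_le_sqrt h1).trans ?_
    have nA : 0 ≤ τ * EA := mul_nonneg hτ nEA
    have nC : 0 ≤ s * E := mul_nonneg hs.le nE
    rw [← Real.sqrt_mul nA]
    have e3 : 308 * (τ * EA) * (3200 * (s * E)) = 985600 * (τ * EA * (s * E)) := by ring
    have e4 : √(993 ^ 2 * (τ * EA * (s * E))) = 993 * √(τ * EA * (s * E)) := by
      rw [Real.sqrt_mul (by norm_num), Real.sqrt_sq (by norm_num)]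
    rw [← e4, e3]
    refine Real.sqrt_le_sqrt ?_
    nlinarith [mul_nonneg nA nC]
  have b1 : τ * s⁻¹ / 2 * (64 * (s * E)) = 32 * (τ * E) := by
    field_simp
    ring
  have b2 : τ * s⁻¹ / 2 * (32 * (s * E)) = 16 * (τ * E) := by
    field_simp
    ring
  have c1 := mul_le_mul_of_nonneg_left d1 (by positivity : 0 ≤ τ * s⁻¹ / 2)
  have c2 := mul_le_mul_of_nonneg_left d2 (by positivity : 0 ≤ τ * s⁻¹ / 2)
  have c3 : ∑ k ∈ Ico k₀ N, cAC N T S (c (k + 1)) (w1 κ) (w0 κ) (w0 κ) k = 0 :=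
    Finset.sum_eq_zero fun k _ => cAC_zero N T S (c (k + 1)) k
  have c4 : τ * ∑ k ∈ Ico k₀ N, eC N T S (rst (Q (k + 1)) (k + 1) (c (k + 2))) (w1 κ) (k + 1)
      ≤ τ * E := by
    refine mul_le_mul_of_nonneg_left ?_ hτ
    rw [Finset.sum_congr rfl fun k _ => eC_one N T S (rst (Q (k + 1)) (k + 1) (c (k + 2))) (k + 1)]
    exact hDC
  have g1 : ∑ k ∈ Ico k₀ N, GW N R S T (k + 1) (pl (k + 1)) (gR (A (k + 1)) (c (k + 1)) k)
      ≤ 2 * ∑ k ∈ Ico k₀ N, GW N R S T (k + 1) (pl (k + 1))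
        (gAC (A (k + 1)) (c (k + 1)) (w1 κ) s k (k + 1) (k + 1)) := by
    rw [Finset.mul_sum]
    refine sum_le_sum fun k hk => ?_
    have hk' := mem_Ico.1 hk
    rw [← GW_smul]
    refine GW_mo fun n n' m => gR_le hs _ _ k n n' m ?_
    have h := cC k (k + 1) n' m hk'.1 le_rfl (by omega)
    have pX : (QW (k + 1) (k + 1) (c (k + 1)) (fun _ => (1 : Matrix κ κ ℝ)) n' m).PosSemidef :=
      QW_psd (fun _ => Matrix.PosSemidef.one) n' m
    have e : s • (1 : Matrix (Ix (k + 1)) (Ix (k + 1)) ℝ)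
        - QW (k + 1) (k + 1) (c (k + 1)) (fun _ => (1 : Matrix κ κ ℝ)) n' m
        = (s • 1 - (2 : ℝ) • QW (k + 1) (k + 1) (c (k + 1)) (fun _ => (1 : Matrix κ κ ℝ)) n' m)
          + QW (k + 1) (k + 1) (c (k + 1)) (fun _ => (1 : Matrix κ κ ℝ)) n' m := by
      rw [two_smul]
      abel
    rw [e]
    exact h.add pX
  have n1 : 0 ≤ √(τ * EA) * √(s * E) := by positivity
  have n2 : 0 ≤ τ * E := mul_nonneg hτ nE
  rw [c3] at hT
  linarith

/-! ### The windows -/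

/-- index shift; the last term is zero -/
theorem shift {k₀ N : ℕ} (h : k₀ ≤ N) {f : ℕ → ℝ} (hf : f N = 0) :
    ∑ k ∈ Ico k₀ N, f (k + 1) = ∑ k ∈ Ico (k₀ + 1) N, f k := by
  rw [Finset.sum_Ico_add' f k₀ N 1]
  rcases h.lt_or_eq with h1 | h1
  · rw [Finset.sum_Ico_succ_top (by omega : k₀ + 1 ≤ N), hf, add_zero]
  · subst h1
    simp

theorem un_cut {α : Type*} [Zero α] {N : ℕ} {R S : ℤ} {F : ℕ → ℤ → ℤ → α} {P : ℕ → ℤ → ℤ → Prop}
    {k₀ : ℕ} (hP : ∀ k, k₀ < k → k < N → ∀ y m, ¬ P k y m → ∀ z ∈ iv k m, F (k + 1) y z = F k y z) :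
    ∀ k, k₀ < k → k ≤ N → ∀ y m, ¬ (k < N ∧ P k y m) → ∀ z ∈ iv k m,
      cut N R S F (k + 1) y z = cut N R S F k y z := by
  intro k h1 h2 y m hn z hz
  unfold cut
  by_cases hw : y ∈ iv N R ∧ z ∈ iv N S
  · rw [if_pos hw, if_pos hw]
    rcases h2.lt_or_eq with h3 | h3
    · rw [min_eq_left (by omega : k + 1 ≤ N), min_eq_left h2]
      exact hP k h1 h3 y m (fun hp => hn ⟨h3, hp⟩) z hz
    · rw [min_eq_right (by omega : N ≤ k + 1), min_eq_right (by omega : N ≤ k)]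
  · rw [if_neg hw, if_neg hw]

/-- **The raw pair of two slots with row changes.** Caps only inside the roots, times `≤ N`. -/
theorem rawRow {k₀ N : ℕ} (hkN : k₀ ≤ N) {r1 r2 r3 : ℤ} {pl : ℕ → ℤ} (hpl : H588.Pl pl) {τ σ : ℝ}
    (hσ : 0 < σ) (hτ : 0 ≤ τ) (A : ℕ → ℤ → ℤ → ℝ) (c : ℕ → ℤ → ℤ → κ → ℝ)
    {P Q Bo : ℕ → ℤ → ℤ → Prop}
    (hP : ∀ k, k₀ < k → k < N → ∀ y m, ¬ P k y m → ∀ z ∈ iv k m, A (k + 1) y z = A k y z)
    (hQ : ∀ k, k₀ < k → k < N → ∀ x m, ¬ Q k x m → ∀ z ∈ iv k m, c (k + 1) x z = c k x z)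
    (capA : ∀ k a n m, k₀ ≤ k → k ≤ a → a ≤ N → ∀ j, k₀ < j → k ≤ j → j ≤ k + 1 → j ≤ N →
      n ∈ iv (N - a) r2 → m ∈ iv (N - k) r3 →
      (τ • (1 : Matrix (Ix k) (Ix k) ℝ) - PA (A j) k a n m).PosSemidef)
    (capC : ∀ k a n m, k₀ < k → k ≤ a → a ≤ N → n ∈ iv (N - a) r1 → m ∈ iv (N - k) r3 →
      (σ • (1 : Matrix (Ix k) (Ix k) ℝ)
        - QW a k (c k) (fun _ => (1 : Matrix κ κ ℝ)) n m).PosSemidef)
    (hB : ∀ k y m, P k y m → Bo k (ix k y) m) {E EA : ℝ} (nE : 0 ≤ E) (nEA : 0 ≤ EA)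
    (hEA : k₀ < N → ∑ y ∈ iv N r2, ∑ z ∈ iv N r3, A (k₀ + 1) y z ^ 2 ≤ EA)
    (hDA : ∑ k ∈ Ico (k₀ + 1) N, ∑ y ∈ iv N r2, ∑ z ∈ iv N r3,
      (if P k y (ix k z) then A (k + 1) y z ^ 2 else 0) ≤ EA)
    (hE : k₀ < N → ∑ x ∈ iv N r1, ∑ z ∈ iv N r3, c (k₀ + 1) x z ⬝ᵥ c (k₀ + 1) x z ≤ E)
    (hDC : ∑ k ∈ Ico (k₀ + 1) N, ∑ x ∈ iv N r1, ∑ z ∈ iv N r3,
      (if Q k x (ix k z) then c (k + 1) x z ⬝ᵥ c (k + 1) x z else 0) ≤ E)
    (hCR : ∑ k ∈ Ico (k₀ + 1) N, GW N r2 r3 r1 k (pl k) (fun n2 n1 m =>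
      if Bo k n2 m then (QW k k (c (k + 1)) (fun _ => (1 : Matrix κ κ ℝ)) n1 m).trace else 0)
        ≤ E) :
    ∑ k ∈ Ico k₀ N, GW N r2 r3 r1 (k + 1) (pl (k + 1)) (fun n2 n1 m =>
      (PA (A (k + 1)) (k + 1) (k + 1) n2 m * (hd (k + 1) *
        QW (k + 1) (k + 1) (c (k + 1)) (fun _ => (1 : Matrix κ κ ℝ)) n1 m * hd (k + 1))).trace)
      ≤ 16000 * (√(τ * EA) * √(σ * E)) + 400 * (τ * E) := by
  rcases hkN.lt_or_eq with h0 | h0
  swap
  · subst h0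
    rw [Finset.Ico_self, Finset.sum_empty]
    positivity
  have hs : 0 < 2 * σ := by positivity
  have one : ∀ k, (σ • (1 : Matrix (Ix k) (Ix k) ℝ)).PosSemidef := fun k =>
    Matrix.PosSemidef.one.smul hσ.le
  have oneτ : ∀ k, (τ • (1 : Matrix (Ix k) (Ix k) ℝ)).PosSemidef := fun k =>
    Matrix.PosSemidef.one.smul hτ
  -- caps of the cut families
  have cA : ∀ j k a, k₀ < j → k ≤ j → j ≤ k + 1 → k₀ ≤ k → k ≤ a → a ≤ N → ∀ n m,
      (τ • (1 : Matrix (Ix k) (Ix k) ℝ) - PA (cut N r2 r3 A j) k a n m).PosSemidef := by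
    intro j k a h1 h2 h3 h4 h5 h6 n m
    by_cases hw : n ∈ iv (N - a) r2 ∧ m ∈ iv (N - k) r3
    · rw [PA_cut (h5.trans h6) h6 hw.1 hw.2]
      exact capA k a n m h4 h5 h6 (min j N) (lt_min h1 h0) (le_min h2 (h5.trans h6))
        ((min_le_left _ _).trans h3) (min_le_right _ _) hw.1 hw.2
    · rw [PA_cut_out (h5.trans h6) h6 hw, sub_zero]
      exact oneτ k
  have cC : ∀ k a n m, k₀ ≤ k → k + 1 ≤ a → a ≤ N →
      ((2 * σ) • (1 : Matrix (Ix (k + 1)) (Ix (k + 1)) ℝ)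
        - (2 : ℝ) • QW a (k + 1) (cut N r1 r3 c (k + 1)) (fun _ => (1 : Matrix κ κ ℝ)) n m
        ).PosSemidef := by
    intro k a n m h1 h2 h3
    have h4 : k + 1 ≤ N := h2.trans h3
    by_cases hw : n ∈ iv (N - a) r1 ∧ m ∈ iv (N - (k + 1)) r3
    · rw [QW_cut h4 h3 hw.1 hw.2, min_eq_left h4]
      have h := (capC (k + 1) a n m (by omega) h2 h3 hw.1 hw.2).smul (by norm_num : (0 : ℝ) ≤ 2)
      rwa [smul_sub, smul_smul] at h
    · rw [QW_cut_out h4 h3 hw, smul_zero, sub_zero]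
      exact Matrix.PosSemidef.one.smul hs.le
  have key := core hkN (R := r2) (S := r3) (T := r1) hpl (s := 2 * σ) hs hτ (cut N r2 r3 A)
    (cut N r1 r3 c) (P := fun k y m => k < N ∧ P k y m) (Q := fun k x m => k < N ∧ Q k x m)
    (Bo := fun k n m => k < N ∧ Bo k n m) (E := E) (EA := EA) (un_cut hP) (un_cut hQ)
    (fun k a h1 h2 h3 n m => cA k k a h1 le_rfl (Nat.le_succ k) h1.le h2 h3 n m)
    (fun k a h1 h2 h3 n m => cA (k + 1) k a (by omega) (Nat.le_succ k) le_rfl h1 h2 h3 n m)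
    cC (fun k z m h => ⟨h.1, hB k z m h.2⟩)
    (by
      refine le_trans (le_of_eq ?_) (hEA h0)
      unfold eA
      refine Finset.sum_congr rfl fun y hy => Finset.sum_congr rfl fun z hz => ?_
      rw [cut_in hy hz, min_eq_left (by omega : k₀ + 1 ≤ N)])
    (by
      refine le_trans (le_of_eq ?_) hDA
      have := shift hkN (f := fun k => ∑ y ∈ iv N r2, ∑ z ∈ iv N r3,
        (if k < N ∧ P k y (ix k z) then A (min (k + 1) N) y z ^ 2 else 0)) (by simp)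
      refine (Eq.trans ?_ this).trans ?_
      · refine Finset.sum_congr rfl fun k _ => ?_
        unfold eA
        refine Finset.sum_congr rfl fun y hy => Finset.sum_congr rfl fun z hz => ?_
        unfold rst
        rw [cut_in hy hz]
        split_ifs
        · rfl
        · ring
      · refine Finset.sum_congr rfl fun k hk => Finset.sum_congr rfl fun y _ =>
          Finset.sum_congr rfl fun z _ => ?_
        have hk' := (mem_Ico.1 hk).2
        simp only [hk', true_and]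
        rw [min_eq_left (by omega : k + 1 ≤ N)])
    (by
      refine le_trans (le_of_eq ?_) (hE h0)
      unfold e2
      refine Finset.sum_congr rfl fun y hy => Finset.sum_congr rfl fun z hz => ?_
      rw [cut_in hy hz, min_eq_left (by omega : k₀ + 1 ≤ N)])
    (by
      refine le_trans (le_of_eq ?_) hDC
      have := shift hkN (f := fun k => ∑ y ∈ iv N r1, ∑ z ∈ iv N r3,
        (if k < N ∧ Q k y (ix k z) then c (min (k + 1) N) y z ⬝ᵥ c (min (k + 1) N) y z else 0))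
        (by simp)
      refine (Eq.trans ?_ this).trans ?_
      · refine Finset.sum_congr rfl fun k _ => ?_
        unfold e2
        refine Finset.sum_congr rfl fun y hy => Finset.sum_congr rfl fun z hz => ?_
        unfold rst
        rw [cut_in hy hz]
        split_ifs
        · rfl
        · simp
      · refine Finset.sum_congr rfl fun k hk => Finset.sum_congr rfl fun y _ =>
          Finset.sum_congr rfl fun z _ => ?_
        have hk' := (mem_Ico.1 hk).2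
        simp only [hk', true_and]
        rw [min_eq_left (by omega : k + 1 ≤ N)])
    (by
      refine le_trans (le_of_eq ?_) hCR
      have := shift hkN (f := fun k => GW N r2 r3 r1 k (pl k) (fun n2 n1 m =>
        if k < N ∧ Bo k n2 m then
          (QW k k (cut N r1 r3 c (k + 1)) (fun _ => (1 : Matrix κ κ ℝ)) n1 m).trace else 0))
        (by simp [GW])
      refine (Eq.trans ?_ this).trans ?_
      · refine Finset.sum_congr rfl fun k _ => GW_congr fun m _ n _ n' _ => ?_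
        by_cases hh : k + 1 < N ∧ Bo (k + 1) n m
        · rw [if_pos hh, if_pos hh]
        · rw [if_neg hh, if_neg hh]
      · refine Finset.sum_congr rfl fun k hk => GW_congr fun m hm n hn n' hn' => ?_
        have hk' := (mem_Ico.1 hk).2
        simp only [hk', true_and]
        rw [QW_cut hk'.le hk'.le hn' hm, min_eq_left (by omega : k + 1 ≤ N)])
  have e : ∑ k ∈ Ico k₀ N, GW N r2 r3 r1 (k + 1) (pl (k + 1)) (fun n2 n1 m =>
      (PA (A (k + 1)) (k + 1) (k + 1) n2 m * (hd (k + 1) *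
        QW (k + 1) (k + 1) (c (k + 1)) (fun _ => (1 : Matrix κ κ ℝ)) n1 m * hd (k + 1))).trace)
      = ∑ k ∈ Ico k₀ N, GW N r2 r3 r1 (k + 1) (pl (k + 1))
        (gR (cut N r2 r3 A (k + 1)) (cut N r1 r3 c (k + 1)) k) := by
    refine Finset.sum_congr rfl fun k hk => GW_congr fun m hm n hn n' hn' => ?_
    have hk' : k + 1 ≤ N := by
      have := (mem_Ico.1 hk).2
      omega
    unfold gR
    rw [PA_cut hk' hk' hn hm, QW_cut hk' hk' hn' hm, min_eq_left hk']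
  rw [e]
  refine key.trans ?_
  have e2' : √(2 * σ * E) ≤ 2 * √(σ * E) := by
    have e4 : √(2 ^ 2 * (σ * E)) = 2 * √(σ * E) := by
      rw [Real.sqrt_mul (by norm_num), Real.sqrt_sq (by norm_num)]
    rw [← e4]
    refine Real.sqrt_le_sqrt ?_
    nlinarith [mul_nonneg hσ.le nE]
  have := mul_le_mul_of_nonneg_left e2' (Real.sqrt_nonneg (τ * EA))
  linarith

/-- **The same with squares.** `Ps` = squares where `A` changes, `Qs` = squares where rows of `c`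
may change in any way; off `Qs` a row either stays or is born. -/
theorem rawSq {k₀ N : ℕ} (hkN : k₀ ≤ N) {r1 r2 r3 : ℤ} {pl : ℕ → ℤ} (hpl : H588.Pl pl) {τ σ : ℝ}
    (hσ : 0 < σ) (hτ : 0 ≤ τ) (A : ℕ → ℤ → ℤ → ℝ) (c : ℕ → ℤ → ℤ → κ → ℝ)
    {Ps Qs : ℕ → ℤ → ℤ → Prop}
    (hP : ∀ k, k₀ < k → k < N → ∀ y m, ¬ Ps k (ix k y) m → ∀ z ∈ iv k m,
      A (k + 1) y z = A k y z)
    (hQ : ∀ k, k₀ < k → k < N → ∀ x m, ¬ Qs k (ix k x) m →
      (∀ z ∈ iv k m, c (k + 1) x z = c k x z) ∨ (∀ z ∈ iv k m, c (k + 1) x z = 0))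
    (capA : ∀ k a n m, k₀ ≤ k → k ≤ a → a ≤ N → ∀ j, k₀ < j → k ≤ j → j ≤ k + 1 → j ≤ N →
      n ∈ iv (N - a) r2 → m ∈ iv (N - k) r3 →
      (τ • (1 : Matrix (Ix k) (Ix k) ℝ) - PA (A j) k a n m).PosSemidef)
    (capC : ∀ k a n m, k₀ < k → k ≤ a → a ≤ N → n ∈ iv (N - a) r1 → m ∈ iv (N - k) r3 →
      (σ • (1 : Matrix (Ix k) (Ix k) ℝ)
        - QW a k (c k) (fun _ => (1 : Matrix κ κ ℝ)) n m).PosSemidef)
    {E EA : ℝ} (nE : 0 ≤ E) (nEA : 0 ≤ EA)
    (hEA : k₀ < N → ∑ y ∈ iv N r2, ∑ z ∈ iv N r3, A (k₀ + 1) y z ^ 2 ≤ EA)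
    (hDA : ∑ k ∈ Ico (k₀ + 1) N, ∑ y ∈ iv N r2, ∑ z ∈ iv N r3,
      (if Ps k (ix k y) (ix k z) then A (k + 1) y z ^ 2 else 0) ≤ EA)
    (hE : k₀ < N → ∑ x ∈ iv N r1, ∑ z ∈ iv N r3, c (k₀ + 1) x z ⬝ᵥ c (k₀ + 1) x z ≤ E)
    (hDC : ∑ k ∈ Ico (k₀ + 1) N, ∑ x ∈ iv N r1, ∑ z ∈ iv N r3,
      (if Qs k (ix k x) (ix k z) then c (k + 1) x z ⬝ᵥ c (k + 1) x z else 0) ≤ E)
    (hCR : ∑ k ∈ Ico (k₀ + 1) N, GW N r2 r3 r1 k (pl k) (fun n2 n1 m =>
      if Ps k n2 m then (QW k k (c (k + 1)) (fun _ => (1 : Matrix κ κ ℝ)) n1 m).trace else 0)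
        ≤ E) :
    ∑ k ∈ Ico k₀ N, GW N r2 r3 r1 (k + 1) (pl (k + 1)) (fun n2 n1 m =>
      (PA (A (k + 1)) (k + 1) (k + 1) n2 m * (hd (k + 1) *
        QW (k + 1) (k + 1) (c (k + 1)) (fun _ => (1 : Matrix κ κ ℝ)) n1 m * hd (k + 1))).trace)
      ≤ 16000 * (√(τ * EA) * √(σ * E)) + 400 * (τ * E) := by
  refine rawRow hkN hpl hσ hτ A c (P := fun k y m => Ps k (ix k y) m)
    (Q := fun k x m => ¬ ∀ z ∈ iv k m, c (k + 1) x z = c k x z) (Bo := Ps) hP
    (fun k _ _ x m h => not_not.1 h) capA capC (fun k y m h => h) nE nEA hEA hDA hE ?_ hCR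
  refine le_trans (Finset.sum_le_sum fun k hk => Finset.sum_le_sum fun x _ =>
    Finset.sum_le_sum fun z _ => ?_) hDC
  obtain ⟨h1, h2⟩ := mem_Ico.1 hk
  by_cases hq : Qs k (ix k x) (ix k z)
  · rw [if_pos hq]
    split_ifs
    · rw [dotProduct]
      exact Finset.sum_nonneg fun i _ => mul_self_nonneg _
    · exact le_rfl
  · rw [if_neg hq]
    rcases hQ k (by omega) h2 x (ix k z) hq with h | h
    · rw [if_neg (not_not.2 h)]
    · rw [h z (self_mem_iv k z), dotProduct_zero]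
      split_ifs <;> exact le_rfl

end

end Vale.Agent.P141.H170.RowC
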