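import Vale.Agent.P141.H170.UEv

/-!
# P141, line W: the charge of a change of the inputs in Hilbert-Schmidt form

No caps: the energies lose at most `∑ |J| |X|_HS |X - X'|_HS` over the changed squares.
-/

namespace Vale.Agent.P141.H170

open Finset Matrix Vale.Agent.P075 Vale.Agent.P141.PL Vale.Agent.P141.PL.H588 Vale.Agent.P141.H736

noncomputable section

open scoped Classical

section mat

variable {n : Type*} [Fintype n]

/-- Hilbert-Schmidt norm of a real matrix -/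
def hs (X : Matrix n n ℝ) : ℝ := Real.sqrt (Xᵀ * X).trace

theorem hs_nonneg (X : Matrix n n ℝ) : 0 ≤ hs X := Real.sqrt_nonneg _

theorem tr_nonneg (X : Matrix n n ℝ) : 0 ≤ (Xᵀ * X).trace := (psd_transpose_mul X).trace_nonneg

theorem hs_sq (X : Matrix n n ℝ) : hs X ^ 2 = (Xᵀ * X).trace := Real.sq_sqrt (tr_nonneg X)

theorem hs_zero : hs (0 : Matrix n n ℝ) = 0 := by simp [hs]

theorem hs_sq_psd {X : Matrix n n ℝ} (hX : X.PosSemidef) : hs X ^ 2 = (X * X).trace := by
  rw [hs_sq, psd_isSymm hX]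

/-- Cauchy-Schwarz -/
theorem abs_trace_le (X Y : Matrix n n ℝ) : |(Xᵀ * Y).trace| ≤ hs X * hs Y := by
  have key : ∀ t : ℝ, 0 ≤ (Yᵀ * Y).trace * (t * t) + (2 * (Xᵀ * Y).trace) * t
      + (Xᵀ * X).trace := by
    intro t
    have h := tr_nonneg (X + t • Y)
    have e : ((X + t • Y)ᵀ * (X + t • Y)).trace
        = (Yᵀ * Y).trace * (t * t) + (2 * (Xᵀ * Y).trace) * t + (Xᵀ * X).trace := by
      have e1 : (Yᵀ * X).trace = (Xᵀ * Y).trace := by
        rw [← trace_transpose, transpose_mul, transpose_transpose]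
      rw [transpose_add, transpose_smul]
      simp only [Matrix.add_mul, Matrix.mul_add, Matrix.smul_mul, Matrix.mul_smul, trace_add,
        trace_smul, smul_eq_mul, e1]
      ring
    rw [e] at h
    exact h
  have hd := discrim_le_zero key
  rw [discrim] at hd
  have h2 : (Xᵀ * Y).trace ^ 2 ≤ (hs X * hs Y) ^ 2 := by
    rw [mul_pow, hs_sq, hs_sq]
    linarith
  exact abs_le_of_sq_le_sq h2 (mul_nonneg (hs_nonneg X) (hs_nonneg Y))

/-- triangle inequality -/
theorem hs_add_le (X Y : Matrix n n ℝ) : hs (X + Y) ≤ hs X + hs Y := by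
  have h1 := hs_nonneg X
  have h2 := hs_nonneg Y
  have h3 := abs_trace_le X Y
  have h4 := (abs_le.mp h3).2
  refine abs_le_of_sq_le_sq' ?_ (by positivity) |>.2
  have e1 : (Yᵀ * X).trace = (Xᵀ * Y).trace := by
    rw [← trace_transpose, transpose_mul, transpose_transpose]
  have e : hs (X + Y) ^ 2 = hs X ^ 2 + 2 * (Xᵀ * Y).trace + hs Y ^ 2 := by
    rw [hs_sq, hs_sq, hs_sq, transpose_add]
    simp only [Matrix.add_mul, Matrix.mul_add, trace_add, e1]
    ring
  rw [e]
  nlinarith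

theorem hs_smul {a : ℝ} (ha : 0 ≤ a) (X : Matrix n n ℝ) : hs (a • X) = a * hs X := by
  have : (hs (a • X)) ^ 2 = (a * hs X) ^ 2 := by
    rw [mul_pow, hs_sq, hs_sq, transpose_smul, Matrix.smul_mul, Matrix.mul_smul, trace_smul,
      trace_smul, smul_eq_mul, smul_eq_mul]
    ring
  exact (pow_left_inj₀ (hs_nonneg _) (mul_nonneg ha (hs_nonneg _)) two_ne_zero).1 this

theorem hs_sum_le {ι : Type*} (s : Finset ι) (X : ι → Matrix n n ℝ) :
    hs (∑ i ∈ s, X i) ≤ ∑ i ∈ s, hs (X i) := by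
  induction s using Finset.induction_on with
  | empty => simp [hs_zero]
  | insert a s ha ih =>
    rw [sum_insert ha, sum_insert ha]
    exact (hs_add_le _ _).trans (by linarith)

theorem hs_mono {X Y : Matrix n n ℝ} (hX : X.PosSemidef) (h : (Y - X).PosSemidef) :
    hs X ≤ hs Y := by
  have hY : Y.PosSemidef := by
    have := hX.add h
    rwa [add_sub_cancel] at this
  refine abs_le_of_sq_le_sq' ?_ (hs_nonneg Y) |>.2
  rw [hs_sq_psd hX, hs_sq_psd hY]
  exact (trace_mul_le_right hX h).trans (trace_mul_le_left hY h)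

variable [DecidableEq n]

theorem hs_phi_le {X : Matrix n n ℝ} (hX : X.PosSemidef) : hs (phi X) ≤ hs X :=
  hs_mono (phi_psd hX) (H804.phi_le_self hX)

omit [DecidableEq n] in
/-- a cap: `|X|_HS² ≤ λ tr X` for `X ≤ λ` -/
theorem hs_sq_le_cap [DecidableEq n] {X : Matrix n n ℝ} (hX : X.PosSemidef) {l : ℝ}
    (h : (l • (1 : Matrix n n ℝ) - X).PosSemidef) : hs X ^ 2 ≤ l * X.trace := by
  rw [hs_sq_psd hX]
  have := trace_mul_le_left hX h
  rwa [Matrix.smul_mul, Matrix.one_mul, trace_smul, smul_eq_mul] at this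

omit [DecidableEq n] in
/-- the mixed term of the removed parts, HS form -/
theorem trace_prj_le {X : Matrix n n ℝ} (Y : Matrix n n ℝ) {P : Matrix n n ℝ} (hP : Prj P)
    (hX : X.PosSemidef) :
    (P * X * P * Y).trace ≤ hs (P * X * P) * hs (P * Y * P) := by
  have e : (P * X * P * Y).trace = ((P * X * P)ᵀ * (P * Y * P)).trace := by
    rw [psd_isSymm (psd_conj_symm hX hP.1)]
    calc (P * X * P * Y).trace = ((P * P) * X * (P * P) * Y).trace := by rw [hP.2]
      _ = (P * (P * X * (P * P) * Y)).trace := by simp only [Matrix.mul_assoc]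
      _ = ((P * X * (P * P) * Y) * P).trace := trace_mul_comm _ _
      _ = _ := by simp only [Matrix.mul_assoc]
  rw [e]
  exact (le_abs_self _).trans (abs_trace_le _ _)

omit [DecidableEq n] in
theorem hs_transpose (X : Matrix n n ℝ) : hs Xᵀ = hs X := by
  rw [hs, hs, transpose_transpose, trace_mul_comm]

omit [DecidableEq n] in
/-- `|X P|_HS² ≤ |P X P|_HS |X|_HS` -/
theorem hs_mul_prj_sq_le {X P : Matrix n n ℝ} (hP : Prj P) (hX : X.PosSemidef) :
    hs (X * P) ^ 2 ≤ hs (P * X * P) * hs X := by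
  obtain ⟨B, hB, rfl⟩ := exists_sq hX
  have hBt : Bᵀ = B := psd_isSymm hB
  have hXt : (B * B)ᵀ = B * B := psd_isSymm hX
  have e1 : hs (B * B * P) ^ 2 = ((B * P * B)ᵀ * (B * B)).trace := by
    rw [hs_sq, transpose_mul, transpose_mul, transpose_mul, transpose_mul, hBt, hP.1]
    calc (P * (B * B) * (B * B * P)).trace = (P * (B * (B * B) * (B * P))).trace := by
          simp only [Matrix.mul_assoc]
      _ = ((B * (B * B) * (B * P)) * P).trace := trace_mul_comm _ _
      _ = (B * (B * B) * (B * (P * P))).trace := by simp only [Matrix.mul_assoc]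
      _ = ((B * (B * B)) * (B * P)).trace := by rw [hP.2]
      _ = ((B * P) * (B * (B * B))).trace := trace_mul_comm _ _
      _ = _ := by simp only [Matrix.mul_assoc]
  have e2 : hs (B * P * B) = hs (P * (B * B) * P) := by
    have a : hs (B * P * B) ^ 2 = hs (P * (B * B) * P) ^ 2 := by
      rw [hs_sq, hs_sq]
      have b1 : (B * P * B)ᵀ = B * P * B := by
        rw [transpose_mul, transpose_mul, hBt, hP.1, Matrix.mul_assoc]
      have b2 : (P * (B * B) * P)ᵀ = P * (B * B) * P := by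
        rw [transpose_mul, transpose_mul, hXt, hP.1]
        simp only [Matrix.mul_assoc]
      rw [b1, b2]
      calc (B * P * B * (B * P * B)).trace = (B * (P * B * (B * P * B))).trace := by
            simp only [Matrix.mul_assoc]
        _ = ((P * B * (B * P * B)) * B).trace := trace_mul_comm _ _
        _ = (P * (B * B) * P * (B * B)).trace := by simp only [Matrix.mul_assoc]
        _ = (P * P * (B * B) * (P * P) * (B * B)).trace := by rw [hP.2]
        _ = (P * (P * (B * B) * (P * P) * (B * B))).trace := by simp only [Matrix.mul_assoc]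
        _ = ((P * (B * B) * (P * P) * (B * B)) * P).trace := trace_mul_comm _ _
        _ = _ := by simp only [Matrix.mul_assoc]
    exact (pow_left_inj₀ (hs_nonneg _) (hs_nonneg _) two_ne_zero).1 a
  rw [e1, ← e2]
  exact (le_abs_self _).trans (abs_trace_le _ _)

/-- **drop of the Gram matrix**: `|X - Q X Q|_HS² ≤ 4 |P X P|_HS |X|_HS` -/
theorem hs_drop_sq_le {X P : Matrix n n ℝ} (hP : Prj P) (hX : X.PosSemidef) :
    hs (X - (1 - P) * X * (1 - P)) ^ 2 ≤ 4 * (hs (P * X * P) * hs X) := by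
  have hXt := psd_isSymm hX
  have h0 := hs_mul_prj_sq_le hP hX
  have e : X - (1 - P) * X * (1 - P) = (X * P)ᵀ + (1 - P) * (X * P) := by
    rw [transpose_mul, hXt, hP.1]
    noncomm_ring
  have h1 : hs ((1 - P) * (X * P)) ≤ hs (X * P) := by
    refine abs_le_of_sq_le_sq' ?_ (hs_nonneg _) |>.2
    rw [hs_sq, hs_sq, transpose_mul, hP.symm]
    have e1 : ((X * P)ᵀ * (1 - P) * ((1 - P) * (X * P))).trace
        = ((X * P) * (X * P)ᵀ * (1 - P)).trace := by
      calc ((X * P)ᵀ * (1 - P) * ((1 - P) * (X * P))).trace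
          = ((X * P)ᵀ * (((1 - P) * (1 - P)) * (X * P))).trace := by
            simp only [Matrix.mul_assoc]
        _ = ((X * P)ᵀ * ((1 - P) * (X * P))).trace := by rw [hP.compl.2]
        _ = (((1 - P) * (X * P)) * (X * P)ᵀ).trace := trace_mul_comm _ _
        _ = ((1 - P) * ((X * P) * (X * P)ᵀ)).trace := by rw [Matrix.mul_assoc]
        _ = _ := trace_mul_comm _ _
    have e2 : ((X * P)ᵀ * (X * P)).trace = ((X * P) * (X * P)ᵀ * 1).trace := by
      rw [Matrix.mul_one, trace_mul_comm]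
    rw [e1, e2]
    refine trace_mul_le_right (psd_mul_transpose _) ?_
    rw [sub_sub_cancel]
    exact hP.psd
  have h2 : hs (X - (1 - P) * X * (1 - P)) ≤ 2 * hs (X * P) := by
    rw [e]
    refine (hs_add_le _ _).trans ?_
    rw [hs_transpose]
    linarith
  calc hs (X - (1 - P) * X * (1 - P)) ^ 2 ≤ (2 * hs (X * P)) ^ 2 :=
        pow_le_pow_left₀ (hs_nonneg _) h2 2
    _ = 4 * hs (X * P) ^ 2 := by ring
    _ ≤ _ := by linarith

/-- the mixed energy in HS form -/
theorem trace_phi_phi_hs {X Y : Matrix n n ℝ} (hX : X.PosSemidef) (hY : Y.PosSemidef) :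
    (phi X * phi Y).trace ≤ hs X * hs Y := by
  have h := (le_abs_self _).trans (abs_trace_le (phi X) (phi Y))
  rw [phi_symm hX] at h
  exact h.trans (mul_le_mul (hs_phi_le hX) (hs_phi_le hY) (hs_nonneg _) (hs_nonneg _))

end mat

/-- mean of `|X|_HS` over the block of outer scale `k + r` above `n` -/
def ah (k r : ℕ) (F : ℤ → ℤ → ℝ) (n m : ℤ) : ℝ :=
  ((2 : ℝ) ^ r)⁻¹ * ∑ n'' ∈ iv r (n / 2 ^ r), hs (Xg k k F n'' m)

theorem ah_nonneg (k r : ℕ) (F : ℤ → ℤ → ℝ) (n m : ℤ) : 0 ≤ ah k r F n m :=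
  mul_nonneg (by positivity) (sum_nonneg fun _ _ => hs_nonneg _)

/-- the charge, outer scale `k + r` -/
def ch (N : ℕ) (R S : ℤ) (k r : ℕ) (Q : ℤ → ℤ → Prop) (F F' : ℤ → ℤ → ℝ) : ℝ :=
  4 ^ k * ∑ m ∈ iv (N - k) S, ∑ n ∈ iv (N - k) R,
    if Q n m then ah k r F n m * hs (Xg k k F n m - Xg k k F' n m) else 0

/-- the weighted charge -/
def chW (N : ℕ) (R S : ℤ) (k : ℕ) (Q : ℤ → ℤ → Prop) (F F' : ℤ → ℤ → ℝ) : ℝ :=
  ∑ r ∈ range (N - k + 1), (3 / 4 : ℝ) ^ r * ch N R S k r Q F F'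

theorem ch_nonneg (N : ℕ) (R S : ℤ) (k r : ℕ) (Q : ℤ → ℤ → Prop) (F F' : ℤ → ℤ → ℝ) :
    0 ≤ ch N R S k r Q F F' := by
  unfold ch
  refine mul_nonneg (by positivity) (sum_nonneg fun m _ => sum_nonneg fun n _ => ?_)
  split_ifs
  · exact mul_nonneg (ah_nonneg ..) (hs_nonneg _)
  · exact le_rfl

theorem hs_Xg_coarse (k r : ℕ) (F : ℤ → ℤ → ℝ) (n m : ℤ) :
    hs (Xg (k + r) k F n m) ≤ ((2 : ℝ) ^ r)⁻¹ * ∑ n'' ∈ iv r n, hs (Xg k k F n'' m) := by
  rw [Xg_mean, hs_smul (by positivity)]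
  exact mul_le_mul_of_nonneg_left (hs_sum_le _ _) (by positivity)

/-- **change of the energy, HS form** -/
theorem en_hs {N k r : ℕ} (h : k + r ≤ N) (R S : ℤ) {Q : ℤ → ℤ → Prop} {F F' : ℤ → ℤ → ℝ}
    (hQ : Agree N R S k Q F F') :
    en N R S (k + r) k F ≤ en N R S (k + r) k F' + ch N R S k r Q F F' := by
  have hpt : ∀ m ∈ iv (N - k) S, ∀ n ∈ iv (N - (k + r)) R,
      GX (Xg (k + r) k F n m) ≤ GX (Xg (k + r) k F' n m)
        + ((2 : ℝ) ^ r)⁻¹ * ∑ n' ∈ iv r n,
          (if Q n' m then ah k r F n' m * hs (Xg k k F n' m - Xg k k F' n' m) else 0) := by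
    intro m hm n hn
    have hX := Xg_psd (k + r) k F n m
    have hc := GX_convex hX (Xg_psd (k + r) k F' n m)
    have e1 : Xg (k + r) k F n m - Xg (k + r) k F' n m = ((2 : ℝ) ^ r)⁻¹ • ∑ n' ∈ iv r n,
        (Xg k k F n' m - Xg k k F' n' m) := by
      rw [Xg_mean, Xg_mean, ← smul_sub, ← sum_sub_distrib]
    rw [e1, Matrix.mul_smul, trace_smul, smul_eq_mul, Matrix.mul_sum, trace_sum] at hc
    have h2 : ∑ n' ∈ iv r n, (phi (Xg (k + r) k F n m) * (Xg k k F n' m - Xg k k F' n' m)).trace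
        ≤ ∑ n' ∈ iv r n,
          (if Q n' m then ah k r F n' m * hs (Xg k k F n' m - Xg k k F' n' m) else 0) := by
      refine sum_le_sum fun n' hn' => ?_
      split_ifs with hq
      · have hi : n' / 2 ^ r = n := mem_iv.mp hn'
        have h3 := (le_abs_self _).trans
          (abs_trace_le (phi (Xg (k + r) k F n m)) (Xg k k F n' m - Xg k k F' n' m))
        rw [phi_symm hX] at h3
        refine h3.trans (mul_le_mul_of_nonneg_right ?_ (hs_nonneg _))
        refine (hs_phi_le hX).trans ?_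
        rw [ah, hi]
        exact hs_Xg_coarse k r F n m
      · rw [Xg_congr (hQ n' (iv_sub h hn hn') m hm hq), sub_self, Matrix.mul_zero, trace_zero]
    have h3 := mul_le_mul_of_nonneg_left h2 (by positivity : (0 : ℝ) ≤ ((2 : ℝ) ^ r)⁻¹)
    linarith
  -- summation
  have hsum : ∑ m ∈ iv (N - k) S, ∑ n ∈ iv (N - (k + r)) R, GX (Xg (k + r) k F n m)
      ≤ (∑ m ∈ iv (N - k) S, ∑ n ∈ iv (N - (k + r)) R, GX (Xg (k + r) k F' n m))
        + ((2 : ℝ) ^ r)⁻¹ * ∑ m ∈ iv (N - k) S, ∑ n ∈ iv (N - k) R,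
          (if Q n m then ah k r F n m * hs (Xg k k F n m - Xg k k F' n m) else 0) := by
    have e : ∀ m : ℤ, ∑ n ∈ iv (N - k) R,
        (if Q n m then ah k r F n m * hs (Xg k k F n m - Xg k k F' n m) else 0)
        = ∑ n ∈ iv (N - (k + r)) R, ∑ n' ∈ iv r n,
        (if Q n' m then ah k r F n' m * hs (Xg k k F n' m - Xg k k F' n' m) else 0) :=
      fun m => (sum_coarse h R _).symm
    simp only [e, mul_sum]
    rw [← sum_add_distrib]
    refine sum_le_sum fun m hm => ?_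
    rw [← sum_add_distrib]
    refine sum_le_sum fun n hn => ?_
    have := hpt m hm n hn
    simp only [mul_sum] at this
    exact this
  have h2 := mul_le_mul_of_nonneg_left hsum (by positivity : (0 : ℝ) ≤ 2 ^ (k + r) * 2 ^ k)
  unfold en
  refine h2.trans (le_of_eq ?_)
  rw [mul_add]
  congr 1
  unfold ch
  rw [pow_add]
  have e4 : (4 : ℝ) ^ k = 2 ^ k * 2 ^ k := by rw [← mul_pow]; norm_num
  rw [e4]
  have : (2 : ℝ) ^ r ≠ 0 := by positivity
  field_simp

theorem Wt_hs {N k : ℕ} (h : k ≤ N) (R S : ℤ) {Q : ℤ → ℤ → Prop} {F F' : ℤ → ℤ → ℝ}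
    (hQ : Agree N R S k Q F F') :
    Wt N R S k F ≤ Wt N R S k F' + chW N R S k Q F F' := by
  unfold Wt chW
  rw [← sum_add_distrib]
  refine sum_le_sum fun r hr => ?_
  rw [← mul_add]
  have := mem_range.mp hr
  exact mul_le_mul_of_nonneg_left (en_hs (by omega) R S hQ) (by positivity)

/-- the events of a family of projections -/
def evP {k : ℕ} (P : ℤ → ℤ → Matrix (Ix k) (Ix k) ℝ) (n m : ℤ) : Prop := P n m ≠ 0

/-- **Change of the functional under projections in the middle variable**, `H` static, the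
energies charged in HS form (no caps). -/
theorem BF_mid_hs {N k : ℕ} (h : k ≤ N) (R S T : ℤ) (c : ℕ → ℤ)
    {P : ℤ → ℤ → Matrix (Ix k) (Ix k) ℝ} {F F' : ℤ → ℤ → ℝ} (H : ℤ → ℤ → ℝ)
    (hP : MidP N R S k P F F') (hA : Agree N R S k (evP P) F F') {ε : ℝ} (hε : 0 < ε) :
    BF N R S T c k (F, H) ≤ BF N R S T c k (F', H)
      + (28 * ch N R S k 0 (evP P) F F' + 128 * chW N R S k (evP P) F F'
        + 2 * (ε * mxe N R S T k (c k) P F' H + (1 + ε⁻¹) * mxr N R S T k (c k) P F H)) := by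
  have a1 := Mk_mid N R S T k (c k) H hP hε
  have a2 := en_hs (r := 0) (by omega) R S hA
  have a3 := Wt_hs h R S hA
  rw [Nat.add_zero] at a2
  unfold BF
  simp only
  linarith

theorem exists_val {k : ℕ} {m x : ℤ} (hx : x ∈ iv k m) : ∃ i : Ix k, 2 ^ k * m + (val k i : ℤ) = x := by
  rw [iv, mem_Ico] at hx
  obtain ⟨j, hj⟩ : ∃ j : ℕ, (j : ℤ) = x - 2 ^ k * m := ⟨(x - 2 ^ k * m).toNat, by omega⟩
  have hj2 : j < 2 ^ k := by
    have : (j : ℤ) < 2 ^ k := by omega
    exact_mod_cast this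
  have h1 := sum_val k (fun a => if a = j then (1 : ℝ) else 0)
  have h2 : ∑ a ∈ Finset.range (2 ^ k), (if a = j then (1 : ℝ) else 0) = 1 := by
    rw [Finset.sum_ite_eq', if_pos (Finset.mem_range.mpr hj2)]
  by_contra hne
  push Not at hne
  have h3 : ∑ i : Ix k, (if val k i = j then (1 : ℝ) else 0) = 0 := by
    refine Finset.sum_eq_zero fun i _ => ?_
    rw [if_neg]
    intro he
    apply hne i
    rw [he, hj]
    ring
  rw [h3, h2] at h1
  norm_num at h1

/-- a projection `1 - 0` on the samples is agreement on the block -/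
theorem MidP.agree {N : ℕ} {R S : ℤ} {k : ℕ} {P : ℤ → ℤ → Matrix (Ix k) (Ix k) ℝ}
    {F F' : ℤ → ℤ → ℝ} (h : MidP N R S k P F F') : Agree N R S k (evP P) F F' := by
  intro n hn m hm hq x hx y hy
  have h0 : P n m = 0 := by
    by_contra h0
    exact hq h0
  have h1 := (h n hn m hm).2
  rw [h0, sub_zero, Matrix.mul_one] at h1
  obtain ⟨i, hi⟩ := exists_val hx
  obtain ⟨j, hj⟩ := exists_val hy
  have := congrFun (congrFun h1 i) j
  simp only [smp] at this
  rw [hi, hj] at this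
  exact this.symm

/-- **Path form with label events, HS charges.** -/
theorem sum_mnk_mid_hs {N : ℕ} (R S T : ℤ) {c : ℕ → ℤ} (hc : Pl c)
    {P : (k : ℕ) → ℤ → ℤ → Matrix (Ix k) (Ix k) ℝ} {Q Q' : ℕ → ℤ → ℤ → Prop}
    {F G H : ℕ → ℤ → ℤ → ℝ} {κ₃ κ' ε : ℝ}
    (hF : ∀ k < N, MidP N R S k (P k) (F (k + 1)) (G k))
    (hG : ∀ k < N, Agree N R S k (Q k) (G k) (F k)) (hH : Path N T S Q' H)
    (hF0 : F 0 = 0) (hH0 : H 0 = 0) (hε : 0 < ε)
    (h3 : ∀ k < N, CapX N R S k κ₃ (G k)) (hκ' : ∀ k < N, CapX N T S k κ' (H (k + 1))) :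
    ∑ k ∈ Icc 1 N, mnk N R S T k (c k) (F k) (H k)
      ≤ ∑ k ∈ range N, ((28 * ch N R S k 0 (evP (P k)) (F (k + 1)) (G k)
          + 128 * chW N R S k (evP (P k)) (F (k + 1)) (G k)
          + 2 * (ε * mxe N R S T k (c k) (P k) (G k) (H (k + 1))
            + (1 + ε⁻¹) * mxr N R S T k (c k) (P k) (F (k + 1)) (H (k + 1))))
        + (2 * mix N R S T k (c k) (Q k) (Q' k) (G k) (H (k + 1))
          + 540 * (κ₃ * sqQ N R S k (Q k) (G k))
          + 540 * (κ' * sqQ N T S k (Q' k) (H (k + 1))))) := by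
  refine sum_mnk_of_change R S T hc hF0 hH0 fun k hk' => ?_
  have a1 := BF_mid_hs (k := k) (by omega) R S T c (H (k + 1)) (hF k hk') (hF k hk').agree hε
  have a2 := BF_change (k := k) (by omega) R S T c (hG k hk') (hH k hk') (h3 k hk') (hκ' k hk')
  linarith

end

end Vale.Agent.P141.H170
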