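import Vale.Agent.P141.H736.Chg

/-!
# P141, line W: change of the functional `BF` under projections (label events)

The input `F` of the pair functional is changed on squares of scale `k` by an orthogonal
projection, either of the middle variable (`smp F' = smp F * (1 - P)`) or of the outer variable
(`Xg F = Xg F' + Y`).  The charge is the removed mass times the cap, plus a mixed term.
-/

namespace Vale.Agent.P141.H170

open Finset Matrix Vale.Agent.P075 Vale.Agent.P141.PL Vale.Agent.P141.PL.H588 Vale.Agent.P141.H736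

noncomputable section

open scoped Classical

/-! ### matrices -/

section mat

variable {n : Type*} [Fintype n] [DecidableEq n]

/-- orthogonal projections -/
def Prj (P : Matrix n n ℝ) : Prop := Pᵀ = P ∧ P * P = P

theorem Prj.zero : Prj (0 : Matrix n n ℝ) := ⟨by simp, by simp⟩

omit [DecidableEq n] in
theorem Prj.psd {P : Matrix n n ℝ} (h : Prj P) : P.PosSemidef := by
  have := psd_sq h.1
  rwa [h.2] at this

theorem Prj.symm {P : Matrix n n ℝ} (h : Prj P) : (1 - P)ᵀ = 1 - P := by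
  rw [transpose_sub, transpose_one, h.1]

theorem Prj.compl {P : Matrix n n ℝ} (h : Prj P) : Prj (1 - P) := by
  refine ⟨h.symm, ?_⟩
  rw [Matrix.sub_mul, Matrix.mul_sub, Matrix.mul_sub, h.2]
  simp

theorem Prj.one_sub_psd {P : Matrix n n ℝ} (h : Prj P) : (1 - P).PosSemidef := h.compl.psd

omit [DecidableEq n] in
/-- `tr (P X P) = tr (P X)` -/
theorem Prj.trace {P : Matrix n n ℝ} (h : Prj P) (X : Matrix n n ℝ) :
    (P * X * P).trace = (P * X).trace := by
  rw [trace_mul_comm, ← Matrix.mul_assoc, h.2]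

omit [DecidableEq n] in
theorem Prj.trace_nonneg {P : Matrix n n ℝ} (h : Prj P) {X : Matrix n n ℝ}
    (hX : X.PosSemidef) : 0 ≤ (P * X).trace := trace_mul_nonneg h.psd hX

/-- `X ≤ (1 + ε) Q X Q + (1 + 1 / ε) P X P` -/
theorem split_le {X P : Matrix n n ℝ} (hX : X.PosSemidef) (hP : Prj P) {ε : ℝ} (hε : 0 < ε) :
    ((1 + ε) • ((1 - P) * X * (1 - P)) + (1 + ε⁻¹) • (P * X * P) - X).PosSemidef := by
  set s : ℝ := Real.sqrt ε with hs
  have hs0 : 0 < s := Real.sqrt_pos.2 hε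
  have hs2 : s * s = ε := Real.mul_self_sqrt hε.le
  set Z : Matrix n n ℝ := s • (1 - P) - s⁻¹ • P with hZ
  have hZt : Zᵀ = Z := by
    rw [hZ, transpose_sub, transpose_smul, transpose_smul, hP.symm, hP.1]
  have h := psd_conj_symm hX hZt
  have e1 : s⁻¹ * s = 1 := inv_mul_cancel₀ hs0.ne'
  have e2 : s * s⁻¹ = 1 := mul_inv_cancel₀ hs0.ne'
  have e3 : s⁻¹ * s⁻¹ = ε⁻¹ := by rw [← mul_inv, hs2]
  have e : (1 + ε) • ((1 - P) * X * (1 - P)) + (1 + ε⁻¹) • (P * X * P) - X = Z * X * Z := by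
    rw [hZ]
    simp only [Matrix.sub_mul, Matrix.mul_sub, Matrix.smul_mul, Matrix.mul_smul, smul_smul,
      Matrix.one_mul, Matrix.mul_one, smul_sub, e1, e2, e3, hs2]
    module
  rw [e]
  exact h

/-- `φ (X + Y) ≤ φ X + R Y R` with `R = (1 + X)⁻¹` -/
theorem phi_add_le {X Y : Matrix n n ℝ} (hX : X.PosSemidef) (hY : Y.PosSemidef) :
    (phi X + res X * Y * res X - phi (X + Y)).PosSemidef := by
  have hS := res_psd (hX.add hY)
  have h := psd_conj hS (res X * Y)
  have hYt : Yᵀ = Y := psd_isSymm hY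
  rw [transpose_mul, hYt, res_symm hX] at h
  -- `R - S = R Y S = S Y R`
  have e1 : res X - res (X + Y) = res X * Y * res (X + Y) := by
    have a1 := one_add_mul_res (hX.add hY)
    have a2 := res_mul_one_add hX
    calc res X - res (X + Y) = res X * ((1 + (X + Y)) * res (X + Y))
          - (res X * (1 + X)) * res (X + Y) := by rw [a1, a2, Matrix.mul_one, Matrix.one_mul]
      _ = _ := by noncomm_ring
  have e2 : res X - res (X + Y) = res (X + Y) * Y * res X := by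
    have a1 := res_mul_one_add (hX.add hY)
    have a2 := one_add_mul_res hX
    calc res X - res (X + Y) = (res (X + Y) * (1 + (X + Y))) * res X
          - res (X + Y) * ((1 + X) * res X) := by rw [a1, a2, Matrix.mul_one, Matrix.one_mul]
      _ = _ := by noncomm_ring
  have e3 : phi X + res X * Y * res X - phi (X + Y)
      = res X * Y * res (X + Y) * (Y * res X) := by
    have : phi X + res X * Y * res X - phi (X + Y)
        = res X * Y * res X - (res X - res (X + Y)) := by rw [phi, phi]; abel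
    rw [this]
    calc res X * Y * res X - (res X - res (X + Y))
        = res X * Y * res X - res X * Y * res (X + Y) := by rw [e1]
      _ = res X * Y * (res X - res (X + Y)) := by rw [Matrix.mul_sub]
      _ = res X * Y * (res (X + Y) * Y * res X) := by rw [e2]
      _ = _ := by simp only [Matrix.mul_assoc]
  rw [e3]
  exact h

/-- `φ (l X) ≤ l φ X` for `1 ≤ l` -/
theorem phi_smul_le {X : Matrix n n ℝ} (hX : X.PosSemidef) {l : ℝ} (hl : 1 ≤ l) :
    (l • phi X - phi (l • X)).PosSemidef := by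
  obtain ⟨B, hB, rfl⟩ := exists_sq hX
  have hBt : Bᵀ = B := psd_isSymm hB
  have hl0 : 0 ≤ l := by linarith
  have h1 := H804.phi_row B
  rw [hBt] at h1
  have h2 := H804.phi_row (Real.sqrt l • B)
  have h3 : Real.sqrt l * Real.sqrt l = l := Real.mul_self_sqrt hl0
  simp only [transpose_smul, hBt, Matrix.smul_mul, Matrix.mul_smul, smul_smul, h3] at h2
  have h4 : (res (B * B) - res (l • (B * B))).PosSemidef := by
    have h5 := phi_psd hX
    have h6 := H804.phi_mono hX (hX.smul (by linarith : 0 ≤ l - 1))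
    have e : B * B + (l - 1) • (B * B) = l • (B * B) := by module
    rw [e] at h6
    have e' : res (B * B) - res (l • (B * B)) = phi (l • (B * B)) - phi (B * B) := by
      rw [phi, phi]; abel
    rw [e']
    exact h6
  have h5 := (psd_conj_symm h4 hBt).smul hl0
  have e : l • phi (B * B) - phi (l • (B * B)) = l • (B * (res (B * B) - res (l • (B * B))) * B) := by
    rw [← h1, ← h2]
    rw [Matrix.mul_sub, Matrix.sub_mul, smul_sub]
  rw [e]
  exact h5

/-- the resolvent of a matrix orthogonal to `P` -/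
theorem res_mul_prj {Z P : Matrix n n ℝ} (hZ : Z.PosSemidef) (h : Z * P = 0) : res Z * P = P := by
  have a := res_mul_one_add hZ
  have e : res Z * ((1 + Z) * P) = P := by rw [← Matrix.mul_assoc, a, Matrix.one_mul]
  rw [Matrix.add_mul, Matrix.one_mul, h, add_zero] at e
  exact e

theorem prj_mul_res {Z P : Matrix n n ℝ} (hZ : Z.PosSemidef) (h : P * Z = 0) : P * res Z = P := by
  have a := one_add_mul_res hZ
  have e : (P * (1 + Z)) * res Z = P := by rw [Matrix.mul_assoc, a, Matrix.mul_one]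
  rw [Matrix.mul_add, Matrix.mul_one, h, add_zero] at e
  exact e

/-- **the saturated matrix after a projection**:
`φ X ≤ (1 + ε) φ (Q X Q) + (1 + 1 / ε) P X P` -/
theorem phi_split {X P : Matrix n n ℝ} (hX : X.PosSemidef) (hP : Prj P) {ε : ℝ} (hε : 0 < ε) :
    ((1 + ε) • phi ((1 - P) * X * (1 - P)) + (1 + ε⁻¹) • (P * X * P) - phi X).PosSemidef := by
  have hQX : ((1 - P) * X * (1 - P)).PosSemidef := psd_conj_symm hX hP.symm
  have hPX : (P * X * P).PosSemidef := psd_conj_symm hX hP.1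
  have hε1 : (0 : ℝ) ≤ 1 + ε := by linarith
  have hε2 : (0 : ℝ) ≤ 1 + ε⁻¹ := by positivity
  have h1 : ((1 + ε) • ((1 - P) * X * (1 - P))).PosSemidef := hQX.smul hε1
  have h2 : ((1 + ε⁻¹) • (P * X * P)).PosSemidef := hPX.smul hε2
  -- monotonicity
  have m1 := H804.phi_mono hX (split_le hX hP hε)
  have e0 : X + ((1 + ε) • ((1 - P) * X * (1 - P)) + (1 + ε⁻¹) • (P * X * P) - X)
      = (1 + ε) • ((1 - P) * X * (1 - P)) + (1 + ε⁻¹) • (P * X * P) := by abel
  rw [e0] at m1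
  -- the sum is orthogonal
  have m2 := phi_add_le h1 h2
  have o1 : (1 - P) * P = 0 := by rw [Matrix.sub_mul, Matrix.one_mul, hP.2, sub_self]
  have o2 : P * (1 - P) = 0 := by rw [Matrix.mul_sub, Matrix.mul_one, hP.2, sub_self]
  have r1 : res ((1 + ε) • ((1 - P) * X * (1 - P))) * P = P := by
    refine res_mul_prj h1 ?_
    rw [Matrix.smul_mul, Matrix.mul_assoc, o1, Matrix.mul_zero, smul_zero]
  have r2 : P * res ((1 + ε) • ((1 - P) * X * (1 - P))) = P := by
    refine prj_mul_res h1 ?_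
    rw [Matrix.mul_smul, ← Matrix.mul_assoc, ← Matrix.mul_assoc, o2, Matrix.zero_mul,
      Matrix.zero_mul, smul_zero]
  have r3 : res ((1 + ε) • ((1 - P) * X * (1 - P))) * ((1 + ε⁻¹) • (P * X * P))
      * res ((1 + ε) • ((1 - P) * X * (1 - P))) = (1 + ε⁻¹) • (P * X * P) := by
    rw [Matrix.mul_smul, Matrix.smul_mul]
    congr 1
    calc res ((1 + ε) • ((1 - P) * X * (1 - P))) * (P * X * P)
          * res ((1 + ε) • ((1 - P) * X * (1 - P)))
        = (res ((1 + ε) • ((1 - P) * X * (1 - P))) * P) * X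
          * (P * res ((1 + ε) • ((1 - P) * X * (1 - P)))) := by
          simp only [Matrix.mul_assoc]
      _ = P * X * P := by rw [r1, r2]
  rw [r3] at m2
  have m3 := phi_smul_le hQX (by linarith : 1 ≤ 1 + ε)
  have := (m1.add m2).add m3
  convert this using 1
  abel

/-- trace form of `phi_split` -/
theorem trace_phi_split {X P Y : Matrix n n ℝ} (hX : X.PosSemidef) (hP : Prj P)
    (hY : Y.PosSemidef) {ε : ℝ} (hε : 0 < ε) :
    (phi X * phi Y).trace ≤ (1 + ε) * (phi ((1 - P) * X * (1 - P)) * phi Y).trace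
      + (1 + ε⁻¹) * (P * X * P * Y).trace := by
  have h1 := trace_mul_le_left (phi_psd hY) (phi_split hX hP hε)
  rw [Matrix.add_mul, trace_add, Matrix.smul_mul, Matrix.smul_mul, trace_smul, trace_smul,
    smul_eq_mul, smul_eq_mul] at h1
  have h2 : (P * X * P * phi Y).trace ≤ (P * X * P * Y).trace :=
    trace_mul_le_right (psd_conj_symm hX hP.1) (H804.phi_le_self hY)
  have h3 : (0 : ℝ) ≤ 1 + ε⁻¹ := by positivity
  have := mul_le_mul_of_nonneg_left h2 h3
  linarith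

/-- the linear term of the energy under a projection in the middle variable.  `X` is the coarse
matrix, `V` the fine one. -/
theorem cross_le {X V P : Matrix n n ℝ} (hX : X.PosSemidef) (hV : V.PosSemidef) (hP : Prj P)
    {κ κ₁ κ₂ : ℝ} (h1 : (κ₁ • (1 : Matrix n n ℝ) - phi X).PosSemidef)
    (hκ : (κ • (1 : Matrix n n ℝ) - V).PosSemidef) (hκ0 : 0 ≤ κ) (hκ1 : 0 ≤ κ₁) (hκ2 : 0 < κ₂)
    (hk : κ * κ₁ ≤ κ₂ ^ 2) :
    (phi X * (V - (1 - P) * V * (1 - P))).trace
      ≤ (κ₁ + κ₂) * (P * V).trace + κ₂ * (P * X).trace := by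
  have hφ := phi_psd hX
  have hφt : (phi X)ᵀ = phi X := phi_symm hX
  have hVt : Vᵀ = V := psd_isSymm hV
  have hPt := hP.1
  have hQt := hP.symm
  -- splitting
  have e1 : V - (1 - P) * V * (1 - P) = P * V * P + ((1 - P) * V * P + P * V * (1 - P)) := by
    noncomm_ring
  have e2 : (phi X * (P * V * (1 - P))).trace = (phi X * ((1 - P) * V * P)).trace := by
    rw [← trace_transpose]
    rw [transpose_mul, transpose_mul, transpose_mul, hφt, hVt, hPt, hQt, trace_mul_comm]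
    simp only [Matrix.mul_assoc]
  have e3 : (phi X * (V - (1 - P) * V * (1 - P))).trace
      = (phi X * (P * V * P)).trace + 2 * (phi X * ((1 - P) * V * P)).trace := by
    rw [e1, Matrix.mul_add, trace_add, Matrix.mul_add, trace_add, e2]
    ring
  -- first part
  have f1 : (phi X * (P * V * P)).trace ≤ κ₁ * (P * V).trace := by
    have := trace_mul_le_left (psd_conj_symm hV hPt) h1
    rw [Matrix.smul_mul, Matrix.one_mul, trace_smul, smul_eq_mul, hP.trace] at this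
    exact this
  -- second part
  set c : ℝ := Real.sqrt κ₂⁻¹ with hc
  have hc0 : 0 < c := Real.sqrt_pos.2 (by positivity)
  have hc2 : c * c = κ₂⁻¹ := Real.mul_self_sqrt (by positivity)
  have hc3 : c⁻¹ * c⁻¹ = κ₂ := by rw [← mul_inv, hc2, inv_inv]
  have hc4 : c * c⁻¹ = 1 := mul_inv_cancel₀ hc0.ne'
  have hc5 : c⁻¹ * c = 1 := inv_mul_cancel₀ hc0.ne'
  set D : Matrix n n ℝ := P * phi X * (1 - P) with hD
  have hDt : Dᵀ = (1 - P) * phi X * P := by
    rw [hD, transpose_mul, transpose_mul, hφt, hPt, hQt, Matrix.mul_assoc]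
  have g1 := (psd_conj hV (c • D - c⁻¹ • P)).trace_nonneg
  have g2 : ((c • D - c⁻¹ • P) * V * (c • D - c⁻¹ • P)ᵀ).trace
      = κ₂⁻¹ * (D * V * Dᵀ).trace + κ₂ * (P * V * P).trace
        - ((D * V * P).trace + (P * V * Dᵀ).trace) := by
    rw [transpose_sub, transpose_smul, transpose_smul, hPt]
    simp only [Matrix.sub_mul, Matrix.mul_sub, Matrix.smul_mul, Matrix.mul_smul,
      trace_sub, trace_smul, smul_eq_mul]
    linear_combination (D * V * Dᵀ).trace * hc2 + (P * V * P).trace * hc3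
      - (P * V * Dᵀ).trace * hc4 - (D * V * P).trace * hc4
  have g3 : (D * V * P).trace = (phi X * ((1 - P) * V * P)).trace := by
    rw [hD]
    calc (P * phi X * (1 - P) * V * P).trace = (P * (phi X * ((1 - P) * V * P))).trace := by
          simp only [Matrix.mul_assoc]
      _ = ((phi X * ((1 - P) * V * P)) * P).trace := trace_mul_comm _ _
      _ = (phi X * ((1 - P) * V * (P * P))).trace := by simp only [Matrix.mul_assoc]
      _ = _ := by rw [hP.2]
  have g4 : (P * V * Dᵀ).trace = (D * V * P).trace := by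
    have : (D * V * P)ᵀ = P * V * Dᵀ := by
      rw [transpose_mul, transpose_mul, hVt, hPt, Matrix.mul_assoc]
    rw [← this, trace_transpose]
  have g5 : (D * V * Dᵀ).trace ≤ κ * (κ₁ * (P * X).trace) := by
    have a1 : (D * V * Dᵀ).trace = (Dᵀ * D * V).trace :=
      (trace_mul_comm _ _).trans (congrArg trace (Matrix.mul_assoc _ _ _).symm)
    have a2 : (Dᵀ * D * V).trace ≤ κ * (Dᵀ * D).trace := by
      have := trace_mul_le_right (psd_transpose_mul D) hκ
      rwa [Matrix.mul_smul, Matrix.mul_one, trace_smul, smul_eq_mul] at this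
    have a3 : (Dᵀ * D).trace ≤ (P * (phi X * phi X)).trace := by
      rw [trace_mul_comm, hDt, hD]
      have b1 : P * phi X * (1 - P) * ((1 - P) * phi X * P)
          = P * (phi X * (1 - P) * phi X) * P := by
        have := hP.compl.2
        calc P * phi X * (1 - P) * ((1 - P) * phi X * P)
            = P * phi X * ((1 - P) * (1 - P)) * phi X * P := by simp only [Matrix.mul_assoc]
          _ = _ := by rw [this]; simp only [Matrix.mul_assoc]
      rw [b1, hP.trace]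
      refine trace_mul_le_right hP.psd ?_
      have b2 : phi X * phi X - phi X * (1 - P) * phi X = phi X * P * phi X := by noncomm_ring
      rw [b2]
      exact psd_conj_symm hP.psd hφt
    have a4 : (P * (phi X * phi X)).trace ≤ κ₁ * (P * X).trace := by
      obtain ⟨B, hB, hBB⟩ := exists_sq hφ
      have hBt := psd_isSymm hB
      have c1 : (κ₁ • phi X - phi X * phi X).PosSemidef := by
        have := psd_conj_symm h1 hBt
        have e : B * (κ₁ • (1 : Matrix n n ℝ) - phi X) * B = κ₁ • phi X - phi X * phi X := by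
          rw [← hBB, Matrix.mul_sub, Matrix.sub_mul, Matrix.mul_smul, Matrix.mul_one,
            Matrix.smul_mul]
          simp only [Matrix.mul_assoc]
        rwa [e] at this
      have c2 := trace_mul_le_right hP.psd c1
      rw [Matrix.mul_smul, trace_smul, smul_eq_mul] at c2
      have c3 := trace_mul_le_right hP.psd (H804.phi_le_self hX)
      have := mul_le_mul_of_nonneg_left c3 hκ1
      linarith
    rw [a1]
    have := mul_le_mul_of_nonneg_left (a3.trans a4) hκ0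
    linarith
  have hPX := hP.trace_nonneg hX
  have g6 : κ₂⁻¹ * (D * V * Dᵀ).trace ≤ κ₂ * (P * X).trace := by
    have b1 : κ₂⁻¹ * (D * V * Dᵀ).trace ≤ κ₂⁻¹ * (κ₂ ^ 2 * (P * X).trace) := by
      refine mul_le_mul_of_nonneg_left (g5.trans ?_) (by positivity)
      rw [← mul_assoc]
      exact mul_le_mul_of_nonneg_right hk hPX
    refine b1.trans (le_of_eq ?_)
    field_simp
  rw [e3]
  rw [g2, g4, g3, hP.trace] at g1
  linarith

/-- `tr (R Y R Z) ≤ |Y|_HS |Z|_HS` -/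
theorem trace_ryr_le {X Y Z : Matrix n n ℝ} (hX : X.PosSemidef) (hY : Y.PosSemidef)
    (hZ : Z.PosSemidef) {δ : ℝ} (hδ : 0 < δ) :
    (res X * Y * res X * Z).trace ≤ δ / 2 * (Y * Y).trace + δ⁻¹ / 2 * (Z * Z).trace := by
  have hR := res_psd hX
  have hRt := res_symm hX
  set W : Matrix n n ℝ := res X * Y * res X with hW
  have hWp : W.PosSemidef := psd_conj_symm hY hRt
  have hWt : Wᵀ = W := psd_isSymm hWp
  have hZt : Zᵀ = Z := psd_isSymm hZ
  set c : ℝ := Real.sqrt δ with hc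
  have hc0 : 0 < c := Real.sqrt_pos.2 hδ
  have hc2 : c * c = δ := Real.mul_self_sqrt hδ.le
  have hc3 : c⁻¹ * c⁻¹ = δ⁻¹ := by rw [← mul_inv, hc2]
  have hc4 : c * c⁻¹ = 1 := mul_inv_cancel₀ hc0.ne'
  have g1 : 0 ≤ ((c • W - c⁻¹ • Z) * (c • W - c⁻¹ • Z)).trace := by
    refine trace_sq_nonneg ?_
    rw [transpose_sub, transpose_smul, transpose_smul, hWt, hZt]
  have g2 : ((c • W - c⁻¹ • Z) * (c • W - c⁻¹ • Z)).trace
      = δ * (W * W).trace + δ⁻¹ * (Z * Z).trace - 2 * (W * Z).trace := by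
    simp only [Matrix.sub_mul, Matrix.mul_sub, Matrix.smul_mul, Matrix.mul_smul,
      trace_sub, trace_smul, smul_eq_mul]
    rw [trace_mul_comm Z W]
    linear_combination (W * W).trace * hc2 + (Z * Z).trace * hc3 - 2 * (W * Z).trace * hc4
  have g3 : (W * W).trace ≤ (Y * Y).trace := by
    -- `R Y R R Y R`: `R R ≤ 1` twice
    have hRR : (1 - res X * res X).PosSemidef := by
      have a := res_sub_sq_psd hX
      have b := one_sub_res_psd hX
      have := a.add b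
      convert this using 1
      abel
    have b1 : (W * W).trace = (Y * (res X * res X) * Y * (res X * res X)).trace := by
      rw [hW]
      calc (res X * Y * res X * (res X * Y * res X)).trace
          = (res X * (Y * (res X * res X) * Y * res X)).trace := by
            simp only [Matrix.mul_assoc]
        _ = ((Y * (res X * res X) * Y * res X) * res X).trace := trace_mul_comm _ _
        _ = _ := by simp only [Matrix.mul_assoc]
    have hRRp : (res X * res X).PosSemidef := psd_sq hRt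
    have hYt : Yᵀ = Y := psd_isSymm hY
    have b2 : (Y * (res X * res X) * Y * (res X * res X)).trace
        ≤ (Y * (res X * res X) * Y * 1).trace :=
      trace_mul_le_right (psd_conj_symm hRRp hYt) hRR
    have b3 : (Y * (res X * res X) * Y * 1).trace ≤ (Y * 1 * Y * 1).trace := by
      refine trace_mul_le_left PosSemidef.one ?_
      have e : Y * 1 * Y - Y * (res X * res X) * Y = Y * (1 - res X * res X) * Y := by
        noncomm_ring
      rw [e]
      exact psd_conj_symm hRR hYt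
    rw [b1]
    refine b2.trans (b3.trans (le_of_eq ?_))
    rw [Matrix.mul_one, Matrix.mul_one]
  have g4 := mul_le_mul_of_nonneg_left g3 hδ.le
  rw [g2] at g1
  have : δ / 2 * (Y * Y).trace + δ⁻¹ / 2 * (Z * Z).trace
      = (δ * (Y * Y).trace + δ⁻¹ * (Z * Z).trace) / 2 := by ring
  rw [this]
  linarith

end mat

/-! ### blocks: projection in the middle variable -/

/-- `F'` is obtained from `F` by the projections `1 - P n m` of the middle variable on the squares
of scale `k` of the root -/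
def MidP (N : ℕ) (R S : ℤ) (k : ℕ) (P : ℤ → ℤ → Matrix (Ix k) (Ix k) ℝ) (F F' : ℤ → ℤ → ℝ) :
    Prop :=
  ∀ n ∈ iv (N - k) R, ∀ m ∈ iv (N - k) S, Prj (P n m) ∧
    smp k k F' (2 ^ k * n) (2 ^ k * m) = smp k k F (2 ^ k * n) (2 ^ k * m) * (1 - P n m)

theorem MidP.Xg_eq {N : ℕ} {R S : ℤ} {k : ℕ} {P : ℤ → ℤ → Matrix (Ix k) (Ix k) ℝ}
    {F F' : ℤ → ℤ → ℝ} (h : MidP N R S k P F F') {n m : ℤ} (hn : n ∈ iv (N - k) R)
    (hm : m ∈ iv (N - k) S) :
    Xg k k F' n m = (1 - P n m) * Xg k k F n m * (1 - P n m) := by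
  obtain ⟨h1, h2⟩ := h n hn m hm
  rw [Xg, Xg, h2, transpose_mul, h1.symm, Matrix.mul_smul, Matrix.smul_mul]
  simp only [Matrix.mul_assoc]

/-- removed mass -/
def rm (N : ℕ) (R S : ℤ) (k : ℕ) (P : ℤ → ℤ → Matrix (Ix k) (Ix k) ℝ) (F : ℤ → ℤ → ℝ) : ℝ :=
  4 ^ k * ∑ m ∈ iv (N - k) S, ∑ n ∈ iv (N - k) R, (P n m * Xg k k F n m).trace

/-- mass of the removed directions on the coarser outer blocks of scale `k + r` -/
def rmr (N : ℕ) (R S : ℤ) (k r : ℕ) (P : ℤ → ℤ → Matrix (Ix k) (Ix k) ℝ) (F : ℤ → ℤ → ℝ) : ℝ :=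
  4 ^ k * ∑ m ∈ iv (N - k) S, ∑ n ∈ iv (N - (k + r)) R, ∑ n' ∈ iv r n,
    (P n' m * Xg (k + r) k F n m).trace

theorem phi_cap_coarse {N k r : ℕ} (h : k + r ≤ N) {R S : ℤ} {F : ℤ → ℤ → ℝ} {κ : ℝ}
    (hκ : CapX N R S k κ F) {n m : ℤ} (hn : n ∈ iv (N - (k + r)) R) (hm : m ∈ iv (N - k) S) :
    (κ • (1 : Matrix (Ix k) (Ix k) ℝ) - phi (Xg (k + r) k F n m)).PosSemidef := by
  refine phi_cap (Xg_psd (k + r) k F n m) ?_
  rcases hκ.2 with h1 | h1
  · exact Or.inl h1
  · refine Or.inr ?_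
    have e : κ • (1 : Matrix (Ix k) (Ix k) ℝ) - Xg (k + r) k F n m
        = ((2 : ℝ) ^ r)⁻¹ • ∑ n' ∈ iv r n,
          (κ • (1 : Matrix (Ix k) (Ix k) ℝ) - Xg k k F n' m) := by
      rw [Xg_mean, sum_sub_distrib, smul_sub, sum_const, card_iv, ← Nat.cast_smul_eq_nsmul ℝ,
        smul_smul]
      congr 1
      push_cast
      rw [inv_mul_cancel₀ (by positivity), one_smul]
    rw [e]
    refine PosSemidef.smul (posSemidef_sum _ fun n' hn' => h1 n' (iv_sub h hn hn') m hm)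
      (by positivity)

/-- sums over the fine outer indices through the coarse ones -/
theorem sum_coarse {N k r : ℕ} (h : k + r ≤ N) (R : ℤ) (g : ℤ → ℝ) :
    ∑ n ∈ iv (N - (k + r)) R, ∑ n' ∈ iv r n, g n' = ∑ n ∈ iv (N - k) R, g n := by
  have := H804.iv_sum (N := N - k) (k := r) (by omega) R g
  rw [← this]
  have e2 : N - k - r = N - (k + r) := by omega
  rw [e2]

/-- **change of the energy with outer scale `k + r` under projections of the middle variable** -/
theorem en_mid {N k r : ℕ} (h : k + r ≤ N) (R S : ℤ) {P : ℤ → ℤ → Matrix (Ix k) (Ix k) ℝ}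
    {F F' : ℤ → ℤ → ℝ} (hP : MidP N R S k P F F') {κ κ₁ κ₂ : ℝ} (h1 : CapX N R S k κ₁ F)
    (hκ : ∀ n ∈ iv (N - k) R, ∀ m ∈ iv (N - k) S, P n m ≠ 0 →
      (κ • (1 : Matrix (Ix k) (Ix k) ℝ) - Xg k k F n m).PosSemidef)
    (hκ0 : 0 ≤ κ) (hκ2 : 0 < κ₂) (hk : κ * κ₁ ≤ κ₂ ^ 2) :
    en N R S (k + r) k F ≤ en N R S (k + r) k F'
      + ((κ₁ + κ₂) * rm N R S k P F + κ₂ * rmr N R S k r P F) := by
  have hpt : ∀ m ∈ iv (N - k) S, ∀ n ∈ iv (N - (k + r)) R,
      GX (Xg (k + r) k F n m) ≤ GX (Xg (k + r) k F' n m)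
        + ((2 : ℝ) ^ r)⁻¹ * ∑ n' ∈ iv r n, ((κ₁ + κ₂) * (P n' m * Xg k k F n' m).trace
          + κ₂ * (P n' m * Xg (k + r) k F n m).trace) := by
    intro m hm n hn
    have hX := Xg_psd (k + r) k F n m
    have hc := GX_convex hX (Xg_psd (k + r) k F' n m)
    have hcap := phi_cap_coarse h h1 hn hm
    have e1 : Xg (k + r) k F n m - Xg (k + r) k F' n m = ((2 : ℝ) ^ r)⁻¹ • ∑ n' ∈ iv r n,
        (Xg k k F n' m - (1 - P n' m) * Xg k k F n' m * (1 - P n' m)) := by
      rw [Xg_mean, Xg_mean, ← smul_sub, ← sum_sub_distrib]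
      congr 1
      refine sum_congr rfl fun n' hn' => ?_
      rw [hP.Xg_eq (iv_sub h hn hn') hm]
    rw [e1, Matrix.mul_smul, trace_smul, smul_eq_mul, Matrix.mul_sum, trace_sum] at hc
    have h2 : ∑ n' ∈ iv r n, (phi (Xg (k + r) k F n m)
          * (Xg k k F n' m - (1 - P n' m) * Xg k k F n' m * (1 - P n' m))).trace
        ≤ ∑ n' ∈ iv r n, ((κ₁ + κ₂) * (P n' m * Xg k k F n' m).trace
          + κ₂ * (P n' m * Xg (k + r) k F n m).trace) := by
      refine sum_le_sum fun n' hn' => ?_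
      have hn'' := iv_sub h hn hn'
      by_cases h0 : P n' m = 0
      · rw [h0]
        simp
      · exact cross_le hX (Xg_psd ..) (hP n' hn'' m hm).1 hcap (hκ n' hn'' m hm h0) hκ0 h1.1
          hκ2 hk
    have h3 := mul_le_mul_of_nonneg_left h2 (by positivity : (0 : ℝ) ≤ ((2 : ℝ) ^ r)⁻¹)
    linarith
  -- summation
  have hsum : ∑ m ∈ iv (N - k) S, ∑ n ∈ iv (N - (k + r)) R, GX (Xg (k + r) k F n m)
      ≤ (∑ m ∈ iv (N - k) S, ∑ n ∈ iv (N - (k + r)) R, GX (Xg (k + r) k F' n m))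
        + ((2 : ℝ) ^ r)⁻¹ * ((κ₁ + κ₂) * (∑ m ∈ iv (N - k) S, ∑ n ∈ iv (N - k) R,
            (P n m * Xg k k F n m).trace)
          + κ₂ * ∑ m ∈ iv (N - k) S, ∑ n ∈ iv (N - (k + r)) R, ∑ n' ∈ iv r n,
            (P n' m * Xg (k + r) k F n m).trace) := by
    have e : ∀ m : ℤ, ∑ n ∈ iv (N - k) R, (P n m * Xg k k F n m).trace
        = ∑ n ∈ iv (N - (k + r)) R, ∑ n' ∈ iv r n, (P n' m * Xg k k F n' m).trace :=
      fun m => (sum_coarse h R _).symm
    simp only [e, mul_sum, mul_add]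
    rw [← sum_add_distrib, ← sum_add_distrib]
    refine sum_le_sum fun m hm => ?_
    rw [← sum_add_distrib, ← sum_add_distrib]
    refine sum_le_sum fun n hn => ?_
    have := hpt m hm n hn
    simp only [mul_sum, mul_add, sum_add_distrib] at this
    linarith
  have h2 := mul_le_mul_of_nonneg_left hsum (by positivity : (0 : ℝ) ≤ 2 ^ (k + r) * 2 ^ k)
  unfold en
  refine h2.trans (le_of_eq ?_)
  rw [mul_add]
  congr 1
  unfold rm rmr
  rw [pow_add]
  have e4 : (4 : ℝ) ^ k = 2 ^ k * 2 ^ k := by rw [← mul_pow]; norm_num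
  rw [e4]
  have : (2 : ℝ) ^ r ≠ 0 := by positivity
  field_simp

/-- total weighted mass of the removed directions -/
def rmW (N : ℕ) (R S : ℤ) (k : ℕ) (P : ℤ → ℤ → Matrix (Ix k) (Ix k) ℝ) (F : ℤ → ℤ → ℝ) : ℝ :=
  ∑ r ∈ range (N - k + 1), (3 / 4 : ℝ) ^ r * rmr N R S k r P F

theorem rm_nonneg {N : ℕ} {R S : ℤ} {k : ℕ} {P : ℤ → ℤ → Matrix (Ix k) (Ix k) ℝ}
    {F F' : ℤ → ℤ → ℝ} (hP : MidP N R S k P F F') : 0 ≤ rm N R S k P F := by
  unfold rm
  exact mul_nonneg (by positivity) (sum_nonneg fun m hm => sum_nonneg fun n hn =>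
    (hP n hn m hm).1.trace_nonneg (Xg_psd ..))

theorem rmr_nonneg {N : ℕ} {R S : ℤ} {k r : ℕ} (h : k + r ≤ N)
    {P : ℤ → ℤ → Matrix (Ix k) (Ix k) ℝ} {F F' : ℤ → ℤ → ℝ} (hP : MidP N R S k P F F') :
    0 ≤ rmr N R S k r P F := by
  unfold rmr
  exact mul_nonneg (by positivity) (sum_nonneg fun m hm => sum_nonneg fun n hn =>
    sum_nonneg fun n' hn' => (hP n' (iv_sub h hn hn') m hm).1.trace_nonneg (Xg_psd ..))

/-- at `r = 0` the coarse mass is the removed mass -/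
theorem rmr_zero (N : ℕ) (R S : ℤ) (k : ℕ) (P : ℤ → ℤ → Matrix (Ix k) (Ix k) ℝ)
    (F : ℤ → ℤ → ℝ) : rmr N R S k 0 P F = rm N R S k P F := by
  unfold rmr rm
  congr 1
  refine sum_congr rfl fun m _ => ?_
  rw [Nat.add_zero]
  refine sum_congr rfl fun n _ => ?_
  have e : iv 0 n = {n} := by
    ext x
    simp only [iv, mem_Ico, mem_singleton, pow_zero, one_mul]
    omega
  rw [e, sum_singleton]

theorem Wt_mid {N k : ℕ} (h : k ≤ N) (R S : ℤ) {P : ℤ → ℤ → Matrix (Ix k) (Ix k) ℝ}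
    {F F' : ℤ → ℤ → ℝ} (hP : MidP N R S k P F F') {κ κ₁ κ₂ : ℝ} (h1 : CapX N R S k κ₁ F)
    (hκ : ∀ n ∈ iv (N - k) R, ∀ m ∈ iv (N - k) S, P n m ≠ 0 →
      (κ • (1 : Matrix (Ix k) (Ix k) ℝ) - Xg k k F n m).PosSemidef)
    (hκ0 : 0 ≤ κ) (hκ2 : 0 < κ₂) (hk : κ * κ₁ ≤ κ₂ ^ 2) :
    Wt N R S k F ≤ Wt N R S k F' + (4 * (κ₁ + κ₂) * rm N R S k P F + κ₂ * rmW N R S k P F) := by
  unfold Wt rmW
  have h0 : 0 ≤ (κ₁ + κ₂) * rm N R S k P F :=
    mul_nonneg (add_nonneg h1.1 hκ2.le) (rm_nonneg hP)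
  have h2 : ∑ r ∈ range (N - k + 1), (3 / 4 : ℝ) ^ r * en N R S (k + r) k F
      ≤ ∑ r ∈ range (N - k + 1), ((3 / 4 : ℝ) ^ r * en N R S (k + r) k F'
        + ((3 / 4 : ℝ) ^ r * ((κ₁ + κ₂) * rm N R S k P F)
          + κ₂ * ((3 / 4 : ℝ) ^ r * rmr N R S k r P F))) := by
    refine sum_le_sum fun r hr => ?_
    have hr' := mem_range.mp hr
    have := mul_le_mul_of_nonneg_left (en_mid (r := r) (by omega) R S hP h1 hκ hκ0 hκ2 hk)
      (by positivity : (0 : ℝ) ≤ (3 / 4) ^ r)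
    refine this.trans (le_of_eq ?_)
    ring
  refine h2.trans ?_
  rw [sum_add_distrib, sum_add_distrib, ← sum_mul, ← mul_sum]
  have := mul_le_mul_of_nonneg_right (geo_le (N - k + 1)) h0
  linarith

/-- the mixed charge of an event: `ε` times the mixed energy of the new input on the changed
boxes, plus `(1 + 1 / ε) |(P F)^* (P H)|²` -/
def mxe (N : ℕ) (R S T : ℤ) (k : ℕ) (c : ℤ) (P : ℤ → ℤ → Matrix (Ix k) (Ix k) ℝ)
    (F' H : ℤ → ℤ → ℝ) : ℝ :=
  (4 : ℝ) ^ k * ∑ m ∈ iv (N - k) S, ∑ n ∈ iv (N - k) R,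
    if c - m - n ∈ iv (N - k) T ∧ P n m ≠ 0 then
      (phi (Xg k k F' n m) * phi (Xg k k H (c - m - n) m)).trace else 0

/-- the energy of the product of the removed parts -/
def mxr (N : ℕ) (R S T : ℤ) (k : ℕ) (c : ℤ) (P : ℤ → ℤ → Matrix (Ix k) (Ix k) ℝ)
    (F H : ℤ → ℤ → ℝ) : ℝ :=
  (4 : ℝ) ^ k * ∑ m ∈ iv (N - k) S, ∑ n ∈ iv (N - k) R,
    if c - m - n ∈ iv (N - k) T then
      (P n m * Xg k k F n m * P n m * Xg k k H (c - m - n) m).trace else 0

/-- **change of the mixed energy**, `H` static -/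
theorem Mk_mid (N : ℕ) (R S T : ℤ) (k : ℕ) (c : ℤ) {P : ℤ → ℤ → Matrix (Ix k) (Ix k) ℝ}
    {F F' : ℤ → ℤ → ℝ} (H : ℤ → ℤ → ℝ) (hP : MidP N R S k P F F') {ε : ℝ} (hε : 0 < ε) :
    Mk N R S T k c F H ≤ Mk N R S T k c F' H
      + (ε * mxe N R S T k c P F' H + (1 + ε⁻¹) * mxr N R S T k c P F H) := by
  have key : ∑ m ∈ iv (N - k) S, ∑ n ∈ iv (N - k) R,
      (if c - m - n ∈ iv (N - k) T then
        (phi (Xg k k F n m) * phi (Xg k k H (c - m - n) m)).trace else 0)
      ≤ ∑ m ∈ iv (N - k) S, ∑ n ∈ iv (N - k) R,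
        ((if c - m - n ∈ iv (N - k) T then
          (phi (Xg k k F' n m) * phi (Xg k k H (c - m - n) m)).trace else 0)
        + (ε * (if c - m - n ∈ iv (N - k) T ∧ P n m ≠ 0 then
          (phi (Xg k k F' n m) * phi (Xg k k H (c - m - n) m)).trace else 0)
        + (1 + ε⁻¹) * (if c - m - n ∈ iv (N - k) T then
          (P n m * Xg k k F n m * P n m * Xg k k H (c - m - n) m).trace else 0))) := by
    refine sum_le_sum fun m hm => sum_le_sum fun n hn => ?_
    by_cases hc : c - m - n ∈ iv (N - k) T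
    · rw [if_pos hc, if_pos hc, if_pos hc]
      by_cases h0 : P n m = 0
      · have e := hP.Xg_eq hn hm
        rw [h0, sub_zero, Matrix.one_mul, Matrix.mul_one] at e
        rw [if_neg (fun h => h.2 h0), e, h0]
        simp
      · rw [if_pos ⟨hc, h0⟩, hP.Xg_eq hn hm]
        have := trace_phi_split (Xg_psd k k F n m) (hP n hn m hm).1
          (Xg_psd k k H (c - m - n) m) hε
        linarith
    · rw [if_neg hc, if_neg hc, if_neg (fun h => hc h.1), if_neg hc]
      simp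
  unfold Mk mxe mxr
  have h := mul_le_mul_of_nonneg_left key (by positivity : (0 : ℝ) ≤ 4 ^ k)
  refine h.trans (le_of_eq ?_)
  simp only [sum_add_distrib, ← mul_sum]
  ring

/-- **Change of the functional under projections in the middle variable**, `H` static. -/
theorem BF_mid {N k : ℕ} (h : k ≤ N) (R S T : ℤ) (c : ℕ → ℤ)
    {P : ℤ → ℤ → Matrix (Ix k) (Ix k) ℝ} {F F' : ℤ → ℤ → ℝ} (H : ℤ → ℤ → ℝ)
    (hP : MidP N R S k P F F') {κ κ₁ κ₂ : ℝ} (h1 : CapX N R S k κ₁ F)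
    (hκ : ∀ n ∈ iv (N - k) R, ∀ m ∈ iv (N - k) S, P n m ≠ 0 →
      (κ • (1 : Matrix (Ix k) (Ix k) ℝ) - Xg k k F n m).PosSemidef)
    (hκ0 : 0 ≤ κ) (hκ2 : 0 < κ₂) (hk : κ * κ₁ ≤ κ₂ ^ 2) {ε : ℝ} (hε : 0 < ε) :
    BF N R S T c k (F, H) ≤ BF N R S T c k (F', H)
      + (540 * ((κ₁ + κ₂) * rm N R S k P F) + 28 * (κ₂ * rm N R S k P F)
        + 128 * (κ₂ * rmW N R S k P F)
        + 2 * (ε * mxe N R S T k (c k) P F' H + (1 + ε⁻¹) * mxr N R S T k (c k) P F H)) := by
  have a1 := Mk_mid N R S T k (c k) H hP hε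
  have a2 := en_mid (r := 0) (by omega) R S hP h1 hκ hκ0 hκ2 hk
  have a3 := Wt_mid h R S hP h1 hκ hκ0 hκ2 hk
  rw [Nat.add_zero, rmr_zero] at a2
  unfold BF
  simp only
  linarith

/-! ### blocks: projection in the outer variable -/

/-- `F'` is obtained from `F` by projections of the outer variable: the Gram matrices in the
middle variable are additive -/
def OutP (N : ℕ) (R S : ℤ) (k : ℕ) (Y : ℤ → ℤ → Matrix (Ix k) (Ix k) ℝ) (F F' : ℤ → ℤ → ℝ) :
    Prop :=
  ∀ n ∈ iv (N - k) R, ∀ m ∈ iv (N - k) S, (Y n m).PosSemidef ∧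
    Xg k k F n m = Xg k k F' n m + Y n m

/-- a projection of the outer variable gives `OutP` -/
theorem outP_of_smp {N : ℕ} {R S : ℤ} {k : ℕ} {P : ℤ → ℤ → Matrix (Ix k) (Ix k) ℝ}
    {F F' : ℤ → ℤ → ℝ} (h : ∀ n ∈ iv (N - k) R, ∀ m ∈ iv (N - k) S, Prj (P n m) ∧
      smp k k F' (2 ^ k * n) (2 ^ k * m) = (1 - P n m) * smp k k F (2 ^ k * n) (2 ^ k * m)) :
    OutP N R S k (fun n m => ((2 : ℝ) ^ k * 2 ^ k)⁻¹ •
      ((smp k k F (2 ^ k * n) (2 ^ k * m))ᵀ * P n m * smp k k F (2 ^ k * n) (2 ^ k * m)))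
      F F' := by
  intro n hn m hm
  obtain ⟨h1, h2⟩ := h n hn m hm
  refine ⟨?_, ?_⟩
  · refine PosSemidef.smul ?_ (by positivity)
    have := psd_conj h1.psd (smp k k F (2 ^ k * n) (2 ^ k * m))ᵀ
    rwa [transpose_transpose] at this
  · rw [Xg, Xg, h2, ← smul_add, transpose_mul, h1.symm]
    congr 1
    calc (smp k k F (2 ^ k * n) (2 ^ k * m))ᵀ * smp k k F (2 ^ k * n) (2 ^ k * m)
        = (smp k k F (2 ^ k * n) (2 ^ k * m))ᵀ * ((1 - P n m) * (1 - P n m) + P n m)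
          * smp k k F (2 ^ k * n) (2 ^ k * m) := by
          rw [h1.compl.2, sub_add_cancel, Matrix.mul_one]
      _ = _ := by
          rw [Matrix.mul_add, Matrix.add_mul]
          simp only [Matrix.mul_assoc]

/-- removed mass, outer projections -/
def rmY (N : ℕ) (R S : ℤ) (k : ℕ) (Y : ℤ → ℤ → Matrix (Ix k) (Ix k) ℝ) : ℝ :=
  4 ^ k * ∑ m ∈ iv (N - k) S, ∑ n ∈ iv (N - k) R, (Y n m).trace

theorem rmY_nonneg {N : ℕ} {R S : ℤ} {k : ℕ} {Y : ℤ → ℤ → Matrix (Ix k) (Ix k) ℝ}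
    {F F' : ℤ → ℤ → ℝ} (hY : OutP N R S k Y F F') : 0 ≤ rmY N R S k Y :=
  mul_nonneg (by positivity) (sum_nonneg fun m hm => sum_nonneg fun n hn =>
    (hY n hn m hm).1.trace_nonneg)

/-- change of the energy, outer projections -/
theorem en_out {N k r : ℕ} (h : k + r ≤ N) (R S : ℤ) {Y : ℤ → ℤ → Matrix (Ix k) (Ix k) ℝ}
    {F F' : ℤ → ℤ → ℝ} (hY : OutP N R S k Y F F') {κ : ℝ} (hκ : CapX N R S k κ F) :
    en N R S (k + r) k F ≤ en N R S (k + r) k F' + κ * rmY N R S k Y := by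
  have hpt : ∀ m ∈ iv (N - k) S, ∀ n ∈ iv (N - (k + r)) R,
      GX (Xg (k + r) k F n m) ≤ GX (Xg (k + r) k F' n m)
        + κ * (((2 : ℝ) ^ r)⁻¹ * ∑ n' ∈ iv r n, (Y n' m).trace) := by
    intro m hm n hn
    have hX := Xg_psd (k + r) k F n m
    have hc := GX_convex hX (Xg_psd (k + r) k F' n m)
    have hcap := phi_cap_coarse h hκ hn hm
    have e1 : Xg (k + r) k F n m - Xg (k + r) k F' n m
        = ((2 : ℝ) ^ r)⁻¹ • ∑ n' ∈ iv r n, Y n' m := by
      rw [Xg_mean, Xg_mean, ← smul_sub, ← sum_sub_distrib]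
      congr 1
      refine sum_congr rfl fun n' hn' => ?_
      rw [(hY n' (iv_sub h hn hn') m hm).2]
      abel
    have hE : (((2 : ℝ) ^ r)⁻¹ • ∑ n' ∈ iv r n, Y n' m).PosSemidef :=
      PosSemidef.smul (posSemidef_sum _ fun n' hn' => (hY n' (iv_sub h hn hn') m hm).1)
        (by positivity)
    have h2 := trace_mul_le_left hE hcap
    rw [Matrix.smul_mul, Matrix.one_mul, trace_smul, trace_smul, trace_sum, smul_eq_mul,
      smul_eq_mul] at h2
    rw [e1] at hc
    linarith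
  have hsum : ∑ m ∈ iv (N - k) S, ∑ n ∈ iv (N - (k + r)) R, GX (Xg (k + r) k F n m)
      ≤ (∑ m ∈ iv (N - k) S, ∑ n ∈ iv (N - (k + r)) R, GX (Xg (k + r) k F' n m))
        + κ * (((2 : ℝ) ^ r)⁻¹ * ∑ m ∈ iv (N - k) S, ∑ n ∈ iv (N - k) R, (Y n m).trace) := by
    have e : ∀ m : ℤ, ∑ n ∈ iv (N - k) R, (Y n m).trace
        = ∑ n ∈ iv (N - (k + r)) R, ∑ n' ∈ iv r n, (Y n' m).trace :=
      fun m => (sum_coarse h R _).symm
    simp only [e, mul_sum]
    rw [← sum_add_distrib]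
    refine sum_le_sum fun m hm => ?_
    rw [← sum_add_distrib]
    refine sum_le_sum fun n hn => ?_
    have := hpt m hm n hn
    simp only [mul_sum] at this
    exact this
  have h2 := mul_le_mul_of_nonneg_left hsum (by positivity : (0 : ℝ) ≤ 2 ^ (k + r) * 2 ^ k)
  unfold en
  refine h2.trans (le_of_eq ?_)
  rw [mul_add]
  congr 1
  unfold rmY
  rw [pow_add]
  have e4 : (4 : ℝ) ^ k = 2 ^ k * 2 ^ k := by rw [← mul_pow]; norm_num
  rw [e4]
  have : (2 : ℝ) ^ r ≠ 0 := by positivity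
  field_simp

theorem Wt_out {N k : ℕ} (h : k ≤ N) (R S : ℤ) {Y : ℤ → ℤ → Matrix (Ix k) (Ix k) ℝ}
    {F F' : ℤ → ℤ → ℝ} (hY : OutP N R S k Y F F') {κ : ℝ} (hκ : CapX N R S k κ F) :
    Wt N R S k F ≤ Wt N R S k F' + 4 * (κ * rmY N R S k Y) := by
  unfold Wt
  have h0 : 0 ≤ κ * rmY N R S k Y := mul_nonneg hκ.1 (rmY_nonneg hY)
  have h1 : ∑ r ∈ range (N - k + 1), (3 / 4 : ℝ) ^ r * en N R S (k + r) k F
      ≤ ∑ r ∈ range (N - k + 1), ((3 / 4 : ℝ) ^ r * en N R S (k + r) k F'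
        + (3 / 4 : ℝ) ^ r * (κ * rmY N R S k Y)) := by
    refine sum_le_sum fun r hr => ?_
    rw [← mul_add]
    have := mem_range.mp hr
    exact mul_le_mul_of_nonneg_left (en_out (by omega) R S hY hκ) (by positivity)
  refine h1.trans ?_
  rw [sum_add_distrib, ← sum_mul]
  have := mul_le_mul_of_nonneg_right (geo_le (N - k + 1)) h0
  linarith

/-- mixed charge, outer projections -/
def mxy (N : ℕ) (R S T : ℤ) (k : ℕ) (c : ℤ) (Y : ℤ → ℤ → Matrix (Ix k) (Ix k) ℝ)
    (F' H : ℤ → ℤ → ℝ) : ℝ :=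
  (4 : ℝ) ^ k * ∑ m ∈ iv (N - k) S, ∑ n ∈ iv (N - k) R,
    if c - m - n ∈ iv (N - k) T then
      (res (Xg k k F' n m) * Y n m * res (Xg k k F' n m)
        * phi (Xg k k H (c - m - n) m)).trace else 0

theorem Mk_out (N : ℕ) (R S T : ℤ) (k : ℕ) (c : ℤ) {Y : ℤ → ℤ → Matrix (Ix k) (Ix k) ℝ}
    {F F' : ℤ → ℤ → ℝ} (H : ℤ → ℤ → ℝ) (hY : OutP N R S k Y F F') :
    Mk N R S T k c F H ≤ Mk N R S T k c F' H + mxy N R S T k c Y F' H := by
  unfold Mk mxy
  rw [← mul_add, ← sum_add_distrib]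
  refine mul_le_mul_of_nonneg_left (sum_le_sum fun m hm => ?_) (by positivity)
  rw [← sum_add_distrib]
  refine sum_le_sum fun n hn => ?_
  by_cases hc : c - m - n ∈ iv (N - k) T
  · rw [if_pos hc, if_pos hc, if_pos hc]
    obtain ⟨h1, h2⟩ := hY n hn m hm
    have h3 := trace_mul_le_left (phi_psd (Xg_psd k k H (c - m - n) m))
      (phi_add_le (Xg_psd k k F' n m) h1)
    rw [← h2, Matrix.add_mul, trace_add] at h3
    exact h3
  · rw [if_neg hc, if_neg hc, if_neg hc, add_zero]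

/-- **Change of the functional under projections in the outer variable**, `H` static. -/
theorem BF_out {N k : ℕ} (h : k ≤ N) (R S T : ℤ) (c : ℕ → ℤ)
    {Y : ℤ → ℤ → Matrix (Ix k) (Ix k) ℝ} {F F' : ℤ → ℤ → ℝ} (H : ℤ → ℤ → ℝ)
    (hY : OutP N R S k Y F F') {κ : ℝ} (hκ : CapX N R S k κ F) :
    BF N R S T c k (F, H) ≤ BF N R S T c k (F', H)
      + (540 * (κ * rmY N R S k Y) + 2 * mxy N R S T k (c k) Y F' H) := by
  have a1 := Mk_out N R S T k (c k) H hY
  have a2 := en_out (r := 0) (by omega) R S hY hκ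
  have a3 := Wt_out h R S hY hκ
  rw [Nat.add_zero] at a2
  unfold BF
  simp only
  linarith

/-! ### the path form -/

/-- **Telescoping**: any change of the inputs which is charged in the functional -/
theorem sum_mnk_of_change {N : ℕ} (R S T : ℤ) {c : ℕ → ℤ} (hc : Pl c)
    {F H : ℕ → ℤ → ℤ → ℝ} {E : ℕ → ℝ} (hF0 : F 0 = 0) (hH0 : H 0 = 0)
    (hE : ∀ k < N, BF N R S T c k (F (k + 1), H (k + 1)) ≤ BF N R S T c k (F k, H k) + E k) :
    ∑ k ∈ Icc 1 N, mnk N R S T k (c k) (F k) (H k) ≤ ∑ k ∈ range N, E k := by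
  have key : ∀ n ≤ N, BF N R S T c n (F n, H n)
      + ∑ k ∈ range n, mnk N R S T (k + 1) (c (k + 1)) (F (k + 1)) (H (k + 1))
      ≤ BF N R S T c 0 (F 0, H 0) + ∑ k ∈ range n, E k := by
    intro n
    induction n with
    | zero => intro _; simp
    | succ n ih =>
      intro hn
      have h1 := ih (by omega)
      have h2 := BF_step (N := N) (k := n) (by omega) R S T hc (F (n + 1), H (n + 1))
      simp only at h2
      have h3 := hE n (by omega)
      rw [sum_range_succ, sum_range_succ]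
      linarith
  have h0 : BF N R S T c 0 (F 0, H 0) = 0 := by
    have h1 := BF_zero_le N R S T c (F 0, H 0)
    have h2 := BF_nonneg N R S T c 0 (F 0, H 0)
    have e : ∀ R S : ℤ, H588.sq N R S (0 : ℤ → ℤ → ℝ) = 0 := by
      intro R S; unfold H588.sq; simp
    rw [hF0, hH0] at *
    simp only [e] at h1
    linarith
  have h1 := key N le_rfl
  have h2 := BF_nonneg N R S T c N (F N, H N)
  have e : ∑ k ∈ Icc 1 N, mnk N R S T k (c k) (F k) (H k)
      = ∑ k ∈ range N, mnk N R S T (k + 1) (c (k + 1)) (F (k + 1)) (H (k + 1)) := by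
    rw [range_eq_Ico, sum_Ico_add' (fun k => mnk N R S T k (c k) (F k) (H k)) 0 N 1]
    rfl
  rw [e]
  linarith

/-- **Path form of the pair estimate with label events on the first input** (projections `P k` of
the middle variable at scale `k`, `F (k + 1) → G k`), followed by the usual changes on squares
(`G k → F k`, `H (k + 1) → H k`). -/
theorem sum_mnk_mid {N : ℕ} (R S T : ℤ) {c : ℕ → ℤ} (hc : Pl c)
    {P : (k : ℕ) → ℤ → ℤ → Matrix (Ix k) (Ix k) ℝ} {Q Q' : ℕ → ℤ → ℤ → Prop}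
    {F G H : ℕ → ℤ → ℤ → ℝ} {κ κ₁ κ₂ κ₃ κ' ε : ℝ}
    (hF : ∀ k < N, MidP N R S k (P k) (F (k + 1)) (G k))
    (hG : ∀ k < N, Agree N R S k (Q k) (G k) (F k)) (hH : Path N T S Q' H)
    (hF0 : F 0 = 0) (hH0 : H 0 = 0) (h1 : ∀ k < N, CapX N R S k κ₁ (F (k + 1)))
    (hκ : ∀ k < N, ∀ n ∈ iv (N - k) R, ∀ m ∈ iv (N - k) S, P k n m ≠ 0 →
      (κ • (1 : Matrix (Ix k) (Ix k) ℝ) - Xg k k (F (k + 1)) n m).PosSemidef)
    (hκ0 : 0 ≤ κ) (hκ2 : 0 < κ₂) (hk : κ * κ₁ ≤ κ₂ ^ 2) (hε : 0 < ε)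
    (h3 : ∀ k < N, CapX N R S k κ₃ (G k)) (hκ' : ∀ k < N, CapX N T S k κ' (H (k + 1))) :
    ∑ k ∈ Icc 1 N, mnk N R S T k (c k) (F k) (H k)
      ≤ ∑ k ∈ range N, (((540 * ((κ₁ + κ₂) * rm N R S k (P k) (F (k + 1)))
          + 28 * (κ₂ * rm N R S k (P k) (F (k + 1)))
          + 128 * (κ₂ * rmW N R S k (P k) (F (k + 1)))
          + 2 * (ε * mxe N R S T k (c k) (P k) (G k) (H (k + 1))
            + (1 + ε⁻¹) * mxr N R S T k (c k) (P k) (F (k + 1)) (H (k + 1)))))
        + (2 * mix N R S T k (c k) (Q k) (Q' k) (G k) (H (k + 1))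
          + 540 * (κ₃ * sqQ N R S k (Q k) (G k))
          + 540 * (κ' * sqQ N T S k (Q' k) (H (k + 1))))) := by
  refine sum_mnk_of_change R S T hc hF0 hH0 fun k hk' => ?_
  have a1 := BF_mid (k := k) (by omega) R S T c (H (k + 1)) (hF k hk') (h1 k hk') (hκ k hk')
    hκ0 hκ2 hk hε
  have a2 := BF_change (k := k) (by omega) R S T c (hG k hk') (hH k hk') (h3 k hk') (hκ' k hk')
  linarith

/-- **Path form with label events on the outer side of the first input** (`F (k + 1) → G k`). -/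
theorem sum_mnk_out {N : ℕ} (R S T : ℤ) {c : ℕ → ℤ} (hc : Pl c)
    {Y : (k : ℕ) → ℤ → ℤ → Matrix (Ix k) (Ix k) ℝ} {Q Q' : ℕ → ℤ → ℤ → Prop}
    {F G H : ℕ → ℤ → ℤ → ℝ} {κ₁ κ₃ κ' : ℝ}
    (hF : ∀ k < N, OutP N R S k (Y k) (F (k + 1)) (G k))
    (hG : ∀ k < N, Agree N R S k (Q k) (G k) (F k)) (hH : Path N T S Q' H)
    (hF0 : F 0 = 0) (hH0 : H 0 = 0) (h1 : ∀ k < N, CapX N R S k κ₁ (F (k + 1)))
    (h3 : ∀ k < N, CapX N R S k κ₃ (G k)) (hκ' : ∀ k < N, CapX N T S k κ' (H (k + 1))) :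
    ∑ k ∈ Icc 1 N, mnk N R S T k (c k) (F k) (H k)
      ≤ ∑ k ∈ range N, ((540 * (κ₁ * rmY N R S k (Y k))
          + 2 * mxy N R S T k (c k) (Y k) (G k) (H (k + 1)))
        + (2 * mix N R S T k (c k) (Q k) (Q' k) (G k) (H (k + 1))
          + 540 * (κ₃ * sqQ N R S k (Q k) (G k))
          + 540 * (κ' * sqQ N T S k (Q' k) (H (k + 1))))) := by
  refine sum_mnk_of_change R S T hc hF0 hH0 fun k hk' => ?_
  have a1 := BF_out (k := k) (by omega) R S T c (H (k + 1)) (hF k hk') (h1 k hk')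
  have a2 := BF_change (k := k) (by omega) R S T c (hG k hk') (hH k hk') (h3 k hk') (hκ' k hk')
  linarith

end

end Vale.Agent.P141.H170
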