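import Mathlib

/-!
# P141, line (A): sums over a finite family of pair bounds

Every pair theorem has the right side `c √(a b) + linear`; over a finite family (`x0`, grids,
planes) the square root is summed by Cauchy-Schwarz.
-/

namespace Vale.Agent.P141.H170.XSumP

open Finset

noncomputable section

variable {α : Type*}

/-- Cauchy-Schwarz for the square root of products -/
theorem sum_sqrt_le (I : Finset α) {a b : α → ℝ} (ha : ∀ i ∈ I, 0 ≤ a i)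
    (hb : ∀ i ∈ I, 0 ≤ b i) : ∑ i ∈ I, √(a i * b i) ≤ √((∑ i ∈ I, a i) * ∑ i ∈ I, b i) := by
  have h0 : 0 ≤ ∑ i ∈ I, √(a i * b i) := sum_nonneg fun i _ => Real.sqrt_nonneg _
  refine Real.le_sqrt_of_sq_le ?_
  have e1 : ∑ i ∈ I, √(a i * b i) = ∑ i ∈ I, √(a i) * √(b i) :=
    sum_congr rfl fun i hi => Real.sqrt_mul (ha i hi) _
  have e2 : ∑ i ∈ I, √(a i) ^ 2 = ∑ i ∈ I, a i :=
    sum_congr rfl fun i hi => Real.sq_sqrt (ha i hi)
  have e3 : ∑ i ∈ I, √(b i) ^ 2 = ∑ i ∈ I, b i :=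
    sum_congr rfl fun i hi => Real.sq_sqrt (hb i hi)
  rw [e1, ← e2, ← e3]
  exact sum_mul_sq_le_sq_mul_sq I _ _

/-- **General form**: `G i ≤ c √(a i b i) + l i`, the sums of `a`, `b`, `l` bounded. -/
theorem sum_pair (I : Finset α) {G a b l : α → ℝ} {c A B L : ℝ} (hc : 0 ≤ c)
    (ha : ∀ i ∈ I, 0 ≤ a i) (hb : ∀ i ∈ I, 0 ≤ b i)
    (h : ∀ i ∈ I, G i ≤ c * √(a i * b i) + l i) (hA : ∑ i ∈ I, a i ≤ A)
    (hB : ∑ i ∈ I, b i ≤ B) (hL : ∑ i ∈ I, l i ≤ L) :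
    ∑ i ∈ I, G i ≤ c * √(A * B) + L := by
  have h1 := sum_le_sum h
  rw [sum_add_distrib, ← mul_sum] at h1
  have h2 := mul_le_mul_of_nonneg_left (sum_sqrt_le I ha hb) hc
  have p1 : 0 ≤ ∑ i ∈ I, a i := sum_nonneg ha
  have p2 : 0 ≤ ∑ i ∈ I, b i := sum_nonneg hb
  have h3 : √((∑ i ∈ I, a i) * ∑ i ∈ I, b i) ≤ √(A * B) :=
    Real.sqrt_le_sqrt (mul_le_mul hA hB p2 (p1.trans hA))
  have h4 := mul_le_mul_of_nonneg_left h3 hc
  linarith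

/-- **Both slots capped** (`realSS`): levels `s1` (first slot), `s2` (second slot), numbers
`E i`, `E' i`, cost `C i`, affected mass `F i`, with constants `c₁ c₂ c₃ c₄ c₅`. -/
theorem sum_SS (I : Finset α) {G E EA E' C F : α → ℝ} {s1 s2 c₁ c₂ c₃ c₄ c₅ : ℝ} (h1 : 0 ≤ s1)
    (h2 : 0 ≤ s2) (hc1 : 0 ≤ c₁) (hc2 : 0 ≤ c₂) (hc3 : 0 ≤ c₃) (hc4 : 0 ≤ c₄) (hc5 : 0 ≤ c₅)
    (pE : ∀ i ∈ I, 0 ≤ E i) (pE' : ∀ i ∈ I, 0 ≤ E' i)
    (h : ∀ i ∈ I, G i ≤ c₁ * √(s1 * s2 * (E i * E' i)) + c₂ * s2 * EA i +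
      s1 * (c₃ * E' i + c₄ * C i + c₅ * F i)) {UE UA UE' UC UF : ℝ}
    (hE : ∑ i ∈ I, E i ≤ UE) (hA : ∑ i ∈ I, EA i ≤ UA) (hE' : ∑ i ∈ I, E' i ≤ UE')
    (hC : ∑ i ∈ I, C i ≤ UC) (hF : ∑ i ∈ I, F i ≤ UF) :
    ∑ i ∈ I, G i ≤ c₁ * √(s1 * s2 * (UE * UE')) + c₂ * s2 * UA +
      s1 * (c₃ * UE' + c₄ * UC + c₅ * UF) := by
  have k := sum_pair I (G := G) (a := fun i => s1 * E i) (b := fun i => s2 * E' i)
    (l := fun i => c₂ * s2 * EA i + s1 * (c₃ * E' i + c₄ * C i + c₅ * F i)) (c := c₁)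
    (A := s1 * UE) (B := s2 * UE')
    (L := c₂ * s2 * UA + s1 * (c₃ * UE' + c₄ * UC + c₅ * UF)) hc1
    (fun i hi => mul_nonneg h1 (pE i hi)) (fun i hi => mul_nonneg h2 (pE' i hi))
    (fun i hi => by
      have := h i hi
      have e : s1 * E i * (s2 * E' i) = s1 * s2 * (E i * E' i) := by ring
      rw [e]
      linarith)
    (by rw [← mul_sum]; exact mul_le_mul_of_nonneg_left hE h1)
    (by rw [← mul_sum]; exact mul_le_mul_of_nonneg_left hE' h2)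
    (by
      have e : ∑ i ∈ I, (c₂ * s2 * EA i + s1 * (c₃ * E' i + c₄ * C i + c₅ * F i))
          = c₂ * s2 * ∑ i ∈ I, EA i + s1 * (c₃ * ∑ i ∈ I, E' i + c₄ * ∑ i ∈ I, C i
            + c₅ * ∑ i ∈ I, F i) := by
        simp only [mul_sum, sum_add_distrib, mul_add]
      rw [e]
      have g1 := mul_le_mul_of_nonneg_left hA (mul_nonneg hc2 h2)
      have g3 := mul_le_mul_of_nonneg_left hE' hc3
      have g4 := mul_le_mul_of_nonneg_left hC hc4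
      have g5 := mul_le_mul_of_nonneg_left hF hc5
      have g6 := mul_le_mul_of_nonneg_left (add_le_add (add_le_add g3 g4) g5) h1
      linarith)
  have e : s1 * UE * (s2 * UE') = s1 * s2 * (UE * UE') := by ring
  rw [e] at k
  linarith

/-- **Raw first slot** (`realSR`, `rawAC_num`): `G i ≤ √(c s T i E' i) + c₂ τ E' i + c₃ τ C i +
c₄ τ F i + B i`. -/
theorem sum_SR (I : Finset α) {G T E' C F B : α → ℝ} {s τ c₁ c₂ c₃ c₄ : ℝ} (hs : 0 ≤ s)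
    (hτ : 0 ≤ τ) (hc1 : 0 ≤ c₁) (hc2 : 0 ≤ c₂) (hc3 : 0 ≤ c₃) (hc4 : 0 ≤ c₄)
    (pT : ∀ i ∈ I, 0 ≤ T i) (pE' : ∀ i ∈ I, 0 ≤ E' i)
    (h : ∀ i ∈ I, G i ≤ √(c₁ * s * T i * E' i) + c₂ * τ * E' i + c₃ * τ * C i +
      c₄ * τ * F i + B i) {UT UE' UC UF UB : ℝ} (hT : ∑ i ∈ I, T i ≤ UT)
    (hE' : ∑ i ∈ I, E' i ≤ UE') (hC : ∑ i ∈ I, C i ≤ UC) (hF : ∑ i ∈ I, F i ≤ UF)
    (hB : ∑ i ∈ I, B i ≤ UB) :
    ∑ i ∈ I, G i ≤ √(c₁ * s * UT * UE') + c₂ * τ * UE' + c₃ * τ * UC + c₄ * τ * UF + UB := by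
  have k := sum_pair I (G := G) (a := fun i => c₁ * s * T i) (b := E')
    (l := fun i => c₂ * τ * E' i + c₃ * τ * C i + c₄ * τ * F i + B i) (c := 1)
    (A := c₁ * s * UT) (B := UE') (L := c₂ * τ * UE' + c₃ * τ * UC + c₄ * τ * UF + UB)
    zero_le_one (fun i hi => mul_nonneg (mul_nonneg hc1 hs) (pT i hi)) pE'
    (fun i hi => by
      have := h i hi
      rw [one_mul]
      linarith)
    (by rw [← mul_sum]; exact mul_le_mul_of_nonneg_left hT (mul_nonneg hc1 hs))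
    hE'
    (by
      rw [sum_add_distrib, sum_add_distrib, sum_add_distrib, ← mul_sum, ← mul_sum, ← mul_sum]
      have g2 := mul_le_mul_of_nonneg_left hE' (mul_nonneg hc2 hτ)
      have g3 := mul_le_mul_of_nonneg_left hC (mul_nonneg hc3 hτ)
      have g4 := mul_le_mul_of_nonneg_left hF (mul_nonneg hc4 hτ)
      linarith)
  linarith

/-- the stack number is linear -/
theorem sum_Est (I : Finset α) (J : ℝ) (H Qo Qm : α → ℝ) :
    ∑ i ∈ I, ((J + 1) * H i + Qo i + Qm i) =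
      (J + 1) * ∑ i ∈ I, H i + ∑ i ∈ I, Qo i + ∑ i ∈ I, Qm i := by
  rw [sum_add_distrib, sum_add_distrib, ← mul_sum]

end

end Vale.Agent.P141.H170.XSumP
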