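import Vale.Agent.P075.Bdl.B1

/-!
# The middle step with a multiplier between the two saturated Gram matrices

`L` commutes with the sign `r` and is a contraction; all energies which pay are those of the two
Gram matrices without the multiplier.
-/

namespace Vale.Agent.P141.H170

open Matrix Vale.Agent.P075

variable {n m : Type*} [Fintype n] [DecidableEq n] [Fintype m] [DecidableEq m]

omit [DecidableEq n] in
/-- `L M Lᵀ` has trace norm square at most that of `M` -/
theorem trace_conj_sq_le [DecidableEq n] {L M : Matrix n n ℝ} (hM : Mᵀ = M)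
    (hL : (1 - Lᵀ * L).PosSemidef) :
    ((L * M * Lᵀ) * (L * M * Lᵀ)).trace ≤ (M * M).trace := by
  have h1 : ((L * M * Lᵀ) * (L * M * Lᵀ)).trace
      = ((L * M) * (Lᵀ * L) * (L * M)ᵀ).trace := by
    congr 1
    rw [transpose_mul, hM]
    noncomm_ring
  have h2 : 0 ≤ ((L * M) * (1 - Lᵀ * L) * (L * M)ᵀ).trace := (psd_conj hL (L * M)).trace_nonneg
  have h3 : ((L * M) * (1 - Lᵀ * L) * (L * M)ᵀ).trace
      = ((L * M) * (L * M)ᵀ).trace - ((L * M) * (Lᵀ * L) * (L * M)ᵀ).trace := by
    rw [← trace_sub]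
    congr 1
    noncomm_ring
  have h4 : ((L * M) * (L * M)ᵀ).trace = (M * (Lᵀ * L) * Mᵀ).trace := by
    rw [transpose_mul, trace_mul_comm, hM]
    rw [show M * Lᵀ * (L * M) = M * (Lᵀ * L) * M by noncomm_ring]
  have h5 : 0 ≤ (M * (1 - Lᵀ * L) * Mᵀ).trace := (psd_conj hL M).trace_nonneg
  have h6 : (M * (1 - Lᵀ * L) * Mᵀ).trace = (M * M).trace - (M * (Lᵀ * L) * Mᵀ).trace := by
    rw [← trace_sub]
    congr 1
    rw [hM]
    noncomm_ring
  linarith

/-- `Z - Z²` for `Z = L a Lᵀ` -/
theorem conj_sub_sq {L a : Matrix n n ℝ} (ha : a.PosSemidef) (ha2 : (a - a * a).PosSemidef)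
    (hL : (1 - Lᵀ * L).PosSemidef) :
    (L * a * Lᵀ - (L * a * Lᵀ) * (L * a * Lᵀ)).PosSemidef := by
  have has := psd_isSymm ha
  have e : L * a * Lᵀ - (L * a * Lᵀ) * (L * a * Lᵀ)
      = L * (a - a * a) * Lᵀ + (L * a) * (1 - Lᵀ * L) * (L * a)ᵀ := by
    rw [transpose_mul, has]
    noncomm_ring
  rw [e]
  exact (psd_conj ha2 L).add (psd_conj hL (L * a))

/-- **The middle step with a multiplier.** -/
theorem ysplitL {X Y r L : Matrix n n ℝ} (hX : X.PosSemidef) (hY : Y.PosSemidef) (hr : rᵀ = r)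
    (hr2 : r * r = 1) (hc : L * r = r * L) (hL : (1 - Lᵀ * L).PosSemidef)
    (hL' : (1 - L * Lᵀ).PosSemidef) :
    (phi X * (L * phi Y * Lᵀ)).trace + (1 / 2) * (phi X * (r * (L * phi Y * Lᵀ) * r)).trace
      - 7 * ((phi X * (r * phi X * r)).trace + (phi Y * (r * phi Y * r)).trace)
    ≤ (1 / 2) * (phi (X + r * X * r) * (L * phi (Y + r * Y * r) * Lᵀ)).trace := by
  have hX' := refl_psd hX hr
  have hY' := refl_psd hY hr
  have ea : phi (r * X * r) = r * phi X * r := phi_refl hX hr hr2
  have eb : phi (r * Y * r) = r * phi Y * r := phi_refl hY hr hr2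
  have hDX := Del_refl hX hr hr2
  have hDY := Del_refl hY hr hr2
  have hDXs := Del_symm hX hX'
  have hDYs := Del_symm hY hY'
  have sDX := trace_Del_sq_le hX hX'
  have sDY := trace_Del_sq_le hY hY'
  have hcT : r * Lᵀ = Lᵀ * r := by
    have := congrArg Matrix.transpose hc
    rwa [transpose_mul, transpose_mul, hr] at this
  have sE := trace_conj_sq_le (M := Del Y (r * Y * r)) hDYs hL
  have kX : (Del X (r * X * r) * (L * phi Y * Lᵀ)).trace ≤
      4 * (phi X * phi (r * X * r)).trace
        + (1 / 4) * (phi (r * X * r) * (L * phi Y * Lᵀ)).trace := by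
    have k1 := trace_kap_mul_le (phi_psd hX) (one_sub_phi_psd hX) (phi_psd hX')
      (psd_conj (phi_psd hY) L) (conj_sub_sq (phi_psd hY) (phi_sub_sq_psd hY) hL)
    have k2 := trace_mul_nonneg (Gam_psd hX hX') (psd_conj (phi_psd hY) L)
    rw [Del_eq, Matrix.sub_mul, trace_sub]
    linarith
  have hLT : (1 - (Lᵀ)ᵀ * Lᵀ).PosSemidef := by rwa [transpose_transpose]
  have kY : (Del Y (r * Y * r) * (Lᵀ * phi X * L)).trace ≤
      4 * (phi Y * phi (r * Y * r)).trace
        + (1 / 4) * (phi (r * Y * r) * (Lᵀ * phi X * L)).trace := by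
    have k0 := psd_conj (phi_psd hX) Lᵀ
    have k0' := conj_sub_sq (phi_psd hX) (phi_sub_sq_psd hX) hLT
    rw [transpose_transpose] at k0 k0'
    have k1 := trace_kap_mul_le (phi_psd hY) (one_sub_phi_psd hY) (phi_psd hY') k0 k0'
    have k2 := trace_mul_nonneg (Gam_psd hY hY') k0
    rw [Del_eq, Matrix.sub_mul, trace_sub]
    linarith
  have hS : phi (X + r * X * r) = phi X + phi (r * X * r) - Del X (r * X * r) := by
    rw [Del]; noncomm_ring
  have hR : phi (Y + r * Y * r) = phi Y + phi (r * Y * r) - Del Y (r * Y * r) := by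
    rw [Del]; noncomm_ring
  have hEs : (L * Del Y (r * Y * r) * Lᵀ)ᵀ = L * Del Y (r * Y * r) * Lᵀ := by
    rw [transpose_mul, transpose_mul, transpose_transpose, hDYs]
    exact (Matrix.mul_assoc _ _ _).symm
  have hcross : -(1 / 2) * (Del X (r * X * r) * Del X (r * X * r)).trace
      - (1 / 2) * (Del Y (r * Y * r) * Del Y (r * Y * r)).trace
      ≤ (Del X (r * X * r) * (L * Del Y (r * Y * r) * Lᵀ)).trace := by
    have h := trace_sq_nonneg (B := Del X (r * X * r) + L * Del Y (r * Y * r) * Lᵀ)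
      (by rw [transpose_add, hDXs, hEs])
    rw [Matrix.add_mul, Matrix.mul_add, Matrix.mul_add, trace_add, trace_add, trace_add,
      trace_mul_comm (L * Del Y (r * Y * r) * Lᵀ) (Del X (r * X * r))] at h
    linarith
  rw [hS, hR]
  rw [ea, eb] at *
  generalize Del X (r * X * r) = D at *
  generalize Del Y (r * Y * r) = E at *
  generalize phi X = a at *
  generalize phi Y = b at *
  -- move the signs through the multiplier
  have m1 : L * (r * b * r) * Lᵀ = r * (L * b * Lᵀ) * r := by
    rw [show L * (r * b * r) * Lᵀ = (L * r) * b * (r * Lᵀ) by noncomm_ring, hc, hcT]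
    noncomm_ring
  have m2 : r * (L * E * Lᵀ) * r = L * E * Lᵀ := by
    rw [show r * (L * E * Lᵀ) * r = (r * L) * E * (Lᵀ * r) by noncomm_ring, ← hc, ← hcT,
      show L * r * E * (r * Lᵀ) = L * (r * E * r) * Lᵀ by noncomm_ring, hDY]
  have m3 : (E * (Lᵀ * a * L)).trace = (a * (L * E * Lᵀ)).trace := by
    rw [show E * (Lᵀ * a * L) = E * Lᵀ * (a * L) by noncomm_ring, trace_mul_comm,
      show a * L * (E * Lᵀ) = a * (L * E * Lᵀ) by noncomm_ring]
  have m4 : (r * b * r * (Lᵀ * a * L)).trace = (a * (r * (L * b * Lᵀ) * r)).trace := by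
    rw [← m1, show r * b * r * (Lᵀ * a * L) = r * b * r * Lᵀ * (a * L) by noncomm_ring,
      trace_mul_comm, show a * L * (r * b * r * Lᵀ) = a * (L * (r * b * r) * Lᵀ) by noncomm_ring]
  have exp0 : L * (b + r * b * r - E) * Lᵀ
      = L * b * Lᵀ + r * (L * b * Lᵀ) * r - L * E * Lᵀ := by
    rw [← m1]; noncomm_ring
  rw [exp0]
  rw [m3, m4] at kY
  generalize L * b * Lᵀ = B at *
  generalize L * E * Lᵀ = F at *
  have exp1 : (a + r * a * r - D) * (B + r * B * r - F)
      = a * B + a * (r * B * r) + r * a * r * B + r * a * r * (r * B * r)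
        - D * B - D * (r * B * r) - a * F - r * a * r * F + D * F := by noncomm_ring
  have c1 : (r * a * r * (r * B * r)).trace = (a * B).trace := by
    rw [show r * a * r * (r * B * r) = r * (a * (r * r) * B * r) by noncomm_ring, hr2,
      trace_mul_comm, show a * 1 * B * r * r = a * B * (r * r) by noncomm_ring, hr2,
      Matrix.mul_one]
  have c2 : (r * a * r * B).trace = (a * (r * B * r)).trace := by
    rw [show r * a * r * B = r * (a * r * B) by noncomm_ring, trace_mul_comm]
    congr 1; noncomm_ring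
  have c3 : (D * (r * B * r)).trace = (D * B).trace := by
    conv_rhs => rw [← hDX]
    rw [show r * D * r * B = r * (D * r * B) by noncomm_ring, trace_mul_comm r]
    congr 1; noncomm_ring
  have c4 : (r * a * r * F).trace = (a * F).trace := by
    rw [show r * a * r * F = r * (a * r * F) by noncomm_ring, trace_mul_comm r,
      show a * r * F * r = a * (r * F * r) by noncomm_ring, m2]
  rw [exp1]
  simp only [trace_add, trace_sub]
  rw [c1, c2, c3, c4]
  rw [c2] at kX
  linarith

/-- the same without the gain -/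
theorem ysplitL' {X Y r L : Matrix n n ℝ} (hX : X.PosSemidef) (hY : Y.PosSemidef) (hr : rᵀ = r)
    (hr2 : r * r = 1) (hc : L * r = r * L) (hL : (1 - Lᵀ * L).PosSemidef)
    (hL' : (1 - L * Lᵀ).PosSemidef) :
    (phi X * (L * phi Y * Lᵀ)).trace
    ≤ (1 / 2) * (phi (X + r * X * r) * (L * phi (Y + r * Y * r) * Lᵀ)).trace
      + 7 * ((phi X * (r * phi X * r)).trace + (phi Y * (r * phi Y * r)).trace) := by
  have h := ysplitL hX hY hr hr2 hc hL hL'
  have h2 := trace_mul_nonneg (phi_psd hX) (psd_conj_symm (psd_conj (phi_psd hY) L) hr)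
  linarith

/-! ### The doubled index set -/

/-- a block diagonal multiplier commutes with the sign -/
theorem bd_rad (A D : Matrix m m ℝ) : bd A D * rad m = rad m * bd A D := by
  simp [bd, rad, fromBlocks_multiply]

omit [Fintype m] [DecidableEq m] in
theorem bd_transpose (A D : Matrix m m ℝ) : (bd A D)ᵀ = bd Aᵀ Dᵀ := by
  simp [bd, fromBlocks_transpose]

end Vale.Agent.P141.H170
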